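import Vale.Agent.P237U.Ellipsoid
import Vale.Agent.P237N.Step

/-!
# The equality case of the induction step, in every dimension
-/

namespace Vale.Agent.P237N

open MeasureTheory Set Metric Filter Topology Vale.Agent.P237 Vale.Agent.P237R
open Vale.Agent.P237U hiding eq_closedBall eq_of_le map_equality sliceInt_le_shadow exists_inradius
  symmetric_equality eq_ball_of_mid projBody_ball_subset
open scoped RealInnerProductSpace ENNReal Pointwise

variable {j : ℕ}

lemma volume_ball_toReal {r : ℝ} (hr : 0 ≤ r) (a : EuclideanSpace ℝ (Fin (j + 1 + 1))) :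
    (volume (closedBall a r)).toReal = unitBallVol (j + 1 + 1) * r ^ (j + 1 + 1) := by
  rw [volume_closedBall_eq a hr, kap_eq_unitBallVol (Nat.succ_pos _), ENNReal.toReal_ofReal]
  have := unitBallVol_pos (n := j + 1 + 1) (Nat.succ_pos _)
  positivity

lemma eq_closedBall {K : Set (EuclideanSpace ℝ (Fin (j + 1 + 1)))} (hK : IsCompact K)
    {a : EuclideanSpace ℝ (Fin (j + 1 + 1))} {r : ℝ} (hr : 0 < r)
    (hsub : K ⊆ closedBall a r ∨ closedBall a r ⊆ K) (hKi : K ⊆ closure (interior K))
    (hvol : (volume K).toReal = (volume (closedBall a r)).toReal) : K = closedBall a r := by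
  rw [ENNReal.toReal_eq_toReal_iff' hK.measure_lt_top.ne
    measure_closedBall_lt_top.ne] at hvol
  have key : ∀ A B : Set (EuclideanSpace ℝ (Fin (j + 1 + 1))), IsCompact A → IsCompact B →
      A ⊆ B → volume A = volume B → B ⊆ closure (interior B) → A = B := by
    intro A B hA hB hAB hv hcl
    refine Subset.antisymm hAB fun x hx => ?_
    by_contra hxA
    have hne : ((interior B) ∩ Aᶜ).Nonempty := by
      obtain ⟨y, hy⟩ := mem_closure_iff.1 (hcl hx) Aᶜ hA.isClosed.isOpen_compl hxA
      exact ⟨y, hy.2, hy.1⟩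
    have hpos := (isOpen_interior.inter hA.isClosed.isOpen_compl).measure_pos volume hne
    have h2 : volume A + volume (interior B ∩ Aᶜ) ≤ volume A :=
      calc volume A + volume (interior B ∩ Aᶜ) = volume (A ∪ (interior B ∩ Aᶜ)) :=
            (measure_union (Set.disjoint_left.2 fun z hz hz' => hz'.2 hz)
              (measurableSet_interior.inter hA.measurableSet.compl)).symm
        _ ≤ volume B := measure_mono (union_subset hAB (inter_subset_left.trans interior_subset))
        _ = volume A := hv.symm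
    exact hpos.ne' (le_antisymm
      (ENNReal.le_of_add_le_add_left hA.measure_lt_top.ne (by rwa [add_zero])) zero_le)
  rcases hsub with h | h
  · exact key K _ hK (isCompact_closedBall a r) h hvol (by
      rw [interior_closedBall a hr.ne', closure_ball a hr.ne'])
  · exact (key _ K (isCompact_closedBall a r) hK h hvol.symm hKi).symm


/-- Equality holds for bodies with smaller projection body. -/
lemma eq_of_le {P : ℝ} (hLB : LowerBound (j + 1 + 1) P) {K : Set (EuclideanSpace ℝ (Fin (j + 1 + 1)))} (hK : IsCompact K) (hc : Convex ℝ K)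
    (hi : (interior K).Nonempty) {v : ℝ}
    (hle : (volume (projBody K)).toReal ≤ P * v ^ (j + 1)) (hv : (volume K).toReal = v) :
    (volume (projBody K)).toReal = P * v ^ (j + 1) := by
  refine le_antisymm hle ?_
  have h := hLB K hK hc hi
  rw [hv, Nat.add_sub_cancel] at h
  exact (ENNReal.ofReal_le_iff_le_toReal (isCompact_projBody hK).measure_lt_top.ne).1 h


lemma map_equality {P : ℝ} (hLB : LowerBound (j + 1 + 1) P) {K : Set (EuclideanSpace ℝ (Fin (j + 1 + 1)))} (hK : IsCompact K) (hc : Convex ℝ K)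
    (h0 : (0 : EuclideanSpace ℝ (Fin (j + 1 + 1))) ∈ interior K)
    (heq : (volume (projBody K)).toReal = P * (volume K).toReal ^ (j + 1))
    (T : EuclideanSpace ℝ (Fin (j + 1 + 1)) →ₗ[ℝ] EuclideanSpace ℝ (Fin (j + 1 + 1)))
    (hT : |LinearMap.det T| = 1) :
    (0 : EuclideanSpace ℝ (Fin (j + 1 + 1))) ∈ interior (T '' K) ∧
      (volume (T '' K)).toReal = (volume K).toReal ∧
      (volume (projBody (T '' K))).toReal = P * (volume (T '' K)).toReal ^ (j + 1) := by
  have hne : LinearMap.det T ≠ 0 := fun h => by simp [h] at hT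
  have hv : (volume (T '' K)).toReal = (volume K).toReal := by
    rw [Measure.addHaar_image_linearMap, hT, ENNReal.ofReal_one, one_mul]
  set Te := (LinearMap.equivOfDetNeZero T hne).toContinuousLinearEquiv
  have hint : interior (T '' K) = T '' interior K := (Te.toHomeomorph.image_interior K).symm
  have h00 : (0 : EuclideanSpace ℝ (Fin (j + 1 + 1))) ∈ interior (T '' K) := by
    rw [hint]; exact ⟨0, h0, map_zero T⟩
  refine ⟨h00, hv, ?_⟩
  rw [hv]
  exact eq_of_le hLB (hK.image T.continuous_of_finiteDimensional) (hc.linear_image T) ⟨_, h00⟩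
    ((ENNReal.toReal_mono (isCompact_projBody hK).measure_lt_top.ne
      (volume_projBody_map_le hK hc h0 T hT)).trans_eq heq) hv


lemma sliceInt_le_shadow {Pp : ℝ} (hPp : 0 ≤ Pp) (hLBp : LowerBound (j + 1) Pp) {K : Set (EuclideanSpace ℝ (Fin (j + 1 + 1)))} (hK : IsCompact K)
    (hc : Convex ℝ K) (h0 : (0 : EuclideanSpace ℝ (Fin (j + 1 + 1))) ∈ interior K) :
    Pp * sliceInt K ^ (j + 1) ≤ (volume (etail (j + 1) '' projBody K)).toReal := by
  have hfin : volume (etail (j + 1) '' projBody K) ≠ ⊤ :=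
    ((isCompact_projBody hK).image (continuous_etail _)).measure_lt_top.ne
  refine (ENNReal.ofReal_le_iff_le_toReal hfin).1 ?_
  refine (flatBody_ge hK hc ⟨0, h0⟩ hPp hLBp).trans ?_
  have hlim : Tendsto (fun l : ℝ => ENNReal.ofReal ((l ^ (j + 1)) ^ (j + 1)) * volume (flatBody K))
      (𝓝[<] 1) (𝓝 (volume (flatBody K))) := by
    have h := (ENNReal.continuous_ofReal.comp
      (by fun_prop : Continuous fun l : ℝ => (l ^ (j + 1)) ^ (j + 1))).tendsto 1
    simp only [Function.comp_apply, one_pow, ENNReal.ofReal_one] at h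
    have h2 := ENNReal.Tendsto.mul_const (b := volume (flatBody K)) h (Or.inl one_ne_zero)
    rw [one_mul] at h2
    exact h2.mono_left nhdsWithin_le_nhds
  refine le_of_tendsto hlim ?_
  filter_upwards [self_mem_nhdsWithin, nhdsWithin_le_nhds (eventually_ge_nhds zero_lt_one)]
    with l hl1 hl0
  obtain ⟨M, hM, u, b, hb, hP, hlow, hsub⟩ := exists_polyH hK hc h0 hl0 hl1
  have hsub2 : (l ^ (j + 1)) • flatBody K ⊆ etail (j + 1) '' projBody K := by
    refine subset_trans ?_ ((flatBody_subset u b hb hP).trans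
      (image_mono ((zono_subset_projBody u b hb hP).trans (projBody_mono hsub))))
    rintro _ ⟨y, hy, rfl⟩ w hw
    have he : ‖econs 0 w‖ = 1 := by
      have h := norm_econs_sq 0 w
      rw [hw] at h
      nlinarith [norm_nonneg (econs 0 w), h]
    have e : (fun x => l • x + (0 : EuclideanSpace ℝ (Fin (j + 1 + 1)))) '' K = l • K := by
      simp [← Set.image_smul]
    rw [real_inner_smul_right, ENNReal.ofReal_mul (by positivity)]
    refine (mul_le_mul_right (hy w hw) _).trans ?_
    rw [← projVolume_scale hK hl0 0 he, e]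
    refine measure_mono ?_
    rintro z ⟨x, hx, s, hs, rfl⟩
    exact ⟨x, hlow hx, s, hs, rfl⟩
  have h := measure_mono (μ := volume) hsub2
  rwa [Measure.addHaar_smul_of_nonneg _ (by positivity), finrank_euclideanSpace_fin] at h


lemma exists_inradius {K : Set (EuclideanSpace ℝ (Fin (j + 1 + 1)))} (hK : IsCompact K)
    (hc : Convex ℝ K) (h0 : (0 : EuclideanSpace ℝ (Fin (j + 1 + 1))) ∈ interior K) :
    ∃ (r : ℝ) (v : EuclideanSpace ℝ (Fin (j + 1 + 1))), 0 < r ∧ ‖v‖ = 1 ∧ closedBall 0 r ⊆ K ∧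
      ∀ x ∈ K, ⟪v, x⟫ ≤ r := by
  have hfr : (frontier K).Nonempty := nonempty_frontier_iff.2
    ⟨⟨0, interior_subset h0⟩, fun h => noncompact_univ (EuclideanSpace ℝ (Fin (j + 1 + 1))) (h ▸ hK)⟩
  obtain ⟨p, hp, hmin⟩ := (hK.of_isClosed_subset isClosed_frontier hK.isClosed.frontier_subset).exists_isMinOn
    hfr continuous_norm.continuousOn
  have hp0 : p ≠ 0 := fun h => hp.2 (h ▸ h0)
  set r := ‖p‖ with hr
  have hr0 : 0 < r := norm_pos_iff.2 hp0
  have hball : ball 0 r ⊆ interior K := by
    intro z hz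
    have hpre : ball (0 : EuclideanSpace ℝ (Fin (j + 1 + 1))) r ⊆ interior K ∪ (closure K)ᶜ :=
      fun w hw => by
        by_cases h1 : w ∈ interior K
        · exact Or.inl h1
        · refine Or.inr fun h2 => ?_
          have h3 : r ≤ ‖w‖ := hmin ⟨h2, h1⟩
          exact absurd (mem_ball_zero_iff.1 hw) (not_lt.2 h3)
    rcases (convex_ball (0 : EuclideanSpace ℝ (Fin (j + 1 + 1))) r).isPreconnected.subset_or_subset
      isOpen_interior isClosed_closure.isOpen_compl
      (Set.disjoint_left.2 fun w hw hw' => hw' (subset_closure (interior_subset hw))) hpre with h | h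
    · exact h hz
    · exact absurd (subset_closure (interior_subset h0)) (h (mem_ball_self hr0))
  have hcb : closedBall 0 r ⊆ K := by
    rw [← closure_ball (0 : EuclideanSpace ℝ (Fin (j + 1 + 1))) hr0.ne']
    exact hK.isClosed.closure_subset_iff.2 (hball.trans interior_subset)
  obtain ⟨f, hf⟩ := geometric_hahn_banach_open_point hc.interior isOpen_interior hp.2
  set z := (InnerProductSpace.toDual ℝ (EuclideanSpace ℝ (Fin (j + 1 + 1)))).symm f with hz
  have hfz : ∀ a, f a = ⟪z, a⟫ := fun a => by rw [hz, InnerProductSpace.toDual_symm_apply]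
  have hzp : 0 < ⟪z, p⟫ := by
    have h := hf 0 h0
    rwa [map_zero, hfz] at h
  have hz0 : z ≠ 0 := fun h => by simp [h] at hzp
  have hzn : 0 < ‖z‖ := norm_pos_iff.2 hz0
  refine ⟨r, ‖z‖⁻¹ • z, hr0, by simp [norm_smul, hz0], hcb, fun x hx => ?_⟩
  have hle : ⟪z, x⟫ ≤ ⟪z, p⟫ := by
    have hcl : closure (interior K) ⊆ {y | ⟪z, y⟫ ≤ ⟪z, p⟫} := closure_minimal
      (fun y hy => (by rw [← hfz, ← hfz]; exact (hf y hy).le : ⟪z, y⟫ ≤ ⟪z, p⟫))
      (isClosed_le (by fun_prop) continuous_const)
    exact hcl (subset_closure_interior hc ⟨0, h0⟩ hx)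
  rw [real_inner_smul_left, inv_mul_le_iff₀ hzn]
  exact hle.trans (real_inner_le_norm z p)


/-- Symmetric bodies with equality are ellipsoids. -/
theorem symmetric_equality {P Pp : ℝ} (hP : 0 < P) (hPp : 0 ≤ Pp) (hLBp : LowerBound (j + 1) Pp)
    (hLB : LowerBound (j + 1 + 1) P)
    (hrigid : ∀ K : Set (EuclideanSpace ℝ (Fin (j + 1 + 1))), IsCompact K → Convex ℝ K →
      (∀ x ∈ K, -x ∈ K) → ∀ r c : ℝ, 0 < r → closedBall 0 r ⊆ K → (∀ x ∈ K, |x 0| ≤ r) →
      (∀ v, ∫ x in K, ⟪v, x⟫ ^ 2 = c * ‖v‖ ^ 2) →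
      Pp * sliceInt K ^ (j + 1) ≤ P * r * (volume K).toReal ^ j →
      (volume K).toReal = (volume (closedBall (0 : EuclideanSpace ℝ (Fin (j + 1 + 1))) r)).toReal)
    {K : Set (EuclideanSpace ℝ (Fin (j + 1 + 1)))} (hK : IsCompact K)
    (hc : Convex ℝ K) (h0 : (0 : EuclideanSpace ℝ (Fin (j + 1 + 1))) ∈ interior K)
    (hs : ∀ x ∈ K, -x ∈ K)
    (heq : (volume (projBody K)).toReal = P * (volume K).toReal ^ (j + 1)) :
    ∃ (A : EuclideanSpace ℝ (Fin (j + 1 + 1)) ≃ₗ[ℝ] EuclideanSpace ℝ (Fin (j + 1 + 1))),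
      K = A '' closedBall 0 1 := by
  obtain ⟨T, c, hT, hiso⟩ := exists_isotropic (n := j + 1 + 1) (by norm_num) hK ⟨0, h0⟩
  have hne : LinearMap.det T ≠ 0 := fun h => by simp [h] at hT
  set Te := LinearMap.equivOfDetNeZero T hne
  set K1 := T '' K with hK1
  obtain ⟨h01, hv1, heq1⟩ := map_equality hLB hK hc h0 heq T hT
  have hc1 : IsCompact K1 := hK.image T.continuous_of_finiteDimensional
  have hx1 : Convex ℝ K1 := hc.linear_image T
  obtain ⟨r, v, hr, hv, hball, hsupp⟩ := exists_inradius hc1 hx1 h01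
  obtain ⟨R, hR⟩ := exists_align v
  rw [hv, one_smul] at hR
  set K2 := R '' K1 with hK2
  have hK2' : K2 = R.toLinearEquiv.toLinearMap '' K1 := rfl
  obtain ⟨h02, hv2, heq2⟩ := map_equality hLB hc1 hx1 h01 heq1 R.toLinearEquiv.toLinearMap
    (abs_det_isometry R)
  rw [← hK2'] at h02 hv2 heq2
  have hc2 : IsCompact K2 := hc1.image R.continuous
  have hx2 : Convex ℝ K2 := hx1.linear_image R.toLinearEquiv.toLinearMap
  have hs2 : ∀ x ∈ K2, -x ∈ K2 := by
    rintro _ ⟨_, ⟨y, hy, rfl⟩, rfl⟩
    exact ⟨_, ⟨-y, hs y hy, rfl⟩, by rw [map_neg, map_neg]⟩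
  have hball2 : closedBall 0 r ⊆ K2 := fun x hx =>
    ⟨R.symm x, hball (by simpa using hx), R.apply_symm_apply x⟩
  have hslab : ∀ x ∈ K2, |x 0| ≤ r := by
    have key : ∀ y ∈ K1, R y 0 ≤ r := fun y hy => by
      have h := hsupp y hy
      rw [← R.inner_map_map, hR] at h
      simpa [e0, EuclideanSpace.inner_single_left] using h
    rintro _ ⟨y, hy, rfl⟩
    refine abs_le.2 ⟨?_, key y hy⟩
    obtain ⟨y', hy', rfl⟩ := hy
    have := key (-T y') ⟨-y', hs y' hy', map_neg T y'⟩
    rw [map_neg, PiLp.neg_apply] at this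
    linarith
  have hiso2 : ∀ w, ∫ x in K2, ⟪w, x⟫ ^ 2 = c * ‖w‖ ^ 2 := fun w => by
    have h := hiso (R.symm w)
    rw [LinearIsometryEquiv.norm_map] at h
    rw [← h, hK2, R.measurePreserving.setIntegral_image_emb R.toHomeomorph.measurableEmbedding]
    refine setIntegral_congr_fun hc1.measurableSet fun y _ => ?_
    conv_lhs => rw [← R.apply_symm_apply w, R.inner_map_map]
  obtain ⟨hZc, hZv, hZ0, hZs, -, hLv, hmid⟩ := equality_step hP hLB hc2 hx2 h02 heq2
  set V := (volume K2).toReal with hV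
  have hVp : 0 < V := toReal_pos_of_interior (n := j + 1) hc2 ⟨0, h02⟩
  set lam := 1 / (P * V ^ j) with hlam
  set L := projBody (projBody K2) with hL
  have hLc : IsCompact L := isCompact_projBody hZc
  have hLx : Convex ℝ (lam • L) := (convex_projBody hZc).smul lam
  have hLi : (interior (lam • L)).Nonempty :=
    interior_nonempty_of_volume_pos hLx (by rw [hLv]; exact hVp)
  obtain ⟨d, hd1, hd2, -⟩ := heights_of_mid_le (n := j + 1) hc2 hx2 ⟨0, h02⟩ (hLc.smul lam) hLx hLi
    hLv hmid
  have hLs : ∀ x ∈ lam • L, -x ∈ lam • L := by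
    rintro _ ⟨y, hy, rfl⟩
    exact ⟨-y, neg_mem_projBody hZc hy, smul_neg _ _⟩
  rw [sLo_eq_neg (hLc.smul lam) (hLi.mono interior_subset) hLs,
    sLo_eq_neg hc2 ⟨0, interior_subset h02⟩ hs2] at hd2
  obtain ⟨hhi, -⟩ := height_eq_ball hc2 hr.le hball2 hslab
  have hLne : L.Nonempty := by
    obtain ⟨x, y, hy, -⟩ := hLi.mono interior_subset
    exact ⟨y, hy⟩
  obtain ⟨p, hp, hp0⟩ := exists_hi hLc hLne
  have hup : lam * sHi L ≤ r := by
    have h := (height_mem (hLc.smul lam) (smul_mem_smul_set hp : lam • p ∈ lam • L)).2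
    rw [PiLp.smul_apply, smul_eq_mul, hp0] at h
    linarith
  have hslice : Pp * sliceInt K2 ^ (j + 1) ≤ P * r * V ^ j := by
    have h1 := (sliceInt_le_shadow hPp hLBp hc2 hx2 h02).trans
      (shadow_le_sHi_projBody hZc hZv ⟨0, hZ0⟩ hZs)
    refine h1.trans ?_
    rw [hlam, div_mul_eq_mul_div, one_mul, div_le_iff₀ (mul_pos hP (pow_pos hVp j))] at hup
    linarith
  have hvol := hrigid K2 hc2 hx2 hs2 r c hr hball2 hslab hiso2 hslice
  have hK2eq := eq_closedBall hc2 hr (Or.inr hball2) (subset_closure_interior hx2 ⟨0, h02⟩) hvol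
  refine ⟨((LinearEquiv.smulOfNeZero ℝ _ r hr.ne').trans R.symm.toLinearEquiv).trans Te.symm, ?_⟩
  have hb : closedBall (0 : EuclideanSpace ℝ (Fin (j + 1 + 1))) r = r • closedBall 0 1 := by
    rw [smul_unitClosedBall, Real.norm_of_nonneg hr.le]
  ext x
  constructor
  · intro hx
    have h : R (T x) ∈ K2 := ⟨_, ⟨x, hx, rfl⟩, rfl⟩
    rw [hK2eq, hb] at h
    obtain ⟨y, hy, hye⟩ := h
    refine ⟨y, hy, ?_⟩
    change Te.symm (R.symm (r • y)) = x
    rw [show r • y = R (T x) from hye, R.symm_apply_apply]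
    exact Te.symm_apply_apply x
  · rintro ⟨y, hy, rfl⟩
    have h : r • y ∈ K2 := by rw [hK2eq, hb]; exact smul_mem_smul_set hy
    obtain ⟨_, ⟨x, hx, rfl⟩, hxe⟩ := h
    change Te.symm (R.symm (r • y)) ∈ K
    rw [← hxe, R.symm_apply_apply]
    rwa [show Te.symm (T x) = x from Te.symm_apply_apply x]

/-- A body of the volume of the ball with no gain at the midpoint is a translated ball. -/
lemma eq_ball_of_mid {K : Set (EuclideanSpace ℝ (Fin (j + 1 + 1)))} (hK : IsCompact K)
    (hc : Convex ℝ K) (hi : (interior K).Nonempty)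
    (hvol : (volume (closedBall (0 : EuclideanSpace ℝ (Fin (j + 1 + 1))) 1)).toReal = (volume K).toReal)
    (hmid : (volume (midSet K (closedBall 0 1))).toReal ≤ (volume K).toReal) :
    ∃ g, K = closedBall g 1 := by
  set V := (volume K).toReal with hV
  have hVp : 0 < V := toReal_pos_of_interior (n := j + 1) hK hi
  set g := V⁻¹ • ∫ x in K, x with hg
  refine ⟨g, eq_closedBall hK one_pos (Or.inl fun x hx => ?_) (subset_closure_interior hc hi)
    (hvol.symm.trans ?_)⟩
  on_goal 2 => rw [volume_ball_toReal zero_le_one, volume_ball_toReal zero_le_one]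
  rw [mem_closedBall_iff_norm]
  rcases eq_or_ne (x - g) 0 with h0 | h0
  · simp [h0]
  set v := ‖x - g‖⁻¹ • (x - g) with hv
  have hv1 : ‖v‖ = 1 := by simp [hv, norm_smul, h0]
  obtain ⟨R, hR⟩ := exists_align v
  rw [hv1, one_smul] at hR
  set B := closedBall (0 : EuclideanSpace ℝ (Fin (j + 1 + 1))) 1
  have hRB : R '' B = B := by simp [B, LinearIsometryEquiv.image_closedBall]
  have hK' : IsCompact (R '' K) := hK.image R.continuous
  have hKi' : (interior (R '' K)).Nonempty := by
    rw [show interior (R '' K) = R '' interior K from (R.toHomeomorph.image_interior K).symm]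
    exact hi.image _
  have hBi : (interior B).Nonempty := ⟨0, ball_subset_interior_closedBall (mem_ball_self one_pos)⟩
  obtain ⟨d, hd1, hd2, hsv⟩ := heights_of_mid_le (n := j + 1) hK'
    (hc.linear_image R.toLinearEquiv.toLinearMap) hKi' (isCompact_closedBall _ _) (convex_closedBall _ _) hBi
    (by rw [volume_image_isometry]; exact hvol) (by
      rw [volume_image_isometry]
      refine le_of_eq_of_le ?_ hmid
      change (volume (midSet (R '' K) B)).toReal = _
      conv_lhs => rw [← hRB]
      rw [show midSet (R '' K) (R '' B) = R '' midSet K B from ?_, volume_image_isometry]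
      change (1 / 2 : ℝ) • (R.toLinearEquiv.toLinearMap '' K + R.toLinearEquiv.toLinearMap '' B)
        = R.toLinearEquiv.toLinearMap '' ((1 / 2 : ℝ) • (K + B))
      rw [image_smul_set, Set.image_add])
  rw [sHi_closedBall] at hd1
  have hne' : (R '' K).Nonempty := hKi'.mono interior_subset
  have hmom : ∫ y in R '' K, y 0 = -(d * V) := by
    have h0' := height_moment_ball (n := j + 1)
    rw [setIntegral_height (isCompact_closedBall _ _) (hBi.mono interior_subset)] at h0'
    rw [setIntegral_height hK' hne']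
    change ∫ t in (sLo B)..(sHi B), t * sv B t = 0 at h0'
    have hsub := intervalIntegral.integral_comp_add_right (fun t => t * sv B t) d
      (a := sLo (R '' K)) (b := sHi (R '' K))
    rw [← hd2, ← hd1] at hsub
    have hB1 : sHi B = 1 := sHi_closedBall (n := j + 1)
    rw [hB1] at h0'
    rw [h0'] at hsub
    have heq : ∫ t in (sLo (R '' K))..(sHi (R '' K)), (t + d) * sv B (t + d)
        = ∫ t in (sLo (R '' K))..(sHi (R '' K)), (t * sv (R '' K) t + d * sv (R '' K) t) := by
      refine intervalIntegral.integral_congr_ae ?_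
      filter_upwards [compl_mem_ae_iff.2 (Real.volume_singleton (a := sHi (R '' K)))] with t hne ht
      rw [uIoc_of_le (sLo_lt_sHi hK' hKi').le] at ht
      rw [hsv t ⟨ht.1, lt_of_le_of_ne ht.2 hne⟩, add_mul]
    have hmul : IntervalIntegrable (fun t => t * sv (R '' K) t) volume (sLo (R '' K)) (sHi (R '' K)) :=
      (intervalIntegrable_sv hK' _ _).continuousOn_mul continuousOn_id
    rw [heq, intervalIntegral.integral_add hmul
      ((intervalIntegrable_sv hK' _ _).const_mul d), intervalIntegral.integral_const_mul,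
      integral_sv hK' hne', volume_image_isometry, ← hV] at hsub
    linarith
  have hcoord : ∀ z, ⟪v, z⟫ = R z 0 := fun z => by
    rw [← R.inner_map_map v z, hR]
    simp [e0, EuclideanSpace.inner_single_left]
  have hgv : ⟪v, g⟫ = -d := by
    have hid : IntegrableOn (fun x : EuclideanSpace ℝ (Fin (j + 1 + 1)) => x) K :=
      continuous_id.continuousOn.integrableOn_compact hK
    rw [hg, real_inner_smul_right, ← integral_inner (𝕜 := ℝ) hid v]
    simp only [hcoord]
    rw [← R.measurePreserving.setIntegral_image_emb R.toHomeomorph.measurableEmbedding (fun y => y 0),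
      hmom]
    field_simp
  have hle : ⟪v, x⟫ ≤ sHi (R '' K) := by
    rw [hcoord]; exact (height_mem hK' ⟨x, hx, rfl⟩).2
  have hxv : ⟪v, x - g⟫ = ‖x - g‖ := by
    rw [hv, real_inner_smul_left, real_inner_self_eq_norm_sq]
    field_simp
  rw [inner_sub_right, hgv] at hxv
  linarith

/-- Bodies with equality are ellipsoids. -/
theorem ellipsoid_of_equality_gen {P Pp : ℝ} (hP : 0 < P) (hPp : 0 ≤ Pp) (hLBp : LowerBound (j + 1) Pp)
    (hLB : LowerBound (j + 1 + 1) P)
    (hrigid : ∀ K : Set (EuclideanSpace ℝ (Fin (j + 1 + 1))), IsCompact K → Convex ℝ K →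
      (∀ x ∈ K, -x ∈ K) → ∀ r c : ℝ, 0 < r → closedBall 0 r ⊆ K → (∀ x ∈ K, |x 0| ≤ r) →
      (∀ v, ∫ x in K, ⟪v, x⟫ ^ 2 = c * ‖v‖ ^ 2) →
      Pp * sliceInt K ^ (j + 1) ≤ P * r * (volume K).toReal ^ j →
      (volume K).toReal = (volume (closedBall (0 : EuclideanSpace ℝ (Fin (j + 1 + 1))) r)).toReal)
    {K : Set (EuclideanSpace ℝ (Fin (j + 1 + 1)))} (hK : IsCompact K)
    (hc : Convex ℝ K) (hi : (interior K).Nonempty)
    (heq : (volume (projBody K)).toReal = P * (volume K).toReal ^ (j + 1)) :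
    ∃ (a : EuclideanSpace ℝ (Fin (j + 1 + 1)))
      (T : EuclideanSpace ℝ (Fin (j + 1 + 1)) ≃ₗ[ℝ] EuclideanSpace ℝ (Fin (j + 1 + 1))),
      K = (fun x => a + T x) '' closedBall 0 1 := by
  obtain ⟨x₀, hx₀⟩ := hi
  set K₀ := (fun x => x + x₀) ⁻¹' K with hK₀
  have hK₀c : IsCompact K₀ := (Homeomorph.addRight x₀).isCompact_preimage.2 hK
  have hK₀v : Convex ℝ K₀ := hc.translate_preimage_left x₀
  have h0 : (0 : EuclideanSpace ℝ (Fin (j + 1 + 1))) ∈ interior K₀ := by
    have he : interior K₀ = (fun x => x + x₀) ⁻¹' interior K :=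
      ((Homeomorph.addRight x₀).preimage_interior K).symm
    rw [he]
    simpa using hx₀
  have hv0 : (volume K₀).toReal = (volume K).toReal := by rw [hK₀, measure_preimage_add_right]
  obtain ⟨hZc, hZv, hZ0, hZs, hZe, hLv, hmid⟩ := equality_step hP hLB hK₀c hK₀v h0
    (by rw [hK₀, projBody_shift, ← hK₀, hv0]; exact heq)
  obtain ⟨hLc, hLx, hL0, hLs, hLe, -, -⟩ := equality_step hP hLB hZc hZv hZ0 hZe
  obtain ⟨A, hA⟩ := symmetric_equality hP hPp hLBp hLB hrigid hLc hLx hL0 hLs hLe
  set lam := 1 / (P * (volume K₀).toReal ^ j) with hlam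
  have hlam0 : lam ≠ 0 := by
    have := toReal_pos_of_interior (n := j + 1) hK₀c ⟨0, h0⟩
    positivity
  set A' := A.trans (LinearEquiv.smulOfNeZero ℝ _ lam hlam0) with hA'
  set B := closedBall (0 : EuclideanSpace ℝ (Fin (j + 1 + 1))) 1
  have hLam : lam • projBody (projBody K₀) = A'.toLinearMap '' B := by
    rw [hA, ← Set.image_smul, Set.image_image]
    rfl
  rw [hLam] at hLv hmid
  set M := A'.symm.toLinearMap with hM
  set K' := M '' K₀ with hK'
  have hMB : M '' (A'.toLinearMap '' B) = B := by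
    rw [Set.image_image]
    simp [hM]
  have hdM : 0 ≤ |LinearMap.det M| := abs_nonneg _
  have hi' : (interior K').Nonempty := by
    rw [hK', show interior (M '' K₀) = M '' interior K₀ from
      (A'.symm.toContinuousLinearEquiv.toHomeomorph.image_interior K₀).symm]
    exact ⟨_, mem_image_of_mem M h0⟩
  obtain ⟨g, hg⟩ := eq_ball_of_mid (hK₀c.image M.continuous_of_finiteDimensional)
    (hK₀v.linear_image M) hi' (by
      change (volume B).toReal = _
      rw [← hMB, Measure.addHaar_image_linearMap volume M, Measure.addHaar_image_linearMap volume M K₀,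
        ENNReal.toReal_mul, ENNReal.toReal_mul, hLv]) (by
      change (volume (midSet (M '' K₀) B)).toReal ≤ _
      rw [← hMB, show midSet (M '' K₀) (M '' (A'.toLinearMap '' B))
        = M '' midSet K₀ (A'.toLinearMap '' B) by
          rw [midSet, midSet, image_smul_set, Set.image_add],
        Measure.addHaar_image_linearMap, Measure.addHaar_image_linearMap volume M K₀,
        ENNReal.toReal_mul, ENNReal.toReal_mul]
      exact mul_le_mul_of_nonneg_left hmid ENNReal.toReal_nonneg)
  refine ⟨x₀ + A' g, A', ?_⟩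
  ext x
  constructor
  · intro hx
    have h : M (x - x₀) ∈ M '' K₀ := mem_image_of_mem M (by simpa [hK₀] using hx)
    rw [hg, mem_closedBall_iff_norm] at h
    refine ⟨M (x - x₀) - g, by simpa [B] using h, ?_⟩
    simp only [hM, map_sub, LinearEquiv.coe_coe, LinearEquiv.apply_symm_apply]
    abel
  · rintro ⟨y, hy, rfl⟩
    have h : g + y ∈ M '' K₀ := by
      rw [hg, mem_closedBall_iff_norm]; simpa [B] using hy
    obtain ⟨z, hz, hze⟩ := h
    have hz' : z = A' (g + y) := by rw [← hze]; simp [hM]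
    rw [hz'] at hz
    simp only [hK₀, mem_preimage, map_add] at hz
    convert hz using 1
    abel

lemma projBody_ball_subset {r : ℝ} (hr : 0 ≤ r) :
    projBody (closedBall (0 : EuclideanSpace ℝ (Fin (j + 1 + 1))) r) ⊆ closedBall 0 (unitBallVol (j + 1) * r ^ (j + 1)) := by
  have hk := unitBallVol_pos (n := j + 1) (Nat.succ_pos _)
  intro y hy
  rw [mem_closedBall_zero_iff]
  rcases eq_or_ne y 0 with h0 | h0
  · rw [h0, norm_zero]; positivity
  set u := ‖y‖⁻¹ • y with hu
  have hu1 : ‖u‖ = 1 := by simp [hu, norm_smul, h0]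
  obtain ⟨R, hR⟩ := exists_align u
  rw [hu1, one_smul] at hR
  have h := hy u hu1
  rw [projVolume_eq hu1 R hR (isCompact_closedBall _ _), LinearIsometryEquiv.image_closedBall,
    map_zero] at h
  have hsub : etail (j + 1) '' closedBall (0 : EuclideanSpace ℝ (Fin (j + 1 + 1))) r
      ⊆ closedBall 0 r := by
    rintro _ ⟨x, hx, rfl⟩
    rw [mem_closedBall_zero_iff] at hx ⊢
    refine le_trans ((pow_le_pow_iff_left₀ (norm_nonneg _) (norm_nonneg x) two_ne_zero).1 ?_) hx
    conv_rhs => rw [← econs_etail x, norm_econs_sq]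
    exact le_add_of_nonneg_left (sq_nonneg _)
  have h2 := h.trans (measure_mono hsub)
  rw [volume_closedBall_eq _ hr, kap_eq_unitBallVol (Nat.succ_pos _),
    ENNReal.ofReal_le_ofReal_iff (by positivity)] at h2
  rw [hu, real_inner_smul_left, real_inner_self_eq_norm_sq] at h2
  refine le_of_eq_of_le ?_ h2
  field_simp

/-- Ellipsoids attain equality. -/
theorem equality_of_ellipsoid_gen {P : ℝ}
    (hP : P = unitBallVol (j + 1) ^ (j + 1 + 1) * (unitBallVol (j + 1 + 1) ^ j)⁻¹)
    (hLB : LowerBound (j + 1 + 1) P) (a : EuclideanSpace ℝ (Fin (j + 1 + 1)))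
    (T : EuclideanSpace ℝ (Fin (j + 1 + 1)) ≃ₗ[ℝ] EuclideanSpace ℝ (Fin (j + 1 + 1))) :
    (volume (projBody ((fun x => a + T x) '' closedBall 0 1))).toReal
      = P * (volume ((fun x => a + T x) '' closedBall 0 1)).toReal ^ (j + 1) := by
  have hk := unitBallVol_pos (n := j + 1) (Nat.succ_pos _)
  have hk2 := unitBallVol_pos (n := j + 1 + 1) (Nat.succ_pos _)
  set B := closedBall (0 : EuclideanSpace ℝ (Fin (j + 1 + 1))) 1
  have hshift : (fun x => a + T x) '' B = (fun x => x + (-a)) ⁻¹' (T.toLinearMap '' B) := by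
    rw [show (fun x => x + (-a)) ⁻¹' (T.toLinearMap '' B) = (fun x => x + a) '' (T.toLinearMap '' B) by
      rw [image_add_right], Set.image_image]
    exact image_congr fun x _ => add_comm _ _
  rw [hshift, projBody_shift, measure_preimage_add_right]
  set d := |LinearMap.det T.toLinearMap| with hd
  have hd0 : 0 < d := abs_pos.2 T.isUnit_det'.ne_zero
  set s := d ^ ((j + 1 + 1 : ℕ) : ℝ)⁻¹ with hs
  have hs0 : 0 < s := by positivity
  have hs3 : s ^ (j + 1 + 1) = d := Real.rpow_inv_natCast_pow hd0.le (by omega)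
  set T1 := s⁻¹ • T.toLinearMap with hT1
  have hdet : |LinearMap.det T1| = 1 := by
    rw [hT1, LinearMap.det_smul, finrank_euclideanSpace_fin, abs_mul, abs_pow, abs_inv, abs_of_pos hs0,
      ← hd, ← hs3, inv_pow, inv_mul_cancel₀ (by positivity)]
  have himg : T.toLinearMap '' B = T1 '' closedBall 0 s := by
    have hb : closedBall (0 : EuclideanSpace ℝ (Fin (j + 1 + 1))) s = s • B := by
      rw [show s • B = closedBall 0 s from by
        simp only [B]
        rw [smul_unitClosedBall, Real.norm_of_nonneg hs0.le]]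
    rw [hb, ← Set.image_smul, Set.image_image]
    refine image_congr fun x _ => ?_
    rw [hT1, LinearMap.smul_apply, map_smul, smul_smul, inv_mul_cancel₀ hs0.ne', one_smul]
  have hne : LinearMap.det T1 ≠ 0 := fun h => by simp [h] at hdet
  have hKc : IsCompact (T1 '' closedBall 0 s) :=
    (isCompact_closedBall _ _).image T1.continuous_of_finiteDimensional
  have h0 : (0 : EuclideanSpace ℝ (Fin (j + 1 + 1))) ∈ interior (closedBall 0 s) :=
    ball_subset_interior_closedBall (mem_ball_self hs0)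
  have hi : (interior (T1 '' closedBall 0 s)).Nonempty := by
    set Te := (LinearMap.equivOfDetNeZero T1 hne).toContinuousLinearEquiv
    rw [show interior (T1 '' closedBall 0 s) = T1 '' interior (closedBall 0 s) from
      (Te.toHomeomorph.image_interior _).symm]
    exact ⟨_, mem_image_of_mem T1 h0⟩
  have hv : (volume (T1 '' closedBall 0 s)).toReal = unitBallVol (j + 1 + 1) * s ^ (j + 1 + 1) := by
    rw [Measure.addHaar_image_linearMap, hdet, ENNReal.ofReal_one, one_mul, volume_ball_toReal hs0.le]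
  rw [himg, hv]
  refine eq_of_le hLB hKc ((convex_closedBall _ _).linear_image T1) hi ?_ hv
  refine (ENNReal.toReal_mono (isCompact_projBody (isCompact_closedBall _ _)).measure_lt_top.ne
    (volume_projBody_map_le (isCompact_closedBall _ _) (convex_closedBall _ _) h0 T1 hdet)).trans ?_
  refine (ENNReal.toReal_mono measure_closedBall_lt_top.ne
    (measure_mono (projBody_ball_subset hs0.le))).trans (le_of_eq ?_)
  rw [volume_ball_toReal (by positivity), hP]
  field_simp
  ring

end Vale.Agent.P237N
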