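import Vale.Agent.P237N.FisherPosition

/-!
# A balanced position with weight proportional to the fourth power of the inradius

A stationary matrix of `tr (T M Tᵀ) + β tr (T⁻ᵀ Q T⁻¹)` is its only minimiser up to rotation, so the
inradius of the stationary image depends continuously on `β`, and every ratio of `β` to the fourth
power of that inradius is attained.
-/

namespace Vale.Agent.P237N

open MeasureTheory Set Metric Filter Topology Vale.Agent.P237 Vale.Agent.P237R Vale.Agent.P237U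
open scoped RealInnerProductSpace ENNReal Pointwise Matrix

variable {N n : ℕ}

/-- The functional minimised by the balanced positions. -/
noncomputable def fisherObj (M Q : Matrix (Fin n) (Fin n) ℝ) (β : ℝ) (T : Matrix (Fin n) (Fin n) ℝ) : ℝ :=
  (T * M * Tᵀ).trace + β * (T.adjugateᵀ * Q * T.adjugate).trace

/-- A stationary matrix is the only minimiser up to rotation. -/
lemma stationary_le {M Q : Matrix (Fin n) (Fin n) ℝ} {β c : ℝ} (hMs : Mᵀ = M)
    (hM : ∀ v : Fin n → ℝ, v ≠ 0 → 0 < v ⬝ᵥ M *ᵥ v) (hQ : ∀ v : Fin n → ℝ, 0 ≤ v ⬝ᵥ Q *ᵥ v)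
    (hβ : 0 ≤ β) {T : Matrix (Fin n) (Fin n) ℝ} (hT : T.det = 1)
    (heq : T * M * Tᵀ - β • (T.adjugateᵀ * Q * T.adjugate) = c • 1)
    {T' : Matrix (Fin n) (Fin n) ℝ} (hT' : T'.det = 1) :
    fisherObj M Q β T ≤ fisherObj M Q β T' ∧
      (fisherObj M Q β T' ≤ fisherObj M Q β T →
        (T' * T.adjugate)ᵀ * (T' * T.adjugate) = 1) := by
  classical
  have hTA : T * T.adjugate = 1 := by rw [Matrix.mul_adjugate, hT, one_smul]
  have hAT : T.adjugate * T = 1 := by rw [Matrix.adjugate_mul, hT, one_smul]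
  set A := T' * T.adjugate with hA
  have hA1 : A.det = 1 := by rw [hA, Matrix.det_mul, Matrix.det_adjugate, hT, hT', one_pow, one_mul]
  have hAB : A * A.adjugate = 1 := by rw [Matrix.mul_adjugate, hA1, one_smul]
  have hBA : A.adjugate * A = 1 := by rw [Matrix.adjugate_mul, hA1, one_smul]
  have hT'e : T' = A * T := by rw [hA, Matrix.mul_assoc, hAT, mul_one]
  set X := T * M * Tᵀ with hX
  set Y := T.adjugateᵀ * Q * T.adjugate with hY
  have hobj : fisherObj M Q β T' = ((Aᵀ * A) * X).trace + β * ((A.adjugate * A.adjugateᵀ) * Y).trace := by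
    have e1 : T' * M * T'ᵀ = A * X * Aᵀ := by
      rw [hT'e, hX]; simp [Matrix.transpose_mul, Matrix.mul_assoc]
    have e2 : T'.adjugateᵀ * Q * T'.adjugate = A.adjugateᵀ * Y * A.adjugate := by
      rw [hT'e, hY]; simp [Matrix.adjugate_mul_distrib, Matrix.transpose_mul, Matrix.mul_assoc]
    rw [fisherObj, e1, e2, Matrix.trace_mul_cycle A X Aᵀ, Matrix.trace_mul_cycle A.adjugateᵀ Y A.adjugate]
  have hPpd : (Aᵀ * A).PosDef := by
    have hinj : Function.Injective A.mulVec := fun x y h => by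
      have := congrArg (A.adjugate *ᵥ ·) h
      simpa [Matrix.mulVec_mulVec, hBA] using this
    simpa [Matrix.conjTranspose_eq_transpose_of_trivial] using Matrix.PosDef.conjTranspose_mul_self A hinj
  set U : Matrix (Fin n) (Fin n) ℝ := (hPpd.1.eigenvectorUnitary : Matrix (Fin n) (Fin n) ℝ) with hU
  set d := hPpd.1.eigenvalues with hd
  have hd0 : ∀ a, 0 < d a := hPpd.eigenvalues_pos
  have hUU : Uᵀ * U = 1 := by
    have h := Unitary.coe_star_mul_self hPpd.1.eigenvectorUnitary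
    simpa [Matrix.star_eq_conjTranspose, Matrix.conjTranspose_eq_transpose_of_trivial] using h
  have hUU' : U * Uᵀ = 1 := mul_eq_one_comm.1 hUU
  have hspec : Aᵀ * A = U * Matrix.diagonal d * Uᵀ := by
    have h := hPpd.1.spectral_theorem
    rw [Unitary.conjStarAlgAut_apply] at h
    simpa [Matrix.star_eq_conjTranspose, Matrix.conjTranspose_eq_transpose_of_trivial] using h
  have hdd : Matrix.diagonal d * Matrix.diagonal (fun a => (d a)⁻¹) = 1 := by
    rw [Matrix.diagonal_mul_diagonal, ← Matrix.diagonal_one]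
    exact congrArg _ (funext fun a => mul_inv_cancel₀ (hd0 a).ne')
  have hinv : A.adjugate * A.adjugateᵀ = U * Matrix.diagonal (fun a => (d a)⁻¹) * Uᵀ := by
    refine left_inv_eq_right_inv (a := Aᵀ * A) ?_ ?_
    · calc A.adjugate * A.adjugateᵀ * (Aᵀ * A)
          = A.adjugate * (A * A.adjugate)ᵀ * A := by simp [Matrix.transpose_mul, Matrix.mul_assoc]
        _ = 1 := by rw [hAB, Matrix.transpose_one, mul_one, hBA]
    · rw [hspec]
      calc U * Matrix.diagonal d * Uᵀ * (U * Matrix.diagonal (fun a => (d a)⁻¹) * Uᵀ)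
          = U * Matrix.diagonal d * (Uᵀ * U) * Matrix.diagonal (fun a => (d a)⁻¹) * Uᵀ := by
            simp only [Matrix.mul_assoc]
        _ = U * (Matrix.diagonal d * Matrix.diagonal (fun a => (d a)⁻¹)) * Uᵀ := by
            rw [hUU]; simp only [Matrix.mul_assoc, Matrix.one_mul]
        _ = 1 := by rw [hdd, mul_one, hUU']
  have htr : ∀ (e : Fin n → ℝ) (Z : Matrix (Fin n) (Fin n) ℝ),
      ((U * Matrix.diagonal e * Uᵀ) * Z).trace = ∑ a, e a * (Uᵀ * Z * U) a a := fun e Z => by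
    rw [Matrix.mul_assoc, Matrix.mul_assoc, Matrix.trace_mul_comm, Matrix.trace]
    refine Finset.sum_congr rfl fun a _ => ?_
    rw [Matrix.diag, Matrix.mul_assoc, Matrix.diagonal_mul, Matrix.mul_assoc]
  have htr1 : ∀ Z : Matrix (Fin n) (Fin n) ℝ, Z.trace = ∑ a, (Uᵀ * Z * U) a a := fun Z => by
    change _ = (Uᵀ * Z * U).trace
    rw [Matrix.trace_mul_cycle, hUU', one_mul]
  set X' := Uᵀ * X * U with hX'
  set Y' := Uᵀ * Y * U with hY'
  have hXY : ∀ a, X' a a - β * Y' a a = c := fun a => by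
    have h : X' - β • Y' = c • 1 := by
      rw [hX', hY', ← Matrix.smul_mul, ← Matrix.mul_smul, ← Matrix.sub_mul, ← Matrix.mul_sub, heq,
        Matrix.mul_smul, Matrix.mul_one, Matrix.smul_mul, hUU]
    simpa using congrFun (congrFun h a) a
  have hXpos : ∀ a, 0 < X' a a := fun a => by
    have hMpd : M.PosDef := Matrix.PosDef.of_dotProduct_mulVec_pos
      (by rw [Matrix.IsHermitian, Matrix.conjTranspose_eq_transpose_of_trivial, hMs])
      (fun x hx => by rw [star_trivial]; exact hM x hx)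
    have hinj : Function.Injective (Tᵀ * U).mulVec := fun x y h => by
      have := congrArg ((Uᵀ * T.adjugateᵀ) *ᵥ ·) h
      simp only [Matrix.mulVec_mulVec] at this
      rw [show Uᵀ * T.adjugateᵀ * (Tᵀ * U) = Uᵀ * (T * T.adjugate)ᵀ * U by
        simp [Matrix.transpose_mul, Matrix.mul_assoc], hTA, Matrix.transpose_one, mul_one, hUU] at this
      simpa using this
    have h := (hMpd.conjTranspose_mul_mul_same hinj).diag_pos (i := a)
    rw [Matrix.conjTranspose_eq_transpose_of_trivial] at h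
    rw [hX', hX]
    simpa [Matrix.transpose_mul, Matrix.mul_assoc] using h
  have hYnn : ∀ a, 0 ≤ Y' a a := fun a => by
    refine le_of_le_of_eq (hQ (fun k => (T.adjugate * U) k a)) ?_
    rw [hY', hY, show Uᵀ * (T.adjugateᵀ * Q * T.adjugate) * U = (T.adjugate * U)ᵀ * Q * (T.adjugate * U) by
      simp [Matrix.transpose_mul, Matrix.mul_assoc], Matrix.mul_assoc, Matrix.mul_apply]
    rfl
  have hlog : ∑ a, Real.log (d a) = 0 := by
    rw [← Real.log_prod (fun a _ => (hd0 a).ne')]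
    have h := hPpd.1.det_eq_prod_eigenvalues
    rw [Matrix.det_mul, Matrix.det_transpose, hA1, one_mul] at h
    rw [hd]
    simp only [RCLike.ofReal_real_eq_id, id_eq] at h
    rw [← h, Real.log_one]
  have hterm : ∀ a, c * Real.log (d a) ≤ (d a - 1) * X' a a + β * ((d a)⁻¹ - 1) * Y' a a := by
    intro a
    have h1 : 0 ≤ (d a - 1 - Real.log (d a)) * X' a a :=
      mul_nonneg (by linarith [Real.log_le_sub_one_of_pos (hd0 a)]) (hXpos a).le
    have h2 : 0 ≤ β * ((d a)⁻¹ - 1 + Real.log (d a)) * Y' a a := by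
      refine mul_nonneg (mul_nonneg hβ ?_) (hYnn a)
      have := Real.log_le_sub_one_of_pos (inv_pos.2 (hd0 a))
      rw [Real.log_inv] at this
      linarith
    rw [← hXY a]
    linarith
  have hdiff : fisherObj M Q β T' - fisherObj M Q β T
      = ∑ a, ((d a - 1) * X' a a + β * ((d a)⁻¹ - 1) * Y' a a) := by
    rw [hobj, hspec, hinv, htr, htr, fisherObj, ← hX, ← hY, htr1 X, htr1 Y, ← hX', ← hY']
    simp only [Finset.mul_sum, ← Finset.sum_add_distrib, ← Finset.sum_sub_distrib]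
    exact Finset.sum_congr rfl fun a _ => by ring
  have hsum : ∑ a, c * Real.log (d a) = 0 := by rw [← Finset.mul_sum, hlog, mul_zero]
  have hge := Finset.sum_le_sum (s := Finset.univ) fun a _ => hterm a
  refine ⟨by linarith, fun hle => ?_⟩
  have hall := (Finset.sum_eq_sum_iff_of_le (s := Finset.univ) fun a _ => hterm a).1
    (le_antisymm hge (by linarith))
  have hd1 : d = fun _ => 1 := funext fun a => by
    by_contra hne
    have h1 : 0 < (d a - 1 - Real.log (d a)) * X' a a :=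
      mul_pos (by linarith [Real.log_lt_sub_one_of_pos (hd0 a) hne]) (hXpos a)
    have h2 : 0 ≤ β * ((d a)⁻¹ - 1 + Real.log (d a)) * Y' a a := by
      refine mul_nonneg (mul_nonneg hβ ?_) (hYnn a)
      have := Real.log_le_sub_one_of_pos (inv_pos.2 (hd0 a))
      rw [Real.log_inv] at this
      linarith
    have h := hall a (Finset.mem_univ a)
    rw [← hXY a] at h
    linarith
  rw [hspec, hd1, Matrix.diagonal_one, mul_one, hUU']

/-- Minimisers for bounded weights are bounded. -/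
lemma stationary_bounded (hn : 0 < n) {M Q : Matrix (Fin n) (Fin n) ℝ} (hMs : Mᵀ = M)
    (hM : ∀ v : Fin n → ℝ, v ≠ 0 → 0 < v ⬝ᵥ M *ᵥ v) (hQ : ∀ v : Fin n → ℝ, 0 ≤ v ⬝ᵥ Q *ᵥ v) (B : ℝ) :
    ∃ R : ℝ, ∀ (β c : ℝ) (T : Matrix (Fin n) (Fin n) ℝ), 0 ≤ β → β ≤ B → T.det = 1 →
      T * M * Tᵀ - β • (T.adjugateᵀ * Q * T.adjugate) = c • 1 → ∀ a b, |T a b| ≤ R := by
  obtain ⟨m, hm, hmle⟩ : ∃ m > 0, ∀ v : Fin n → ℝ, m * ‖v‖ ^ 2 ≤ v ⬝ᵥ M *ᵥ v := by
    have hc : Continuous fun v : Fin n → ℝ => v ⬝ᵥ M *ᵥ v := by fun_prop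
    have hne : (sphere (0 : Fin n → ℝ) 1).Nonempty := by
      refine ⟨Pi.single ⟨0, hn⟩ 1, ?_⟩
      simp [Pi.norm_single]
    obtain ⟨v0, hv0, hmin⟩ := (isCompact_sphere (0 : Fin n → ℝ) 1).exists_isMinOn hne hc.continuousOn
    refine ⟨_, hM v0 (fun h => by simp [h] at hv0), fun v => ?_⟩
    rcases eq_or_ne v 0 with rfl | hv
    · simp
    have h := hmin (show ‖v‖⁻¹ • v ∈ sphere (0 : Fin n → ℝ) 1 by simp [norm_smul, hv])
    simp only [mem_ofPred_eq, smul_dotProduct, Matrix.mulVec_smul, dotProduct_smul, smul_eq_mul] at h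
    have hp : 0 < ‖v‖ := norm_pos_iff.2 hv
    field_simp at h
    linarith
  have hrow : ∀ T : Matrix (Fin n) (Fin n) ℝ, ∀ a, (T * M * Tᵀ) a a = T a ⬝ᵥ M *ᵥ T a := by
    intro T a
    rw [Matrix.mul_assoc, Matrix.mul_apply]
    refine Finset.sum_congr rfl fun k _ => ?_
    rw [Matrix.mul_apply]
    rfl
  have hQnn : ∀ A : Matrix (Fin n) (Fin n) ℝ, 0 ≤ (Aᵀ * Q * A).trace := fun A =>
    Finset.sum_nonneg fun a _ => by
      refine le_of_le_of_eq (hQ (fun k => A k a)) ?_
      rw [Matrix.diag, Matrix.mul_assoc, Matrix.mul_apply]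
      rfl
  refine ⟨√(fisherObj M Q B 1 / m), fun β c T hβ hβB hT heq a b => ?_⟩
  have h1 : m * ‖T a‖ ^ 2 ≤ fisherObj M Q B 1 := by
    refine (hmle (T a)).trans ?_
    rw [← hrow]
    refine le_trans ?_ ((stationary_le hMs hM hQ hβ hT heq (T' := 1) Matrix.det_one).1.trans ?_)
    · refine le_add_of_le_of_nonneg (Finset.single_le_sum (f := fun i => (T * M * Tᵀ) i i)
        (fun i _ => ?_) (Finset.mem_univ a)) (mul_nonneg hβ (hQnn _))
      rw [hrow]
      exact (mul_nonneg hm.le (sq_nonneg _)).trans (hmle _)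
    · exact add_le_add le_rfl (mul_le_mul_of_nonneg_right hβB (hQnn _))
  refine (norm_le_pi_norm (T a) b).trans ?_
  refine Real.le_sqrt_of_sq_le ?_
  rw [le_div_iff₀ hm]
  linarith

/-- A limit of minimisers is a minimiser. -/
lemma obj_le_of_tendsto {M Q : Matrix (Fin n) (Fin n) ℝ} {β : ℕ → ℝ} {β0 : ℝ}
    {T : ℕ → Matrix (Fin n) (Fin n) ℝ} {T0 T' : Matrix (Fin n) (Fin n) ℝ}
    (hβ : Tendsto β atTop (𝓝 β0)) (hT : Tendsto T atTop (𝓝 T0))
    (h : ∀ k, fisherObj M Q (β k) (T k) ≤ fisherObj M Q (β k) T') :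
    fisherObj M Q β0 T0 ≤ fisherObj M Q β0 T' := by
  have hc1 : Continuous fun X : Matrix (Fin n) (Fin n) ℝ => (X * M * Xᵀ).trace := by fun_prop
  have hc2 : Continuous fun X : Matrix (Fin n) (Fin n) ℝ => (X.adjugateᵀ * Q * X.adjugate).trace := by
    fun_prop
  simp only [fisherObj] at h ⊢
  exact le_of_tendsto_of_tendsto' (((hc1.tendsto T0).comp hT).add (hβ.mul ((hc2.tendsto T0).comp hT)))
    (tendsto_const_nhds.add (hβ.mul tendsto_const_nhds)) h

/-- Invariant functions of minimisers are continuous in the weight. -/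
lemma continuous_stationary (hn : 0 < n) {M Q : Matrix (Fin n) (Fin n) ℝ} (hMs : Mᵀ = M)
    (hM : ∀ v : Fin n → ℝ, v ≠ 0 → 0 < v ⬝ᵥ M *ᵥ v) (hQ : ∀ v : Fin n → ℝ, 0 ≤ v ⬝ᵥ Q *ᵥ v)
    {F : Matrix (Fin n) (Fin n) ℝ → ℝ} (hFc : ContinuousOn F {T | T.det = 1})
    (hFinv : ∀ O T : Matrix (Fin n) (Fin n) ℝ, O.det = 1 → Oᵀ * O = 1 → T.det = 1 → F (O * T) = F T)
    {Tb : ℝ → Matrix (Fin n) (Fin n) ℝ} {cb : ℝ → ℝ} (hTb : ∀ β, (Tb β).det = 1)
    (hcb : ∀ β, Tb β * M * (Tb β)ᵀ - max β 0 • ((Tb β).adjugateᵀ * Q * (Tb β).adjugate) = cb β • 1) :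
    Continuous fun β => F (Tb β) := by
  refine continuous_iff_continuousAt.2 fun β0 => tendsto_iff_seq_tendsto.2 fun s hs => ?_
  refine tendsto_of_subseq_tendsto fun ns hns => ?_
  obtain ⟨R, hR⟩ := stationary_bounded hn hMs hM hQ (max (β0 + 1) 0)
  obtain ⟨k0, hk0⟩ := eventually_atTop.1
    ((hs.comp hns).eventually (eventually_lt_nhds (by linarith : β0 < β0 + 1)))
  have hcpt : IsCompact (Set.pi Set.univ fun _ : Fin n => Set.pi Set.univ fun _ : Fin n => Icc (-R) R) :=
    isCompact_univ_pi fun _ => isCompact_univ_pi fun _ => isCompact_Icc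
  obtain ⟨T1, -, φ, hφ, hlim⟩ := hcpt.tendsto_subseq' (x := fun k a b => Tb (s (ns k)) a b)
    (Eventually.frequently (eventually_atTop.2 ⟨k0, fun k hk a _ b _ => abs_le.1
      (hR _ _ _ (le_max_right _ _) (max_le_max_right 0 (hk0 k hk).le) (hTb _) (hcb _) a b)⟩))
  refine ⟨φ, ?_⟩
  replace hlim : Tendsto (fun k => Tb (s (ns (φ k)))) atTop (𝓝 (Matrix.of T1)) := hlim
  generalize hT1 : Matrix.of T1 = T1' at hlim
  clear hT1 T1
  rename' T1' => T1
  have hdet : T1.det = 1 := by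
    have h := ((by fun_prop : Continuous fun T : Matrix (Fin n) (Fin n) ℝ => T.det).tendsto T1).comp hlim
    simp only [Function.comp_def, hTb] at h
    exact tendsto_nhds_unique h tendsto_const_nhds
  have hle : fisherObj M Q (max β0 0) T1 ≤ fisherObj M Q (max β0 0) (Tb β0) :=
    obj_le_of_tendsto (((hs.comp hns).comp hφ.tendsto_atTop).max tendsto_const_nhds) hlim
      fun k => (stationary_le hMs hM hQ (le_max_right _ _) (hTb _) (hcb _) (hTb β0)).1
  have horth := (stationary_le hMs hM hQ (le_max_right β0 0) (hTb β0) (hcb β0) hdet).2 hle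
  have hval : F T1 = F (Tb β0) := by
    have e : T1 = T1 * (Tb β0).adjugate * Tb β0 := by
      rw [Matrix.mul_assoc, Matrix.adjugate_mul, hTb, one_smul, mul_one]
    conv_lhs => rw [e]
    exact hFinv _ _ (by rw [Matrix.det_mul, Matrix.det_adjugate, hTb, hdet, one_pow, one_mul])
      horth (hTb β0)
  change Tendsto (fun k => F (Tb (s (ns (φ k))))) atTop (𝓝 (F (Tb β0)))
  rw [← hval]
  exact (hFc T1 hdet).tendsto.comp
    (tendsto_nhdsWithin_iff.2 ⟨hlim, Eventually.of_forall fun k => hTb _⟩)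

/-- A continuous rotation invariant ratio can be prescribed for the weight. -/
theorem exists_balanced_param (hn : 0 < n) (M Q : Matrix (Fin n) (Fin n) ℝ) (hMs : Mᵀ = M)
    (hQs : Qᵀ = Q) (hM : ∀ v : Fin n → ℝ, v ≠ 0 → 0 < v ⬝ᵥ M *ᵥ v)
    (hQ : ∀ v : Fin n → ℝ, 0 ≤ v ⬝ᵥ Q *ᵥ v) (F : Matrix (Fin n) (Fin n) ℝ → ℝ)
    (hFc : ContinuousOn F {T | T.det = 1})
    (hFinv : ∀ O T : Matrix (Fin n) (Fin n) ℝ, O.det = 1 → Oᵀ * O = 1 → T.det = 1 → F (O * T) = F T)
    (hF0 : ∀ T : Matrix (Fin n) (Fin n) ℝ, T.det = 1 → 0 ≤ F T) {C : ℝ}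
    (hFC : ∀ T : Matrix (Fin n) (Fin n) ℝ, T.det = 1 → F T ≤ C) {κ : ℝ} (hκ : 0 ≤ κ) :
    ∃ (T : Matrix (Fin n) (Fin n) ℝ) (c : ℝ), T.det = 1 ∧
      T * M * Tᵀ - (κ * F T) • (T.adjugateᵀ * Q * T.adjugate) = c • 1 := by
  classical
  have hex : ∀ β : ℝ, ∃ (T : Matrix (Fin n) (Fin n) ℝ) (c : ℝ), T.det = 1 ∧
      T * M * Tᵀ - (max β 0) • (T.adjugateᵀ * Q * T.adjugate) = c • 1 := fun β =>
    exists_stationary hn M Q hMs hQs hM hQ (le_max_right β 0)
  choose Tb cb hTb hcb using hex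
  have hcont := continuous_stationary hn hMs hM hQ hFc hFinv hTb hcb
  have hC : 0 ≤ C := (hF0 1 Matrix.det_one).trans (hFC 1 Matrix.det_one)
  obtain ⟨β, hβ, hzero⟩ := intermediate_value_Icc (mul_nonneg hκ hC)
    (continuous_id.sub (hcont.const_mul κ)).continuousOn
    (show (0 : ℝ) ∈ Icc ((0 : ℝ) - κ * F (Tb 0)) (κ * C - κ * F (Tb (κ * C))) from
      ⟨by have := mul_nonneg hκ (hF0 _ (hTb 0)); linarith,
        sub_nonneg.2 (mul_le_mul_of_nonneg_left (hFC _ (hTb _)) hκ)⟩)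
  simp only [Pi.sub_apply, id_eq, sub_eq_zero] at hzero
  refine ⟨Tb β, cb β, hTb β, ?_⟩
  rw [← hzero]
  have h := hcb β
  rwa [max_eq_left hβ.1] at h

variable {j : ℕ}

/-- Every symmetric polytope has a balanced position whose weight is a given multiple of the fourth
power of its inradius. -/
theorem exists_balanced_position [NeZero N] (u : Fin N → EuclideanSpace ℝ (Fin (j + 1 + 1)))
    (b : Fin N → ℝ) (hb : ∀ i, 0 < b i) (hK : IsCompact (polyH u b))
    (hs : ∀ x ∈ polyH u b, -x ∈ polyH u b) {κ : ℝ} (hκ : 0 ≤ κ) :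
    ∃ (w : Fin N → EuclideanSpace ℝ (Fin (j + 1 + 1))) (r c : ℝ), 0 < r ∧ IsCompact (polyH w b) ∧
      (∀ x ∈ polyH w b, -x ∈ polyH w b) ∧ closedBall 0 r ⊆ polyH w b ∧
      (∀ x ∈ polyH w b, |x 0| ≤ r) ∧
      (∀ v, (∫ x in polyH w b, ⟪v, x⟫ ^ 2) - κ * r ^ 4 * ∑ i, fisherWt w b i * ⟪w i, v⟫ ^ 2
        = c * ‖v‖ ^ 2) ∧
      (∑ i, fisherWt w b i * ‖w i‖ ^ 2)
        ≤ ((j + 1 + 1 : ℕ) : ℝ) * (volume (polyH w b)).toReal / r ^ 2 ∧
      volume (polyH w b) = volume (polyH u b) ∧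
      volume (zono (gens w b)) = volume (zono (gens u b)) ∧
      ∃ T : EuclideanSpace ℝ (Fin (j + 1 + 1)) →ₗ[ℝ] EuclideanSpace ℝ (Fin (j + 1 + 1)),
        |LinearMap.det T| = 1 ∧ polyH w b = T '' polyH u b := by
  classical
  set V := (volume (polyH u b)).toReal with hV
  have hi := interior_polyH_nonempty u b hb
  have hQs := fisherMat_symm u b
  have hpos : ∀ T : Matrix (Fin (j + 1 + 1)) (Fin (j + 1 + 1)) ℝ, T.det = 1 →
      0 < Finset.univ.sup' Finset.univ_nonempty fun i => ‖imgNormals u T i‖ / b i := by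
    intro T hT
    obtain ⟨i, hi'⟩ := span_of_compact u b hb hK (EuclideanSpace.single 0 1)
      (by rw [ne_eq, PiLp.single_eq_zero_iff]; exact one_ne_zero)
    refine lt_of_lt_of_le ?_ (Finset.le_sup' (fun i => ‖imgNormals u T i‖ / b i) (Finset.mem_univ i))
    refine div_pos (norm_pos_iff.2 fun h => hi' ?_) (hb i)
    have h1 : T.adjugateᵀ *ᵥ (u i).ofLp = 0 := by
      simpa [imgNormals, Matrix.toLpLin_apply] using h
    have h2 := congrArg (Tᵀ *ᵥ ·) h1
    simp only [Matrix.mulVec_mulVec, ← Matrix.transpose_mul, Matrix.adjugate_mul, hT, one_smul,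
      Matrix.transpose_one, Matrix.one_mulVec, Matrix.mulVec_zero] at h2
    rw [show u i = 0 from (WithLp.ofLp_eq_zero 2).1 h2, inner_zero_left, mul_zero]
  have hsub : ∀ T : Matrix (Fin (j + 1 + 1)) (Fin (j + 1 + 1)) ℝ, T.det = 1 →
      closedBall 0 (inRad (imgNormals u T) b) ⊆ polyH (imgNormals u T) b := by
    intro T hT x hx l
    rw [mem_closedBall_zero_iff, inRad, ← one_div, le_div_iff₀ (hpos T hT)] at hx
    refine (real_inner_le_norm _ _).trans ?_
    have h := (mul_le_mul_of_nonneg_left (Finset.le_sup' (fun i => ‖imgNormals u T i‖ / b i)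
      (Finset.mem_univ l)) (norm_nonneg x)).trans hx
    rw [mul_div_assoc', div_le_one (hb l)] at h
    linarith
  have hbd : ∀ T : Matrix (Fin (j + 1 + 1)) (Fin (j + 1 + 1)) ℝ, T.det = 1 →
      inRad (imgNormals u T) b ≤ max 1 (V / kap (j + 1 + 1)) := by
    intro T hT
    set r := inRad (imgNormals u T) b
    rcases le_or_gt r 1 with h | h
    · exact h.trans (le_max_left _ _)
    refine le_trans ?_ (le_max_right _ _)
    rw [le_div_iff₀ (kap_pos _)]
    have hin : ∀ i x, ⟪imgNormals u T i, x⟫ = ⟪u i, Matrix.toEuclideanLin T.adjugate x⟫ := fun i x => by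
      rw [imgNormals, ← LinearMap.adjoint_inner_left, ← Matrix.toEuclideanLin_conjTranspose_eq_adjoint,
        Matrix.conjTranspose_eq_transpose_of_trivial]
    have hdA : |LinearMap.det (Matrix.toEuclideanLin T.adjugate)| = 1 := by
      rw [Matrix.toEuclideanLin_eq_toLin_orthonormal, LinearMap.det_toLin, Matrix.det_adjugate, hT,
        one_pow, abs_one]
    have hv := ENNReal.toReal_mono (isCompact_polyH_map u _ b _ hdA hin hK).measure_lt_top.ne
      (measure_mono (μ := volume) (hsub T hT))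
    rw [volume_polyH_map u _ b _ hdA hin, volume_closedBall_eq _ (by linarith),
      ENNReal.toReal_ofReal (by have := kap_pos (j + 1 + 1); positivity), ← hV] at hv
    refine le_trans ?_ hv
    rw [mul_comm]
    exact mul_le_mul_of_nonneg_left (le_self_pow₀ h.le (Nat.succ_ne_zero _)) (kap_pos _).le
  obtain ⟨T, c, hT, heq⟩ := exists_balanced_param (Nat.succ_pos (j + 1)) (momMat (polyH u b))
    (fisherMat u b) (momMat_symm _) hQs (momMat_pos hK hi) (fisherMat_nonneg u b)
    (fun T => inRad (imgNormals u T) b ^ 4)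
    (by
      refine (ContinuousOn.inv₀ ?_ fun T hT => (hpos T hT).ne').pow 4
      refine (Continuous.finset_sup'_apply Finset.univ_nonempty fun i _ => ?_).continuousOn
      refine (Continuous.norm ?_).div_const _
      simp only [imgNormals, Matrix.toLpLin_apply]
      exact (PiLp.continuous_toLp 2 _).comp (by fun_prop))
    (fun O T hO hOO _ => by
      have e : ∀ i, ‖imgNormals u (O * T) i‖ = ‖imgNormals u T i‖ := fun i => by
        have hadj : O.adjugateᵀ = O := by
          rw [adjugate_eq hO (mul_eq_one_comm.1 hOO), Matrix.transpose_transpose]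
        have e1 : imgNormals u (O * T) i = Matrix.toEuclideanLin O (imgNormals u T i) := by
          simp only [imgNormals, Matrix.adjugate_mul_distrib, Matrix.transpose_mul, hadj,
            Matrix.toLpLin_apply, Matrix.mulVec_mulVec]
        rw [e1, ← sq_eq_sq₀ (norm_nonneg _) (norm_nonneg _), ← real_inner_self_eq_norm_sq,
          ← real_inner_self_eq_norm_sq, ← LinearMap.adjoint_inner_left,
          ← Matrix.toEuclideanLin_conjTranspose_eq_adjoint, Matrix.conjTranspose_eq_transpose_of_trivial,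
          Matrix.toLpLin_apply, Matrix.toLpLin_apply, Matrix.mulVec_mulVec, hOO, Matrix.one_mulVec]
      simp only [inRad, e])
    (fun T hT => pow_nonneg (inv_nonneg.2 (hpos T hT).le) 4)
    (C := max 1 (V / kap (j + 1 + 1)) ^ 4)
    (fun T hT => pow_le_pow_left₀ (inv_nonneg.2 (hpos T hT).le) (hbd T hT) 4) hκ
  obtain ⟨hc1, hs1, hv1, hz1, hbal, T0, hT0, himg0⟩ := fisher_image u b hK hs hT heq
  obtain ⟨w, r, hr0, hre, -, hwc, hws, hball, hslab, hb2, htr, hv, hz, R, hR, himg⟩ :=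
    align_position (imgNormals u T) b hb hc1 hs1 hbal
  refine ⟨w, r, c, hr0, hwc, hws, hball, hslab, ?_, htr, hv.trans hv1, hz.trans hz1, R ∘ₗ T0, ?_, ?_⟩
  · rw [hre]
    exact hb2
  · rw [LinearMap.det_comp, abs_mul, hR, hT0, mul_one]
  · rw [himg, himg0, Set.image_image]
    rfl

end Vale.Agent.P237N
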