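import Vale.Agent.P237N.Data4
import Vale.Agent.P100T.PosCheck

/-!
# The pointwise certificate in dimension four

`P4_nonneg` and `cert4`. The circle is parametrised by `y = 2u/(1+u²)`, the part above it by
`y = 1 + 17/20 u`; subdivisions of the parameter squares carry kernel-checked polynomials with
nonnegative coefficients.
-/

namespace Vale.Agent.P237N.Cert

open Vale.Agent.P100T.PosCheck

/-- Part 0 of the cleared polynomial. -/
def eR0 (a b c z : Ex) : Ex :=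
  (Ex.add (Ex.add (Ex.add (Ex.add (Ex.add (Ex.add (Ex.add (Ex.add (Ex.add (Ex.add (Ex.add (Ex.add (Ex.add (Ex.add (Ex.add (Ex.mul (Ex.num (420000)) (Ex.pow z 8))
    (Ex.mul (Ex.mul (Ex.num (-46962970320)) c) (Ex.pow z 7)))
    (Ex.mul (Ex.mul (Ex.num (230006654640)) (Ex.pow c 2)) (Ex.pow z 6)))
    (Ex.mul (Ex.mul (Ex.num (-321611896200)) (Ex.pow c 3)) (Ex.pow z 5)))
    (Ex.mul (Ex.mul (Ex.num (-6837621840)) (Ex.pow c 4)) (Ex.pow z 4)))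
    (Ex.mul (Ex.mul (Ex.num (426958392420)) (Ex.pow c 5)) (Ex.pow z 3)))
    (Ex.mul (Ex.mul (Ex.num (-429114453600)) (Ex.pow c 6)) (Ex.pow z 2)))
    (Ex.mul (Ex.mul (Ex.num (176675200380)) (Ex.pow c 7)) z))
    (Ex.mul (Ex.num (-27227533200)) (Ex.pow c 8)))
    (Ex.mul (Ex.mul (Ex.mul (Ex.num (12766417020)) b) c) (Ex.pow z 6)))
    (Ex.mul (Ex.mul (Ex.mul (Ex.num (-27261297000)) b) (Ex.pow c 2)) (Ex.pow z 5)))
    (Ex.mul (Ex.mul (Ex.mul (Ex.num (-8706436200)) b) (Ex.pow c 3)) (Ex.pow z 4)))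
    (Ex.mul (Ex.mul (Ex.mul (Ex.num (44457145740)) b) (Ex.pow c 4)) (Ex.pow z 3)))
    (Ex.mul (Ex.mul (Ex.mul (Ex.num (-19962792570)) b) (Ex.pow c 5)) (Ex.pow z 2)))
    (Ex.mul (Ex.mul (Ex.mul (Ex.num (-4753600320)) b) (Ex.pow c 6)) z))
    (Ex.mul (Ex.mul (Ex.num (3038781690)) b) (Ex.pow c 7)))

/-- Part 1 of the cleared polynomial. -/
def eR1 (a b c z : Ex) : Ex :=
  (Ex.add (Ex.add (Ex.add (Ex.add (Ex.add (Ex.add (Ex.add (Ex.add (Ex.add (Ex.add (Ex.add (Ex.add (Ex.add (Ex.add (Ex.add (Ex.mul (Ex.mul (Ex.mul (Ex.num (4525442460)) (Ex.pow b 2)) c) (Ex.pow z 5))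
    (Ex.mul (Ex.mul (Ex.mul (Ex.num (-52553464320)) (Ex.pow b 2)) (Ex.pow c 2)) (Ex.pow z 4)))
    (Ex.mul (Ex.mul (Ex.mul (Ex.num (139481625500)) (Ex.pow b 2)) (Ex.pow c 3)) (Ex.pow z 3)))
    (Ex.mul (Ex.mul (Ex.mul (Ex.num (-146131985160)) (Ex.pow b 2)) (Ex.pow c 4)) (Ex.pow z 2)))
    (Ex.mul (Ex.mul (Ex.mul (Ex.num (67044944820)) (Ex.pow b 2)) (Ex.pow c 5)) z))
    (Ex.mul (Ex.mul (Ex.num (-10947696480)) (Ex.pow b 2)) (Ex.pow c 6)))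
    (Ex.mul (Ex.mul (Ex.mul (Ex.num (-1092275730)) (Ex.pow b 3)) c) (Ex.pow z 4)))
    (Ex.mul (Ex.mul (Ex.mul (Ex.num (8360495220)) (Ex.pow b 3)) (Ex.pow c 2)) (Ex.pow z 3)))
    (Ex.mul (Ex.mul (Ex.mul (Ex.num (-13125217350)) (Ex.pow b 3)) (Ex.pow c 3)) (Ex.pow z 2)))
    (Ex.mul (Ex.mul (Ex.mul (Ex.num (6122629800)) (Ex.pow b 3)) (Ex.pow c 4)) z))
    (Ex.mul (Ex.mul (Ex.num (-1588104945)) (Ex.pow b 3)) (Ex.pow c 5)))
    (Ex.mul (Ex.mul (Ex.mul (Ex.num (5422689468)) (Ex.pow b 4)) c) (Ex.pow z 3)))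
    (Ex.mul (Ex.mul (Ex.mul (Ex.num (-14292161184)) (Ex.pow b 4)) (Ex.pow c 2)) (Ex.pow z 2)))
    (Ex.mul (Ex.mul (Ex.mul (Ex.num (12232465560)) (Ex.pow b 4)) (Ex.pow c 3)) z))
    (Ex.mul (Ex.mul (Ex.num (-1924796160)) (Ex.pow b 4)) (Ex.pow c 4)))
    (Ex.mul (Ex.mul (Ex.mul (Ex.num (-3051421800)) (Ex.pow b 5)) c) (Ex.pow z 2)))

/-- Part 2 of the cleared polynomial. -/
def eR2 (a b c z : Ex) : Ex :=
  (Ex.add (Ex.add (Ex.add (Ex.add (Ex.add (Ex.add (Ex.add (Ex.add (Ex.add (Ex.add (Ex.add (Ex.add (Ex.add (Ex.add (Ex.add (Ex.mul (Ex.mul (Ex.mul (Ex.num (3513435520)) (Ex.pow b 5)) (Ex.pow c 2)) z)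
    (Ex.mul (Ex.mul (Ex.num (-2112089000)) (Ex.pow b 5)) (Ex.pow c 3)))
    (Ex.mul (Ex.mul (Ex.mul (Ex.num (1341212400)) (Ex.pow b 6)) c) z))
    (Ex.mul (Ex.mul (Ex.num (-126493680)) (Ex.pow b 6)) (Ex.pow c 2)))
    (Ex.mul (Ex.mul (Ex.num (-356900040)) (Ex.pow b 7)) c))
    (Ex.mul (Ex.mul (Ex.mul (Ex.num (12766417020)) a) c) (Ex.pow z 6)))
    (Ex.mul (Ex.mul (Ex.mul (Ex.num (-27261297000)) a) (Ex.pow c 2)) (Ex.pow z 5)))
    (Ex.mul (Ex.mul (Ex.mul (Ex.num (-8706436200)) a) (Ex.pow c 3)) (Ex.pow z 4)))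
    (Ex.mul (Ex.mul (Ex.mul (Ex.num (44457145740)) a) (Ex.pow c 4)) (Ex.pow z 3)))
    (Ex.mul (Ex.mul (Ex.mul (Ex.num (-19962792570)) a) (Ex.pow c 5)) (Ex.pow z 2)))
    (Ex.mul (Ex.mul (Ex.mul (Ex.num (-4753600320)) a) (Ex.pow c 6)) z))
    (Ex.mul (Ex.mul (Ex.num (3038781690)) a) (Ex.pow c 7)))
    (Ex.mul (Ex.mul (Ex.mul (Ex.mul (Ex.num (4525442460)) a) b) c) (Ex.pow z 5)))
    (Ex.mul (Ex.mul (Ex.mul (Ex.mul (Ex.num (-52553464320)) a) b) (Ex.pow c 2)) (Ex.pow z 4)))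
    (Ex.mul (Ex.mul (Ex.mul (Ex.mul (Ex.num (139481625500)) a) b) (Ex.pow c 3)) (Ex.pow z 3)))
    (Ex.mul (Ex.mul (Ex.mul (Ex.mul (Ex.num (-146131985160)) a) b) (Ex.pow c 4)) (Ex.pow z 2)))

/-- Part 3 of the cleared polynomial. -/
def eR3 (a b c z : Ex) : Ex :=
  (Ex.add (Ex.add (Ex.add (Ex.add (Ex.add (Ex.add (Ex.add (Ex.add (Ex.add (Ex.add (Ex.add (Ex.add (Ex.add (Ex.add (Ex.add (Ex.mul (Ex.mul (Ex.mul (Ex.mul (Ex.num (67044944820)) a) b) (Ex.pow c 5)) z)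
    (Ex.mul (Ex.mul (Ex.mul (Ex.num (-10947696480)) a) b) (Ex.pow c 6)))
    (Ex.mul (Ex.mul (Ex.mul (Ex.mul (Ex.num (-1092275730)) a) (Ex.pow b 2)) c) (Ex.pow z 4)))
    (Ex.mul (Ex.mul (Ex.mul (Ex.mul (Ex.num (8360495220)) a) (Ex.pow b 2)) (Ex.pow c 2)) (Ex.pow z 3)))
    (Ex.mul (Ex.mul (Ex.mul (Ex.mul (Ex.num (-13125217350)) a) (Ex.pow b 2)) (Ex.pow c 3)) (Ex.pow z 2)))
    (Ex.mul (Ex.mul (Ex.mul (Ex.mul (Ex.num (6122629800)) a) (Ex.pow b 2)) (Ex.pow c 4)) z))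
    (Ex.mul (Ex.mul (Ex.mul (Ex.num (-1588104945)) a) (Ex.pow b 2)) (Ex.pow c 5)))
    (Ex.mul (Ex.mul (Ex.mul (Ex.mul (Ex.num (5422689468)) a) (Ex.pow b 3)) c) (Ex.pow z 3)))
    (Ex.mul (Ex.mul (Ex.mul (Ex.mul (Ex.num (-14292161184)) a) (Ex.pow b 3)) (Ex.pow c 2)) (Ex.pow z 2)))
    (Ex.mul (Ex.mul (Ex.mul (Ex.mul (Ex.num (12232465560)) a) (Ex.pow b 3)) (Ex.pow c 3)) z))
    (Ex.mul (Ex.mul (Ex.mul (Ex.num (-1924796160)) a) (Ex.pow b 3)) (Ex.pow c 4)))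
    (Ex.mul (Ex.mul (Ex.mul (Ex.mul (Ex.num (-3051421800)) a) (Ex.pow b 4)) c) (Ex.pow z 2)))
    (Ex.mul (Ex.mul (Ex.mul (Ex.mul (Ex.num (3513435520)) a) (Ex.pow b 4)) (Ex.pow c 2)) z))
    (Ex.mul (Ex.mul (Ex.mul (Ex.num (-2112089000)) a) (Ex.pow b 4)) (Ex.pow c 3)))
    (Ex.mul (Ex.mul (Ex.mul (Ex.mul (Ex.num (1341212400)) a) (Ex.pow b 5)) c) z))
    (Ex.mul (Ex.mul (Ex.mul (Ex.num (-126493680)) a) (Ex.pow b 5)) (Ex.pow c 2)))

/-- Part 4 of the cleared polynomial. -/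
def eR4 (a b c z : Ex) : Ex :=
  (Ex.add (Ex.add (Ex.add (Ex.add (Ex.add (Ex.add (Ex.add (Ex.add (Ex.add (Ex.add (Ex.add (Ex.add (Ex.add (Ex.add (Ex.add (Ex.mul (Ex.mul (Ex.mul (Ex.num (-356900040)) a) (Ex.pow b 6)) c)
    (Ex.mul (Ex.mul (Ex.mul (Ex.num (4525442460)) (Ex.pow a 2)) c) (Ex.pow z 5)))
    (Ex.mul (Ex.mul (Ex.mul (Ex.num (-52553464320)) (Ex.pow a 2)) (Ex.pow c 2)) (Ex.pow z 4)))
    (Ex.mul (Ex.mul (Ex.mul (Ex.num (139481625500)) (Ex.pow a 2)) (Ex.pow c 3)) (Ex.pow z 3)))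
    (Ex.mul (Ex.mul (Ex.mul (Ex.num (-146131985160)) (Ex.pow a 2)) (Ex.pow c 4)) (Ex.pow z 2)))
    (Ex.mul (Ex.mul (Ex.mul (Ex.num (67044944820)) (Ex.pow a 2)) (Ex.pow c 5)) z))
    (Ex.mul (Ex.mul (Ex.num (-10947696480)) (Ex.pow a 2)) (Ex.pow c 6)))
    (Ex.mul (Ex.mul (Ex.mul (Ex.mul (Ex.num (-1092275730)) (Ex.pow a 2)) b) c) (Ex.pow z 4)))
    (Ex.mul (Ex.mul (Ex.mul (Ex.mul (Ex.num (8360495220)) (Ex.pow a 2)) b) (Ex.pow c 2)) (Ex.pow z 3)))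
    (Ex.mul (Ex.mul (Ex.mul (Ex.mul (Ex.num (-13125217350)) (Ex.pow a 2)) b) (Ex.pow c 3)) (Ex.pow z 2)))
    (Ex.mul (Ex.mul (Ex.mul (Ex.mul (Ex.num (6122629800)) (Ex.pow a 2)) b) (Ex.pow c 4)) z))
    (Ex.mul (Ex.mul (Ex.mul (Ex.num (-1588104945)) (Ex.pow a 2)) b) (Ex.pow c 5)))
    (Ex.mul (Ex.mul (Ex.mul (Ex.mul (Ex.num (5422689468)) (Ex.pow a 2)) (Ex.pow b 2)) c) (Ex.pow z 3)))
    (Ex.mul (Ex.mul (Ex.mul (Ex.mul (Ex.num (-14292161184)) (Ex.pow a 2)) (Ex.pow b 2)) (Ex.pow c 2)) (Ex.pow z 2)))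
    (Ex.mul (Ex.mul (Ex.mul (Ex.mul (Ex.num (12232465560)) (Ex.pow a 2)) (Ex.pow b 2)) (Ex.pow c 3)) z))
    (Ex.mul (Ex.mul (Ex.mul (Ex.num (-1924796160)) (Ex.pow a 2)) (Ex.pow b 2)) (Ex.pow c 4)))

/-- Part 5 of the cleared polynomial. -/
def eR5 (a b c z : Ex) : Ex :=
  (Ex.add (Ex.add (Ex.add (Ex.add (Ex.add (Ex.add (Ex.add (Ex.add (Ex.add (Ex.add (Ex.add (Ex.add (Ex.add (Ex.add (Ex.add (Ex.mul (Ex.mul (Ex.mul (Ex.mul (Ex.num (-3051421800)) (Ex.pow a 2)) (Ex.pow b 3)) c) (Ex.pow z 2))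
    (Ex.mul (Ex.mul (Ex.mul (Ex.mul (Ex.num (3513435520)) (Ex.pow a 2)) (Ex.pow b 3)) (Ex.pow c 2)) z))
    (Ex.mul (Ex.mul (Ex.mul (Ex.num (-2112089000)) (Ex.pow a 2)) (Ex.pow b 3)) (Ex.pow c 3)))
    (Ex.mul (Ex.mul (Ex.mul (Ex.mul (Ex.num (1341212400)) (Ex.pow a 2)) (Ex.pow b 4)) c) z))
    (Ex.mul (Ex.mul (Ex.mul (Ex.num (-126493680)) (Ex.pow a 2)) (Ex.pow b 4)) (Ex.pow c 2)))
    (Ex.mul (Ex.mul (Ex.mul (Ex.num (-356900040)) (Ex.pow a 2)) (Ex.pow b 5)) c))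
    (Ex.mul (Ex.mul (Ex.mul (Ex.num (-1092275730)) (Ex.pow a 3)) c) (Ex.pow z 4)))
    (Ex.mul (Ex.mul (Ex.mul (Ex.num (8360495220)) (Ex.pow a 3)) (Ex.pow c 2)) (Ex.pow z 3)))
    (Ex.mul (Ex.mul (Ex.mul (Ex.num (-13125217350)) (Ex.pow a 3)) (Ex.pow c 3)) (Ex.pow z 2)))
    (Ex.mul (Ex.mul (Ex.mul (Ex.num (6122629800)) (Ex.pow a 3)) (Ex.pow c 4)) z))
    (Ex.mul (Ex.mul (Ex.num (-1588104945)) (Ex.pow a 3)) (Ex.pow c 5)))
    (Ex.mul (Ex.mul (Ex.mul (Ex.mul (Ex.num (5422689468)) (Ex.pow a 3)) b) c) (Ex.pow z 3)))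
    (Ex.mul (Ex.mul (Ex.mul (Ex.mul (Ex.num (-14292161184)) (Ex.pow a 3)) b) (Ex.pow c 2)) (Ex.pow z 2)))
    (Ex.mul (Ex.mul (Ex.mul (Ex.mul (Ex.num (12232465560)) (Ex.pow a 3)) b) (Ex.pow c 3)) z))
    (Ex.mul (Ex.mul (Ex.mul (Ex.num (-1924796160)) (Ex.pow a 3)) b) (Ex.pow c 4)))
    (Ex.mul (Ex.mul (Ex.mul (Ex.mul (Ex.num (-3051421800)) (Ex.pow a 3)) (Ex.pow b 2)) c) (Ex.pow z 2)))

/-- Part 6 of the cleared polynomial. -/
def eR6 (a b c z : Ex) : Ex :=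
  (Ex.add (Ex.add (Ex.add (Ex.add (Ex.add (Ex.add (Ex.add (Ex.add (Ex.add (Ex.add (Ex.add (Ex.add (Ex.add (Ex.add (Ex.add (Ex.mul (Ex.mul (Ex.mul (Ex.mul (Ex.num (3513435520)) (Ex.pow a 3)) (Ex.pow b 2)) (Ex.pow c 2)) z)
    (Ex.mul (Ex.mul (Ex.mul (Ex.num (-2112089000)) (Ex.pow a 3)) (Ex.pow b 2)) (Ex.pow c 3)))
    (Ex.mul (Ex.mul (Ex.mul (Ex.mul (Ex.num (1341212400)) (Ex.pow a 3)) (Ex.pow b 3)) c) z))
    (Ex.mul (Ex.mul (Ex.mul (Ex.num (-126493680)) (Ex.pow a 3)) (Ex.pow b 3)) (Ex.pow c 2)))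
    (Ex.mul (Ex.mul (Ex.mul (Ex.num (-356900040)) (Ex.pow a 3)) (Ex.pow b 4)) c))
    (Ex.mul (Ex.mul (Ex.mul (Ex.num (5422689468)) (Ex.pow a 4)) c) (Ex.pow z 3)))
    (Ex.mul (Ex.mul (Ex.mul (Ex.num (-14292161184)) (Ex.pow a 4)) (Ex.pow c 2)) (Ex.pow z 2)))
    (Ex.mul (Ex.mul (Ex.mul (Ex.num (12232465560)) (Ex.pow a 4)) (Ex.pow c 3)) z))
    (Ex.mul (Ex.mul (Ex.num (-1924796160)) (Ex.pow a 4)) (Ex.pow c 4)))
    (Ex.mul (Ex.mul (Ex.mul (Ex.mul (Ex.num (-3051421800)) (Ex.pow a 4)) b) c) (Ex.pow z 2)))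
    (Ex.mul (Ex.mul (Ex.mul (Ex.mul (Ex.num (3513435520)) (Ex.pow a 4)) b) (Ex.pow c 2)) z))
    (Ex.mul (Ex.mul (Ex.mul (Ex.num (-2112089000)) (Ex.pow a 4)) b) (Ex.pow c 3)))
    (Ex.mul (Ex.mul (Ex.mul (Ex.mul (Ex.num (1341212400)) (Ex.pow a 4)) (Ex.pow b 2)) c) z))
    (Ex.mul (Ex.mul (Ex.mul (Ex.num (-126493680)) (Ex.pow a 4)) (Ex.pow b 2)) (Ex.pow c 2)))
    (Ex.mul (Ex.mul (Ex.mul (Ex.num (-356900040)) (Ex.pow a 4)) (Ex.pow b 3)) c))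
    (Ex.mul (Ex.mul (Ex.mul (Ex.num (-3051421800)) (Ex.pow a 5)) c) (Ex.pow z 2)))

/-- Part 7 of the cleared polynomial. -/
def eR7 (a b c z : Ex) : Ex :=
  (Ex.add (Ex.add (Ex.add (Ex.add (Ex.add (Ex.add (Ex.add (Ex.add (Ex.mul (Ex.mul (Ex.mul (Ex.num (3513435520)) (Ex.pow a 5)) (Ex.pow c 2)) z)
    (Ex.mul (Ex.mul (Ex.num (-2112089000)) (Ex.pow a 5)) (Ex.pow c 3)))
    (Ex.mul (Ex.mul (Ex.mul (Ex.mul (Ex.num (1341212400)) (Ex.pow a 5)) b) c) z))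
    (Ex.mul (Ex.mul (Ex.mul (Ex.num (-126493680)) (Ex.pow a 5)) b) (Ex.pow c 2)))
    (Ex.mul (Ex.mul (Ex.mul (Ex.num (-356900040)) (Ex.pow a 5)) (Ex.pow b 2)) c))
    (Ex.mul (Ex.mul (Ex.mul (Ex.num (1341212400)) (Ex.pow a 6)) c) z))
    (Ex.mul (Ex.mul (Ex.num (-126493680)) (Ex.pow a 6)) (Ex.pow c 2)))
    (Ex.mul (Ex.mul (Ex.mul (Ex.num (-356900040)) (Ex.pow a 6)) b) c))
    (Ex.mul (Ex.mul (Ex.num (-356900040)) (Ex.pow a 7)) c))

/-- The cleared polynomial. -/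
def eR (a b c z : Ex) : Ex :=
  Ex.add (Ex.add (Ex.add (Ex.add (Ex.add (Ex.add (Ex.add (eR0 a b c z) (eR1 a b c z)) (eR2 a b c z)) (eR3 a b c z)) (eR4 a b c z)) (eR5 a b c z)) (eR6 a b c z)) (eR7 a b c z)

/-- Part 0 of the cleared polynomial. -/
def eP0 (a c z : Ex) : Ex :=
  (Ex.add (Ex.add (Ex.add (Ex.add (Ex.add (Ex.add (Ex.add (Ex.add (Ex.add (Ex.add (Ex.add (Ex.add (Ex.add (Ex.add (Ex.add (Ex.mul (Ex.num (38969852)) (Ex.pow z 5))
    (Ex.mul (Ex.mul (Ex.num (-136908723)) c) (Ex.pow z 4)))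
    (Ex.mul (Ex.mul (Ex.num (191963414)) (Ex.pow c 2)) (Ex.pow z 3)))
    (Ex.mul (Ex.mul (Ex.num (-134195381)) (Ex.pow c 3)) (Ex.pow z 2)))
    (Ex.mul (Ex.mul (Ex.num (46739471)) (Ex.pow c 4)) z))
    (Ex.mul (Ex.num (-6482746)) (Ex.pow c 5)))
    (Ex.mul (Ex.mul (Ex.num (-20264154)) a) (Ex.pow z 4)))
    (Ex.mul (Ex.mul (Ex.mul (Ex.num (32453925)) a) c) (Ex.pow z 3)))
    (Ex.mul (Ex.mul (Ex.mul (Ex.num (-11972310)) a) (Ex.pow c 2)) (Ex.pow z 2)))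
    (Ex.mul (Ex.mul (Ex.mul (Ex.num (-2829524)) a) (Ex.pow c 3)) z))
    (Ex.mul (Ex.mul (Ex.num (1607821)) a) (Ex.pow c 4)))
    (Ex.mul (Ex.mul (Ex.num (28969789)) (Ex.pow a 2)) (Ex.pow z 3)))
    (Ex.mul (Ex.mul (Ex.mul (Ex.num (-43063251)) (Ex.pow a 2)) c) (Ex.pow z 2)))
    (Ex.mul (Ex.mul (Ex.mul (Ex.num (21673738)) (Ex.pow a 2)) (Ex.pow c 2)) z))
    (Ex.mul (Ex.mul (Ex.num (-3291983)) (Ex.pow a 2)) (Ex.pow c 3)))
    (Ex.mul (Ex.mul (Ex.num (-16796612)) (Ex.pow a 3)) (Ex.pow z 2)))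

/-- Part 1 of the cleared polynomial. -/
def eP1 (a c z : Ex) : Ex :=
  (Ex.add (Ex.add (Ex.add (Ex.add (Ex.mul (Ex.mul (Ex.mul (Ex.num (12547984)) (Ex.pow a 3)) c) z)
    (Ex.mul (Ex.mul (Ex.num (-3768508)) (Ex.pow a 3)) (Ex.pow c 2)))
    (Ex.mul (Ex.mul (Ex.num (7451180)) (Ex.pow a 4)) z))
    (Ex.mul (Ex.mul (Ex.num (-527057)) (Ex.pow a 4)) c))
    (Ex.mul (Ex.num (-2266032)) (Ex.pow a 5)))

/-- The cleared polynomial. -/
def eP (a c z : Ex) : Ex :=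
  Ex.add (eP0 a c z) (eP1 a c z)


/-- The constant `M z⁸`. -/
def eM (z : Ex) : Ex := .mul (.num 420000000) (.pow z 8)

/-- The cleared gain of the chord to `(a / k, b / k)`. -/
def eC (p : ℕ × ℕ × ℕ) (a b c z : Ex) : Ex :=
  let s := Ex.num p.1; let r := Ex.num p.2.1; let k := Ex.num p.2.2
  .add (.mul (.sub (.mul k c) (.mul s z))
      (.add (.mul (.mul r (.add (.mul (.num 2) (.mul s z)) (.mul k c))) z)
        (.mul (.mul k a) (.add (.mul s z) (.mul (.num 2) (.mul k c))))))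
    (.sub (.mul (.num 2) (.pow (.mul k b) 3)) (.mul (.num 2) (.pow (.mul r z) 3)))

/-- The points of the circle. -/
def pts : List (ℕ × ℕ × ℕ) :=
  [(0, 1, 1), (7, 24, 25), (5, 12, 13), (8, 15, 17), (3, 4, 5), (20, 21, 29), (21, 20, 29),
    (4, 3, 5), (77, 36, 85), (15, 8, 17), (12, 5, 13), (24, 7, 25), (40, 9, 41)]

/-- The upper limit on the cost of a layer, cleared. -/
def eCap (a b c z : Ex) : Ex :=
  .sub (.mul (.num 27) (eM z)) (.mul (.num 2) (eR a b c z))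

/-- The cleared layer inequality without gain. -/
def eZero (a b c z : Ex) : Ex :=
  .sub (.mul (.num 9) (eM z)) (.mul (.num 2) (eR a b c z))

/-- The cleared layer inequality with the gain of a chord. -/
def eF (p : ℕ × ℕ × ℕ) (a b c z : Ex) : Ex :=
  .add (.mul (eCap a b c z) (eC p a b c z))
    (.mul (.mul (.mul (.num 8) (.pow (.num p.2.2) 3)) (.pow z 3)) (eZero a b c z))

/-- A subdivision. -/
inductive Tr where
  | leaf (k : ℕ)
  | cutU (m : ℕ) (l r : Tr)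
  | cutT (m : ℕ) (l r : Tr)

/-- A box, in units of `2⁻²⁵`. -/
structure Bx where
  u0 : ℕ
  u1 : ℕ
  t0 : ℕ
  t1 : ℕ

/-- The unit. -/
def DEN : ℕ := 33554432

/-- All leaves pass the test. -/
def walk (f : Bx → ℕ → Bool) : Tr → Bx → Bool
  | .leaf k, b => f b k
  | .cutU m l r, b => walk f l { b with u1 := m } && walk f r { b with u0 := m }
  | .cutT m l r, b => walk f l { b with t1 := m } && walk f r { b with t0 := m }

theorem walk_sound {f : Bx → ℕ → Bool} : ∀ (t : Tr) (b : Bx), walk f t b = true →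
    ∀ u v : ℝ, (b.u0 : ℝ) ≤ u → u < b.u1 → (b.t0 : ℝ) ≤ v → v < b.t1 →
      ∃ c k, f c k = true ∧ (c.u0 : ℝ) ≤ u ∧ u < c.u1 ∧ (c.t0 : ℝ) ≤ v ∧ v < c.t1
  | .leaf k, b, h, u, v, h1, h2, h3, h4 => ⟨b, k, h, h1, h2, h3, h4⟩
  | .cutU m l r, b, h, u, v, h1, h2, h3, h4 => by
    simp only [walk, Bool.and_eq_true] at h
    rcases lt_or_ge u (m : ℝ) with hm | hm
    · exact walk_sound l _ h.1 u v h1 hm h3 h4
    · exact walk_sound r _ h.2 u v hm h2 h3 h4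
  | .cutT m l r, b, h, u, v, h1, h2, h3, h4 => by
    simp only [walk, Bool.and_eq_true] at h
    rcases lt_or_ge v (m : ℝ) with hm | hm
    · exact walk_sound l _ h.1 u v h1 h2 h3 hm
    · exact walk_sound r _ h.2 u v h1 h2 hm h4

/-- A subdivision. -/
def capArc : Tr :=
  (.leaf 0)

/-- A subdivision. -/
def mainArc : Tr :=
  (.cutT 16777472
    (.cutU 16777216
      (.cutU 8388608
        (.leaf 0)
        (.cutU 12582912
          (.leaf 0)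
          (.leaf 5)))
      (.cutT 8388736
        (.cutU 25165824
          (.leaf 6)
          (.cutU 29360128
            (.leaf 7)
            (.leaf 0)))
        (.cutU 25165824
          (.leaf 4)
          (.leaf 5))))
    (.cutU 16777216
      (.leaf 1)
      (.cutU 25165824
        (.leaf 2)
        (.leaf 2))))

/-- A subdivision. -/
def posArc : Tr :=
  (.cutU 16777216
    (.leaf 0)
    (.cutT 16777472
      (.cutU 25165824
        (.cutU 20971520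
          (.leaf 0)
          (.cutT 8388736
            (.leaf 0)
            (.leaf 0)))
        (.cutT 8388736
          (.cutU 29360128
            (.leaf 0)
            (.leaf 0))
          (.leaf 0)))
      (.cutU 25165824
        (.leaf 0)
        (.leaf 0))))

/-- A subdivision. -/
def capFlat : Tr :=
  (.leaf 0)

/-- A subdivision. -/
def mainFlat : Tr :=
  (.cutU 16777472
    (.cutT 16777472
      (.cutU 8388736
        (.cutT 8388736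
          (.cutU 4194368
            (.cutU 2097184
              (.leaf 13)
              (.leaf 9))
            (.cutU 6291552
              (.leaf 10)
              (.leaf 8)))
          (.cutT 12583104
            (.leaf 5)
            (.leaf 4)))
        (.cutT 8388736
          (.cutT 4194368
            (.leaf 8)
            (.leaf 5))
          (.cutT 12583104
            (.leaf 5)
            (.leaf 4))))
      (.cutU 8388736
        (.cutT 25166208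
          (.leaf 3)
          (.cutU 4194368
            (.leaf 1)
            (.leaf 1)))
        (.cutT 25166208
          (.leaf 3)
          (.leaf 1))))
    (.cutT 16777472
      (.cutU 25166208
        (.leaf 5)
        (.cutU 29360576
          (.leaf 5)
          (.leaf 1)))
      (.cutU 25166208
        (.leaf 1)
        (.cutU 29360576
          (.leaf 1)
          (.cutU 31457760
            (.leaf 1)
            (.leaf 1))))))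

/-- A subdivision. -/
def posFlat : Tr :=
  (.cutU 16777472
    (.cutT 16777472
      (.cutT 8388736
        (.cutU 8388736
          (.cutT 4194368
            (.cutU 4194368
              (.leaf 0)
              (.leaf 0))
            (.cutU 4194368
              (.leaf 0)
              (.leaf 0)))
          (.cutT 4194368
            (.leaf 0)
            (.leaf 0)))
        (.leaf 0))
      (.leaf 0))
    (.cutT 16777472
      (.cutU 25166208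
        (.leaf 0)
        (.cutT 8388736
          (.cutT 4194368
            (.leaf 0)
            (.leaf 0))
          (.leaf 0)))
      (.cutU 25166208
        (.cutT 25166208
          (.leaf 0)
          (.leaf 0))
        (.cutT 25166208
          (.leaf 0)
          (.cutU 29360576
            (.cutT 29360576
              (.leaf 0)
              (.leaf 0))
            (.leaf 0))))))

/-- Numerator of an interval parameter. -/
def pn (a b : ℕ) (X : Ex) : Ex := .add (.num a) (.mul (.num b) X)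

/-- Denominator of an interval parameter. -/
def pd (X : Ex) : Ex := .mul (.num DEN) (.add (.num 1) X)

def un (b : Bx) : Ex := pn b.u0 b.u1 .x
def tn (b : Bx) : Ex := pn b.t0 b.t1 .y
def ud : Ex := pd .x
def td : Ex := pd .y

def cB (b : Bx) : Ex := .mul (.sub (.pow ud 2) (.pow (un b) 2)) td
def cC (b : Bx) : Ex := .mul (.mul (.mul (.num 2) (un b)) ud) td
def cZ (b : Bx) : Ex := .mul (.add (.pow ud 2) (.pow (un b) 2)) td
def cA (b : Bx) : Ex := .add (cB b) (.mul (.mul (.num 2) (.pow (un b) 2)) (tn b))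

def fA (b : Bx) : Ex := .mul (.mul (.num 20) ud) (tn b)
def fC (b : Bx) : Ex := .mul (.add (.mul (.num 20) ud) (.mul (.num 17) (un b))) td
def fZ : Ex := .mul (.mul (.num 20) ud) td

/-- The test of a leaf of the main inequality. -/
def mainTest (a b c z : Ex) (below : ℕ × ℕ × ℕ → Bool) (k : ℕ) : Bool :=
  match k with
  | 0 => check (eZero a b c z)
  | j + 1 =>
    match pts[j]? with
    | none => false
    | some p => decide (p.1 * p.1 + p.2.1 * p.2.1 = p.2.2 * p.2.2) && decide (0 < p.2.2) &&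
        below p && check (eF p a b c z)

/-- The point lies below the arc part of a box. -/
def belowArc (b : Bx) (p : ℕ × ℕ × ℕ) : Bool :=
  decide (p.1 * (DEN * DEN + b.u0 * b.u0) ≤ 2 * b.u0 * DEN * p.2.2) && decide (b.u1 ≤ DEN)

/-- The point lies below height one. -/
def belowFlat (p : ℕ × ℕ × ℕ) : Bool := decide (p.1 ≤ p.2.2)

def rootArc : Bx := ⟨0, 33554432, 0, 33554944⟩
def rootFlat : Bx := ⟨0, 33554944, 0, 33554944⟩

def arcMain (b : Bx) (k : ℕ) : Bool := mainTest (cA b) (cB b) (cC b) (cZ b) (belowArc b) k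
def arcCap (b : Bx) (_ : ℕ) : Bool := check (eCap (cA b) (cB b) (cC b) (cZ b))
def arcPos (b : Bx) (_ : ℕ) : Bool := check (eP (cA b) (cC b) (cZ b))
def flatMain (b : Bx) (k : ℕ) : Bool := mainTest (fA b) (.num 0) (fC b) fZ belowFlat k
def flatCap (b : Bx) (_ : ℕ) : Bool := check (eCap (fA b) (.num 0) (fC b) fZ)
def flatPos (b : Bx) (_ : ℕ) : Bool := check (eP (fA b) (fC b) fZ)

theorem mainArc_ok : walk arcMain mainArc rootArc = true := by decide +kernel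
theorem capArc_ok : walk arcCap capArc rootArc = true := by decide +kernel
theorem posArc_ok : walk arcPos posArc rootArc = true := by decide +kernel
theorem mainFlat_ok : walk flatMain mainFlat rootFlat = true := by decide +kernel
theorem capFlat_ok : walk flatCap capFlat rootFlat = true := by decide +kernel
theorem posFlat_ok : walk flatPos posFlat rootFlat = true := by decide +kernel

/-! ### Values -/

/-- The cost of a layer. -/
noncomputable def R4 (T l y : ℝ) : ℝ :=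
  509296 / 100000 * y + 7748 / 10000 * (y * (T ^ 2 + T * l + l ^ 2) - y ^ 3) + hq4 T l y + 1 / 1000

/-- Values of the four homogeneous coordinates. -/
structure Val (X Y : ℝ) (a b c z : Ex) (T l y : ℝ) : Prop where
  za : a.eval X Y 0 = T * z.eval X Y 0
  zb : b.eval X Y 0 = l * z.eval X Y 0
  zc : c.eval X Y 0 = y * z.eval X Y 0
  zpos : 0 < z.eval X Y 0

variable {X Y T l y : ℝ} {a b c z : Ex}

theorem Val.eR_eq (v : Val X Y a b c z T l y) :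
    (eR a b c z).eval X Y 0 = 420000000 * R4 T l y * z.eval X Y 0 ^ 8 := by
  simp only [eR, eR0, eR1, eR2, eR3, eR4, eR5, eR6, eR7, Ex.eval, v.za, v.zb, v.zc, R4, hq4, hS0, hS1, hS2, hS3, hS4, hS5, hS6, hS7]
  push_cast
  ring

theorem Val.eP_eq (v : Val X Y a b c z T l y) :
    (eP a c z).eval X Y 0 = 1000000 * P4 T y * z.eval X Y 0 ^ 5 := by
  simp only [eP, eP0, eP1, Ex.eval, v.za, v.zc, P4]
  push_cast
  ring

theorem Val.pos (v : Val X Y a b c z T l y) (hX : 0 ≤ X) (hY : 0 ≤ Y)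
    (h : check (eP a c z) = true) : 0 ≤ P4 T y := by
  have := nonneg_of_check h hX hY le_rfl
  rw [v.eP_eq] at this
  have := v.zpos
  exact le_of_not_gt fun hn => absurd ‹0 ≤ 1000000 * P4 T y * _›
    (not_le.2 (mul_neg_of_neg_of_pos (by linarith) (by positivity)))

theorem Val.cap (v : Val X Y a b c z T l y) (hX : 0 ≤ X) (hY : 0 ≤ Y)
    (h : check (eCap a b c z) = true) : R4 T l y ≤ 27 / 2 := by
  have hz := v.zpos
  have h := nonneg_of_check h hX hY le_rfl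
  simp only [eCap, eM, Ex.eval, v.eR_eq] at h
  push_cast at h
  have h1 : 0 ≤ 420000000 * z.eval X Y 0 ^ 8 * (27 - 2 * R4 T l y) := by linarith
  have := (mul_nonneg_iff_of_pos_left (by positivity)).1 h1
  linarith

theorem Val.zero (v : Val X Y a b c z T l y) (hX : 0 ≤ X) (hY : 0 ≤ Y)
    (h : check (eZero a b c z) = true) : R4 T l y ≤ 9 / 2 := by
  have hz := v.zpos
  have h := nonneg_of_check h hX hY le_rfl
  simp only [eZero, eM, Ex.eval, v.eR_eq] at h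
  push_cast at h
  have h1 : 0 ≤ 420000000 * z.eval X Y 0 ^ 8 * (9 - 2 * R4 T l y) := by linarith
  have := (mul_nonneg_iff_of_pos_left (by positivity)).1 h1
  linarith

theorem Val.chord (v : Val X Y a b c z T l y) (hX : 0 ≤ X) (hY : 0 ≤ Y) {p : ℕ × ℕ × ℕ}
    (hk : 0 < p.2.2) (h : check (eF p a b c z) = true) :
    0 ≤ (27 / 2 - R4 T l y) * chord4 T l y (p.1 / p.2.2) (p.2.1 / p.2.2)
      + 4 * (9 / 2 - R4 T l y) := by
  obtain ⟨s, r, k⟩ := p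
  have hz := v.zpos
  have h := nonneg_of_check h hX hY le_rfl
  simp only [eF, eC, eCap, eZero, eM, Ex.eval, v.eR_eq, v.za, v.zb, v.zc] at h
  push_cast at h
  have hk' : (0 : ℝ) < k := by exact_mod_cast hk
  refine (mul_nonneg_iff_of_pos_left
    (show (0 : ℝ) < 4 * 420000000 * z.eval X Y 0 ^ 11 * (k : ℝ) ^ 3 by positivity)).1
    (le_of_le_of_eq h ?_)
  simp only [chord4]
  field_simp
  ring

/-- The conclusion from one leaf. -/
theorem main_of_test (v : Val X Y a b c z T l y) (hX : 0 ≤ X) (hY : 0 ≤ Y)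
    {below : ℕ × ℕ × ℕ → Bool} {k : ℕ} (h : mainTest a b c z below k = true)
    (hb : ∀ p : ℕ × ℕ × ℕ, 0 < p.2.2 → below p = true → (p.1 : ℝ) / p.2.2 ≤ y)
    (hcap : R4 T l y ≤ 27 / 2) :
    ∃ B, 0 ≤ B ∧ (B = 0 ∨ ∃ s σ, 0 ≤ s ∧ s ≤ y ∧ 0 ≤ σ ∧ s ^ 2 + σ ^ 2 = 1 ∧
      B ≤ chord4 T l y s σ) ∧ 1 / 1000 ≤ brk4 T l y B := by
  have e0 : brk4 T l y 0 = 9 / 2 - R4 T l y + 1 / 1000 := by
    simp only [brk4, R4]; ring
  rcases k with _ | j
  · have := v.zero hX hY h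
    exact ⟨0, le_rfl, Or.inl rfl, by linarith⟩
  simp only [mainTest] at h
  split at h
  · simp at h
  rename_i p _
  simp only [Bool.and_eq_true, decide_eq_true_eq] at h
  obtain ⟨⟨⟨hc, hk⟩, hl⟩, hf⟩ := h
  have hF := v.chord hX hY hk hf
  set B := chord4 T l y (p.1 / p.2.2) (p.2.1 / p.2.2) with hB
  rcases lt_or_ge B 0 with hn | hp
  · have : (27 / 2 - R4 T l y) * B ≤ 0 :=
      mul_nonpos_of_nonneg_of_nonpos (by linarith) hn.le
    exact ⟨0, le_rfl, Or.inl rfl, by linarith⟩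
  refine ⟨B, hp, Or.inr ⟨_, _, by positivity, hb p hk hl, by positivity, ?_, le_rfl⟩, ?_⟩
  · have hk' : (p.2.2 : ℝ) ≠ 0 := by positivity
    field_simp
    exact_mod_cast (by linarith [hc, sq (p.1), sq (p.2.1), sq (p.2.2)] :
      p.1 ^ 2 + p.2.1 ^ 2 = p.2.2 ^ 2)
  · have e : brk4 T l y B - 1 / 1000
        = ((27 / 2 - R4 T l y) * B + 4 * (9 / 2 - R4 T l y)) / (4 + B) := by
      have : 4 + B ≠ 0 := by linarith
      simp only [brk4, R4]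
      field_simp
      ring
    have : 0 ≤ brk4 T l y B - 1 / 1000 := e ▸ div_nonneg hF (by linarith)
    linarith

/-- A point of a box in the variables of the test. -/
theorem param {a b : ℕ} {u : ℝ} (h0 : (a : ℝ) ≤ u * DEN) (h1 : u * DEN < b) :
    ∃ X : ℝ, 0 ≤ X ∧ ∀ (e : Ex) (P Q : ℝ), e.eval P Q 0 = X →
      (pn a b e).eval P Q 0 = u * (pd e).eval P Q 0 := by
  refine ⟨(u * DEN - a) / (b - u * DEN), div_nonneg (by linarith) (by linarith),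
    fun e P Q he => ?_⟩
  have : (b : ℝ) - u * DEN ≠ 0 := by linarith
  simp only [pn, pd, Ex.eval, he]
  push_cast
  field_simp
  ring

/-- The values on the arc. -/
theorem arc_val {bx : Bx} {u t : ℝ} (h0 : (bx.u0 : ℝ) ≤ u * DEN) (h1 : u * DEN < bx.u1)
    (h2 : (bx.t0 : ℝ) ≤ t * DEN) (h3 : t * DEN < bx.t1) :
    ∃ X Y : ℝ, 0 ≤ X ∧ 0 ≤ Y ∧ Val X Y (cA bx) (cB bx) (cC bx) (cZ bx)
      ((1 - u ^ 2 + 2 * u ^ 2 * t) / (1 + u ^ 2)) ((1 - u ^ 2) / (1 + u ^ 2))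
      (2 * u / (1 + u ^ 2)) := by
  obtain ⟨X, hX, eX⟩ := param h0 h1
  obtain ⟨Y, hY, eY⟩ := param h2 h3
  have e1 := eX .x X Y rfl
  have e2 := eY .y X Y rfl
  have d1 : 0 < ud.eval X Y 0 := by simp only [ud, pd, Ex.eval, DEN]; push_cast; positivity
  have d2 : 0 < td.eval X Y 0 := by simp only [td, pd, Ex.eval, DEN]; push_cast; positivity
  have hu : (1 : ℝ) + u ^ 2 ≠ 0 := by positivity
  have vu : (un bx).eval X Y 0 = u * ud.eval X Y 0 := e1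
  have vt : (tn bx).eval X Y 0 = t * td.eval X Y 0 := e2
  refine ⟨X, Y, hX, hY, ⟨?_, ?_, ?_, ?_⟩⟩
  all_goals simp only [cA, cB, cC, cZ, Ex.eval, vu, vt]
  all_goals push_cast
  iterate 3 (field_simp; ring)
  positivity

/-- The values above height one. -/
theorem flat_val {bx : Bx} {u t : ℝ} (h0 : (bx.u0 : ℝ) ≤ u * DEN) (h1 : u * DEN < bx.u1)
    (h2 : (bx.t0 : ℝ) ≤ t * DEN) (h3 : t * DEN < bx.t1) :
    ∃ X Y : ℝ, 0 ≤ X ∧ 0 ≤ Y ∧ Val X Y (fA bx) (.num 0) (fC bx) fZ t 0 (1 + 17 / 20 * u) := by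
  obtain ⟨X, hX, eX⟩ := param h0 h1
  obtain ⟨Y, hY, eY⟩ := param h2 h3
  have vu : (un bx).eval X Y 0 = u * ud.eval X Y 0 := eX .x X Y rfl
  have vt : (tn bx).eval X Y 0 = t * td.eval X Y 0 := eY .y X Y rfl
  have d1 : 0 < ud.eval X Y 0 := by simp only [ud, pd, Ex.eval, DEN]; push_cast; positivity
  have d2 : 0 < td.eval X Y 0 := by simp only [td, pd, Ex.eval, DEN]; push_cast; positivity
  refine ⟨X, Y, hX, hY, ⟨?_, ?_, ?_, ?_⟩⟩
  all_goals simp only [fA, fC, fZ, Ex.eval, vu, vt]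
  all_goals push_cast
  iterate 3 ring
  positivity

/-- The parameters of a point of the arc. -/
theorem arc_param {T l y : ℝ} (hy0 : 0 ≤ y) (hl : 0 < l) (hlT : l ≤ T) (hT : T ≤ 1)
    (hc : l ^ 2 + y ^ 2 = 1) :
    ∃ u t : ℝ, 0 ≤ u ∧ u < 1 ∧ 0 ≤ t ∧ t ≤ 1 ∧ T = (1 - u ^ 2 + 2 * u ^ 2 * t) / (1 + u ^ 2) ∧
      l = (1 - u ^ 2) / (1 + u ^ 2) ∧ y = 2 * u / (1 + u ^ 2) := by
  have hl1 : l ≤ 1 := by linarith
  have h1 : (1 + l) ≠ 0 := by linarith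
  have hu : 1 + (y / (1 + l)) ^ 2 = 2 / (1 + l) := by field_simp; linarith
  have hy1 : y < 1 := by nlinarith
  refine ⟨y / (1 + l), (T - l) / (1 - l), by positivity, ?_, div_nonneg (by linarith) (by linarith),
    ?_, ?_, ?_, ?_⟩
  · rw [div_lt_one (by linarith)]; linarith
  · exact div_le_one_of_le₀ (by linarith) (by linarith)
  · rw [hu]
    rcases hl1.eq_or_lt with rfl | hl2
    · have : y = 0 := by nlinarith
      subst this; norm_num; linarith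
    · have : 1 - l ≠ 0 := by linarith
      have hy2 : y ^ 2 = (1 - l) * (1 + l) := by linarith
      field_simp
      rw [hy2]
      ring
  · rw [hu]; field_simp; linarith
  · rw [hu]; field_simp

theorem DEN_cast : (DEN : ℝ) = 33554432 := by norm_num [DEN]

theorem arc_mono {a u : ℝ} (au : a ≤ u) (u0 : 0 ≤ u) (u1 : u ≤ 1) :
    2 * a / (1 + a ^ 2) ≤ 2 * u / (1 + u ^ 2) := by
  rw [div_le_div_iff₀ (by positivity) (by positivity)]
  have : a * u ≤ 1 := mul_le_one₀ (au.trans u1) u0 u1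
  nlinarith [mul_nonneg (sub_nonneg.2 au) (sub_nonneg.2 this)]

/-- A point of the arc satisfies the layer inequality. -/
theorem arc_main {u t : ℝ} (u0 : 0 ≤ u) (u1 : u < 1) (t0 : 0 ≤ t) (t1 : t ≤ 1) {T l y : ℝ}
    (hT : T = (1 - u ^ 2 + 2 * u ^ 2 * t) / (1 + u ^ 2)) (hl : l = (1 - u ^ 2) / (1 + u ^ 2))
    (hy : y = 2 * u / (1 + u ^ 2)) :
    ∃ B, 0 ≤ B ∧ (B = 0 ∨ ∃ s σ, 0 ≤ s ∧ s ≤ y ∧ 0 ≤ σ ∧ s ^ 2 + σ ^ 2 = 1 ∧
      B ≤ chord4 T l y s σ) ∧ 1 / 1000 ≤ brk4 T l y B := by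
  have hu : (0 : ℝ) ≤ u * DEN ∧ u * DEN < 33554432 ∧ (0 : ℝ) ≤ t * DEN ∧ t * DEN < 33554944 := by
    rw [DEN_cast]; refine ⟨?_, ?_, ?_, ?_⟩ <;> linarith
  obtain ⟨a, b, c, d⟩ := hu
  obtain ⟨bx, k, hk, g0, g1, g2, g3⟩ := walk_sound _ _ mainArc_ok (u * DEN) (t * DEN)
    (by simpa [rootArc] using a) (by simpa [rootArc] using b) (by simpa [rootArc] using c)
    (by simpa [rootArc] using d)
  obtain ⟨X, Y, hX, hY, v⟩ := arc_val g0 g1 g2 g3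
  obtain ⟨bc, kc, hkc, c0, c1, c2, c3⟩ := walk_sound _ _ capArc_ok (u * DEN) (t * DEN)
    (by simpa [rootArc] using a) (by simpa [rootArc] using b) (by simpa [rootArc] using c)
    (by simpa [rootArc] using d)
  obtain ⟨X', Y', hX', hY', v'⟩ := arc_val c0 c1 c2 c3
  rw [← hT, ← hl, ← hy] at v v'
  refine main_of_test v hX hY hk (fun p hp hb => ?_) (v'.cap hX' hY' hkc)
  simp only [belowArc, Bool.and_eq_true, decide_eq_true_eq] at hb
  set a := (bx.u0 : ℝ) / DEN with ha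
  have hD : (0 : ℝ) < DEN := by rw [DEN_cast]; norm_num
  have au : a ≤ u := by rw [ha, div_le_iff₀ hD]; exact g0
  have h1 : (p.1 : ℝ) * ((DEN : ℝ) * DEN + bx.u0 * bx.u0) ≤ 2 * bx.u0 * DEN * p.2.2 := by
    exact_mod_cast hb.1
  have hp' : (0 : ℝ) < p.2.2 := by exact_mod_cast hp
  have h2 : (p.1 : ℝ) / p.2.2 ≤ 2 * a / (1 + a ^ 2) := by
    rw [ha, div_le_div_iff₀ hp' (by positivity)]
    field_simp
    linarith
  rw [hy]
  exact h2.trans (arc_mono au u0 u1.le)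

/-- A point above height one satisfies the layer inequality. -/
theorem flat_main {T y : ℝ} (h0 : 0 ≤ T) (h1 : T ≤ 1) (hy0 : 1 ≤ y) (hy : y ≤ 185 / 100) :
    ∃ B, 0 ≤ B ∧ (B = 0 ∨ ∃ s σ, 0 ≤ s ∧ s ≤ y ∧ 0 ≤ σ ∧ s ^ 2 + σ ^ 2 = 1 ∧
      B ≤ chord4 T 0 y s σ) ∧ 1 / 1000 ≤ brk4 T 0 y B := by
  obtain ⟨u, u0, u1, rfl⟩ : ∃ u : ℝ, 0 ≤ u ∧ u ≤ 1 ∧ y = 1 + 17 / 20 * u :=
    ⟨20 / 17 * (y - 1), by linarith, by linarith, by ring⟩
  have hu : (0 : ℝ) ≤ u * DEN ∧ u * DEN < 33554944 ∧ (0 : ℝ) ≤ T * DEN ∧ T * DEN < 33554944 := by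
    rw [DEN_cast]; refine ⟨?_, ?_, ?_, ?_⟩ <;> linarith
  obtain ⟨a, b, c, d⟩ := hu
  obtain ⟨bx, k, hk, g0, g1, g2, g3⟩ := walk_sound _ _ mainFlat_ok (u * DEN) (T * DEN)
    (by simpa [rootFlat] using a) (by simpa [rootFlat] using b) (by simpa [rootFlat] using c)
    (by simpa [rootFlat] using d)
  obtain ⟨X, Y, hX, hY, v⟩ := flat_val g0 g1 g2 g3
  obtain ⟨bc, kc, hkc, c0, c1, c2, c3⟩ := walk_sound _ _ capFlat_ok (u * DEN) (T * DEN)
    (by simpa [rootFlat] using a) (by simpa [rootFlat] using b) (by simpa [rootFlat] using c)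
    (by simpa [rootFlat] using d)
  obtain ⟨X', Y', hX', hY', v'⟩ := flat_val c0 c1 c2 c3
  refine main_of_test v hX hY hk (fun p hp hb => ?_) (v'.cap hX' hY' hkc)
  simp only [belowFlat, decide_eq_true_eq] at hb
  have hp' : (0 : ℝ) < p.2.2 := by exact_mod_cast hp
  rw [div_le_iff₀ hp']
  have hb' : (p.1 : ℝ) ≤ p.2.2 := by exact_mod_cast hb
  linarith [mul_nonneg u0 hp'.le]

end Vale.Agent.P237N.Cert

namespace Vale.Agent.P237N

open Cert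

/-- The test polynomial is nonnegative outside the disc. -/
theorem P4_nonneg {t y : ℝ} (ht0 : 0 ≤ t) (ht : t ≤ 1) (hy0 : 0 ≤ y) (hy : y ≤ 185 / 100)
    (hout : 1 ≤ t ^ 2 + y ^ 2) : 0 ≤ P4 t y := by
  rcases lt_or_ge y 1 with h | h
  · obtain ⟨l, hl0, hlt, hc⟩ : ∃ l : ℝ, 0 < l ∧ l ≤ t ∧ l ^ 2 + y ^ 2 = 1 := by
      have h2 : 0 < 1 - y ^ 2 := by nlinarith
      refine ⟨Real.sqrt (1 - y ^ 2), Real.sqrt_pos.2 h2, ?_, ?_⟩
      · rw [Real.sqrt_le_left ht0]; linarith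
      · rw [Real.sq_sqrt h2.le]; ring
    obtain ⟨u, v, u0, u1, v0, v1, eT, -, ey⟩ := arc_param hy0 hl0 hlt ht hc
    have hu : (0 : ℝ) ≤ u * DEN ∧ u * DEN < 33554432 ∧ (0 : ℝ) ≤ v * DEN ∧ v * DEN < 33554944 := by
      rw [DEN_cast]; refine ⟨?_, ?_, ?_, ?_⟩ <;> linarith
    obtain ⟨bx, k, hk, g0, g1, g2, g3⟩ := walk_sound _ _ posArc_ok (u * DEN) (v * DEN)
      (by simpa [rootArc] using hu.1) (by simpa [rootArc] using hu.2.1)
      (by simpa [rootArc] using hu.2.2.1) (by simpa [rootArc] using hu.2.2.2)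
    obtain ⟨X, Y, hX, hY, w⟩ := arc_val g0 g1 g2 g3
    rw [eT, ey]
    exact w.pos hX hY hk
  · obtain ⟨u, u0, u1, rfl⟩ : ∃ u : ℝ, 0 ≤ u ∧ u ≤ 1 ∧ y = 1 + 17 / 20 * u :=
      ⟨20 / 17 * (y - 1), by linarith, by linarith, by ring⟩
    have hu : (0 : ℝ) ≤ u * DEN ∧ u * DEN < 33554944 ∧ (0 : ℝ) ≤ t * DEN ∧ t * DEN < 33554944 := by
      rw [DEN_cast]; refine ⟨?_, ?_, ?_, ?_⟩ <;> linarith
    obtain ⟨bx, k, hk, g0, g1, g2, g3⟩ := walk_sound _ _ posFlat_ok (u * DEN) (t * DEN)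
      (by simpa [rootFlat] using hu.1) (by simpa [rootFlat] using hu.2.1)
      (by simpa [rootFlat] using hu.2.2.1) (by simpa [rootFlat] using hu.2.2.2)
    obtain ⟨X, Y, hX, hY, w⟩ := flat_val g0 g1 g2 g3
    exact w.pos hX hY hk

/-- The layer certificate. -/
theorem cert4 {T l y : ℝ} (hy0 : 0 < y) (hy : y ≤ 185 / 100) (hl : 0 ≤ l) (hlT : l ≤ T) (hT : T ≤ 1)
    (hcirc : (y ≤ 1 ∧ l ^ 2 + y ^ 2 = 1) ∨ (1 ≤ y ∧ l = 0)) :
    ∃ B, 0 ≤ B ∧ (B = 0 ∨ ∃ s σ, 0 ≤ s ∧ s ≤ y ∧ 0 ≤ σ ∧ s ^ 2 + σ ^ 2 = 1 ∧ B ≤ chord4 T l y s σ) ∧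
      1 / 1000 ≤ brk4 T l y B := by
  rcases hl.eq_or_lt with e | hl0
  · subst e
    refine flat_main hlT hT ?_ hy
    rcases hcirc with ⟨-, h⟩ | ⟨h, -⟩
    · nlinarith
    · exact h
  · rcases hcirc with ⟨-, h⟩ | ⟨-, h⟩
    · obtain ⟨u, t, u0, u1, t0, t1, eT, el, ey⟩ := arc_param hy0.le hl0 hlT hT h
      exact arc_main u0 u1 t0 t1 eT el ey
    · linarith

end Vale.Agent.P237N
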