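import Vale.Agent.P237N.Data5
import Vale.Agent.P237N.Cert4

/-!
# The pointwise certificate in dimension five

`cert5A` below height one and `cert5F` above it: a gain `B` under some chord pays for the cost of
every layer. The parametrisation and the subdivisions are those of `Cert4`.
-/

namespace Vale.Agent.P237N.Five

open Vale.Agent.P100T.PosCheck Vale.Agent.P237N.Cert

/-! ### Lists of terms -/

theorem ev_append (A B : Lst) (t y : ℝ) : ev (A ++ B) t y = ev A t y + ev B t y := by
  induction A with
  | nil => simp [ev]
  | cons a A ih => obtain ⟨c, i, j⟩ := a; simp [ev, ih]; ring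

theorem ev_tmul (A B : Lst) (t y : ℝ) : ev (tmul A B) t y = ev A t y * ev B t y := by
  induction A with
  | nil => simp [tmul, ev]
  | cons a A ih =>
    obtain ⟨c, i, j⟩ := a
    have h : ∀ B : Lst, ev (B.map fun b => (c * b.1, i + b.2.1, j + b.2.2)) t y
        = c * t ^ i * y ^ j * ev B t y := by
      intro B
      induction B with
      | nil => simp [ev]
      | cons b B ihB =>
        obtain ⟨d, k, l⟩ := b
        simp only [List.map_cons, ev, ihB]
        push_cast
        ring
    rw [tmul, ev_append, h, ih, ev]
    ring

/-- Multiplication by `c tⁱ`. -/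
def tscale (c : ℤ) (i : ℕ) (L : Lst) : Lst := L.map fun b => (c * b.1, b.2.1 + i, b.2.2)

theorem ev_tscale (c : ℤ) (i : ℕ) (L : Lst) (t y : ℝ) :
    ev (tscale c i L) t y = c * t ^ i * ev L t y := by
  induction L with
  | nil => simp [tscale, ev]
  | cons b L ih =>
    obtain ⟨d, k, l⟩ := b
    simp only [tscale, List.map_cons, ev] at *
    rw [ih]; push_cast; ring

/-- The value of a list of coefficients. -/
def evy : List ℤ → ℝ → ℝ
  | [], _ => 0
  | c :: L, y => c + y * evy L y

/-- The value of a table of coefficients. -/
def evm : List (List ℤ) → ℝ → ℝ → ℝ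
  | [], _, _ => 0
  | r :: M, t, y => evy r y + t * evm M t y

/-- Adds `c` at place `j`. -/
def addAt (c : ℤ) : ℕ → List ℤ → List ℤ
  | 0, [] => [c]
  | 0, d :: L => (d + c) :: L
  | j + 1, [] => 0 :: addAt c j []
  | j + 1, d :: L => d :: addAt c j L

/-- Adds `c tⁱ yʲ`. -/
def addTerm (c : ℤ) (j : ℕ) : ℕ → List (List ℤ) → List (List ℤ)
  | 0, [] => [addAt c j []]
  | 0, r :: M => addAt c j r :: M
  | i + 1, [] => [] :: addTerm c j i []
  | i + 1, r :: M => r :: addTerm c j i M

theorem evy_addAt (c : ℤ) (y : ℝ) : ∀ (j : ℕ) (L : List ℤ),
    evy (addAt c j L) y = evy L y + c * y ^ j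
  | 0, [] => by simp [addAt, evy]
  | 0, d :: L => by simp [addAt, evy]; ring
  | j + 1, [] => by simp [addAt, evy, evy_addAt c y j []]; ring
  | j + 1, d :: L => by simp [addAt, evy, evy_addAt c y j L]; ring

theorem evm_addTerm (c : ℤ) (j : ℕ) (t y : ℝ) : ∀ (i : ℕ) (M : List (List ℤ)),
    evm (addTerm c j i M) t y = evm M t y + c * t ^ i * y ^ j
  | 0, [] => by simp [addTerm, evm, evy_addAt, evy]
  | 0, r :: M => by simp [addTerm, evm, evy_addAt]; ring
  | i + 1, [] => by simp [addTerm, evm, evy, evm_addTerm c j t y i []]; ring
  | i + 1, r :: M => by simp [addTerm, evm, evm_addTerm c j t y i M]; ring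

/-- Sum of two rows. -/
def addR : List ℤ → List ℤ → List ℤ
  | [], L => L
  | c :: L, [] => c :: L
  | c :: L, d :: K => (c + d) :: addR L K

/-- Sum of two tables. -/
def addM : List (List ℤ) → List (List ℤ) → List (List ℤ)
  | [], N => N
  | r :: M, [] => r :: M
  | r :: M, q :: N => addR r q :: addM M N

theorem evy_addR (y : ℝ) : ∀ L K : List ℤ, evy (addR L K) y = evy L y + evy K y
  | [], K => by simp [addR, evy]
  | c :: L, [] => by simp [addR, evy]
  | c :: L, d :: K => by simp [addR, evy, evy_addR y L K]; ring

theorem evm_addM (t y : ℝ) : ∀ M N : List (List ℤ), evm (addM M N) t y = evm M t y + evm N t y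
  | [], N => by simp [addM, evm]
  | r :: M, [] => by simp [addM, evm]
  | r :: M, q :: N => by simp [addM, evm, evy_addR, evm_addM t y M N]; ring

/-- Adds neighbours. -/
def pairUp : List (List (List ℤ)) → List (List (List ℤ))
  | a :: b :: L => addM a b :: pairUp L
  | L => L

/-- Adds up a list of tables by halving. -/
def addAll : ℕ → List (List (List ℤ)) → List (List ℤ)
  | 0, L => L.foldr addM []
  | n + 1, L => addAll n (pairUp L)

theorem sum_pairUp (t y : ℝ) : ∀ L : List (List (List ℤ)),
    ((pairUp L).map fun M => evm M t y).sum = (L.map fun M => evm M t y).sum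
  | [] => by simp [pairUp]
  | [a] => by simp [pairUp]
  | a :: b :: L => by simp [pairUp, evm_addM, sum_pairUp t y L]; ring

theorem evm_addAll (t y : ℝ) : ∀ (n : ℕ) (L : List (List (List ℤ))),
    evm (addAll n L) t y = (L.map fun M => evm M t y).sum
  | 0, [] => by simp [addAll, evm]
  | 0, a :: L => by
    have := evm_addAll t y 0 L
    simp [addAll, evm_addM] at *
    rw [this]
  | n + 1, L => by rw [addAll, evm_addAll t y n, sum_pairUp]

/-- The table of a list of terms. -/
def mat (L : Lst) : List (List ℤ) := addAll 13 (L.map fun b => addTerm b.1 b.2.2 b.2.1 [])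

theorem evm_mat (t y : ℝ) (L : Lst) : evm (mat L) t y = ev L t y := by
  rw [mat, evm_addAll]
  induction L with
  | nil => simp [ev]
  | cons a L ih => obtain ⟨c, i, j⟩ := a; simp [ev, evm_addTerm, evm, ← ih]

/-- The coefficient that a term of `p²` contributes. -/
def nTerm (b : ℤ × ℕ × ℕ) : ℤ × ℕ × ℕ :=
  (b.1 * (-lcm20 - (4 + (b.2.2 : ℕ)) * (lcm20 / (b.2.1 + 1 : ℕ))), b.2.1 + 1, b.2.2)

theorem ev_nTerm (t y : ℝ) : ∀ Q : Lst, ev (Q.map nTerm) t y
    = -(lcm20 : ℝ) * t * ev Q t y - 4 * ev (integ Q) t y - ev (ydy (integ Q)) t y
  | [] => by simp [integ, ydy, ev]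
  | (c, i, j) :: Q => by
    have := ev_nTerm t y Q
    simp [integ, ydy, ev, nTerm] at *
    rw [this]
    ring

/-- The terms of `10¹⁶ lcm20 NOf`. -/
def NL (P : Lst) : Lst :=
  tscale (2 * sigI * lcm20) 0 P ++ (tmul P P).map nTerm

theorem ev_NL (P : Lst) (t y : ℝ) :
    ev (NL P) t y = 100000000 ^ 2 * (lcm20 : ℝ) * NOf P t y := by
  have hK : (lcm20 : ℝ) ≠ 0 := by norm_num [lcm20]
  simp only [NL, ev_append, ev_tscale, ev_nTerm, ev_tmul, NOf, pOf, WOf, yWyOf, sig5]
  push_cast
  field_simp
  ring

/-- `10¹⁶ lcm20` times `NOf PA`, by powers of `t` and `y`. -/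
def MA : List (List ℤ) := [
    [],
    [ -138685990703779448811161280, 345240895182892138176626880, 29385661542073338968706240,
      -649843512112663515269663040, 400916988489724818226315200, 206924619871004874749951040,
      -278667414244104212492605440, 97677997058766502343085120, -12872531516784548106738240],
    [ 86376515560554341797234560, -470824885594902372632017920, 401986717391431210932653760,
      418189832588214567143303040, -530997204243020237376413760, 57300296791276681696794240,
      42633971291034684646525440, -4665243784588876208079360],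
    [ -291997374954477334293500709360, 1663612199992204928676778888320,
      -2171525820356671168748339021040, -4356098990729672292365036057280,
      13360039265447867150798335135440, -4725024508800294798051247014720,
      -18811111427758716597866361346320, 22155546543157129322706713747520,
      1745620382351620367753636876400, -18248037886335774528565302228480,
      11388006450079446689296113599280, 792864910002283182987527404800,
      -4448146975023278360959380615360, 2596960761771335318124464899200,
      -762623308752528601483582997520, 120195984182390748399853525440,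
      -8280038109183105387497334960],
    [ 311841853178209627957612568640, -2788610229595932118723819352880,
      7031068148286901795080636712080, -388441885323093592490026286760,
      -22307046982389436414369383120960, 25889314756306402101251849538240,
      10668059603946566650166408310240, -36789249602411477063835681538800,
      16845404893715965355318451841920, 10302136293681762850012175683200,
      -12648581572164907321943912441520, 4103100067126971811501082041560,
      26970188094183908614641400800, -323488743736713728630987209680,
      72017814443905646570604430080, -4501258700511758433636548160],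
    [ 1578173044795939761156319524192, -6308785818564655142231356121280,
      1672684013703232500425720096832, 22730105729108475829928526649920,
      -28160469048970749938134839239088, -13222832162700877206128928184896,
      41892691260587372517868812416160, -18765761269870176291617418026496,
      -9795506546099026893919272045552, 13354489851713347817851834567104,
      -6788985765676364433512811946464, 2213053210725159687308389405440,
      -433286752069690143714442761408, 33111119295030460737477872448, 1350392289431111353903956480],
    [ -2371281244550430048102246620640, 15096705021686491377098354430000,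
      -25222104712537327904826883766400, -12905326777622786989464363741360,
      70264612806955784358470129760960, -43713432253885002025207017427200,
      -35288326407594715164891011550720, 50448598247811694301369147189040,
      -14048664945998546224130211842400, -6539186378149339095881737957920,
      5869470846261323527369786843200, -1851829498463440102744739041440,
      280301715267032565556529439360, -19514091503879838361092957360],
    [ -3055264401515267810446240394160, 5394109396112924131976531428800,
      14585867496707580105533728175520, -33691390071649911488006876877120,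
      -1392321536305273246247124778800, 37023045260376641164435462302720,
      -14733501929336639584446928428240, -8082738721275530366257941291840,
      3080262635632954602892817767440, 1770264565113421020184978694400,
      -1099345923896128056679305574800, 210088791106218950813049951360,
      -10184251054488134136075557280],
    [ 6880789753120483439993695861920, -30915547480374179298868908195480,
      31015499893563707105849306921880, 33375331930684549849448465560500,
      -68455155821766188680468189967040, 18452293954202505296497372014240,
      19838150106897716382172166382600, -14535868335605489396633524915500,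
      5619166913749378918499431660800, -1458676660068935453601939884400,
      208708428640388353053582965760, -16328543906461825580389848000],
    [ 1117015858155232397369653806160, 9682838622642337286299562196800,
      -32460746560743728713086405604800, 10743724302718204835217688668160,
      35187774573836273884735956315600, -22670339842954179851912138782080,
      -6604966701705293503989976288720, 6777668252012712495359603484800,
      -2070077690636972621544196136880, 267236629419144542957854774720,
      -10364040633124849249430771920],
    [ -9121246247980163558117448367776, 27259419794398584104137181035680,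
      -10933860017971795815548601739776, -24124453884818030737885831731792,
      14787165659852965697583942733056, 430290249251060096468731809648,
      2803967606210596221818609066880, -1178904948051616311972721635360,
      221281124980787614888601680224, -4130625151590189638018304672],
    [ 3328297659126105356341211652000, -20725412533886098152757826426880,
      24571992566392552052979542375040, 8058307904117438914911407264640,
      -18364298688509677373818764102960, 3821895992716916857700965862400,
      -1094452721068683597441514359120, 59383434093628791130272288000,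
      -19006343891956776805183384560],
    [ 5390910892050699298517675400960, -7194206597860172059039650780000,
      -5259437084936361268012807335600, 2281591607152068798413963376240,
      5970497374910426282933348340000, -652440968862202366258427215200,
      171344657900251195477639682160, 20285472402669925209076478160],
    [ -4267043504280635121005368800240, 12599576239262390222017976732160,
      -5537596157714708885824338256560, -3104462054693732262830983267200,
      -630622708556592244540419353520, -179993874799026100039086034560,
      -23086019098563154853370562080],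
    [ -781605855917212311332732848320, -2702200600623872530581806206800,
      3326615672644172882875374158400, 1529539520827512866243563031040,
      -18014936817777554694054581280, 51863174391129899829111503280],
    [ 1813973059086648373658182838400, -2034487770018156470160218275200,
      -710106198997411137729456977328, -393524345898145355637452444736,
      -8465748723050671443409130112],
    [ -429879000287784914687134314000, 1206636668883321458103426645540,
      119027805218310635051895469980, 39583536007815023782856718420],
    [ -216390360172368549853468823040, -214658988941863095355167361920,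
      -23366953449530713389779652240],
    [ 126439279957418230042480880640, 8913067664816676310896666720],
    [ -18510261884634755556434393280]]

/-- `10¹⁶ lcm20` times `NOf PF`, by powers of `t` and `y`. -/
def MF : List (List ℤ) := [
    [],
    [ 591555564981283083126865920, -2773916445179457158941039680, 5314402326966001649042382720,
      -5239625212554858764085807360, 2638988561785091327396544960, -425602719387484343476611840,
      -190530828585427799514165120, 97677997058766502343085120, -12872531516784548106738240],
    [ 294383244916886782056079680, -1081861949530813710379760640, 1684588718898466645080136320,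
      -1416369433067925935624625600, 694429931510137615413741120, -213139240233197204984016960,
      42633971291034684646525440, -4665243784588876208079360],
    [ -5322372097638883841946044452800, 57042144468627899559528378628800,
      -273398122008486222518958964817040, 775232954506438914396295022077440,
      -1444269476733566733152298720804480, 1846743939345994052261668516025280,
      -1627924467359696106505071721794240, 943073997933770486074722510119040,
      -288150213855988327935067913336400, -29891760929094717268342039272960,
      73309838743087342098785823861120, -31778639291724919711403423417280,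
      4738137290993457385362826898400, 1141222323206729270617773062400,
      -659098115832496835881202216400, 120195984182390748399853525440,
      -8280038109183105387497334960],
    [ -4539349191895318026588769767360, 42719840172972128561191847570520,
      -181257352306927821373496556468960, 458944998287022943014159994673520,
      -771872060602516609588939157111040, 906045484714323300247424233830120,
      -756365450663558362038085621387440, 445430427329849840449182752540400,
      -175262791893706723379657906822400, 36446401700150568629347587342600,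
      3793880822751829410694681507920, -5957546965848749761230245384880,
      2339588161374733104155927006400, -533592775276355388249719383320,
      72017814443905646570604430080, -4501258700511758433636548160],
    [ 5706842194694941733430472050576, -47737316288828462982546313252800,
      180748773052204970845175541133536, -409678039070526587438862520287552,
      615246805740193583804612006546304, -634622490211869144954766917991872,
      444841526634653291292574977792240, -194361857672237865430568362847232,
      33154017616199540472176025333072, 16304843000325382334508782641536,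
      -13095002418319735592671533773232, 4084380840123161530559577210240,
      -626913669931087548341200220352, 33111119295030460737477872448, 1350392289431111353903956480],
    [ -6688988495079175009171003196640, 47661025070931440028759477939360,
      -148305981734199834316432155855360, 269081801783729031153075201262080,
      -320163451168384390303821476552160, 263585372331090988367236451804400,
      -148906418935630755790297699752960, 48973144417443921956519429711520,
      1150075020963390339277496836800, -11021916718229257151413247745600,
      6149280262065192363465983428800, -1774707130786845628139251605120,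
      280301715267032565556529439360, -19514091503879838361092957360],
    [ 4096756055736432744489892721520, -30214493281020608617747144403520,
      84592678996072120372060063273200, -115330854591629124552067610687040,
      69278906358491879822589272055600, 13531869191113958008169951339520,
      -55565834249550764105088483366720, 46097878483026758949280148183040,
      -22479305308136832468068388444240, 7444657704411052457655186864000,
      -1653272588550102138333786511440, 210088791106218950813049951360,
      -10184251054488134136075557280],
    [ 6171131201555007377898498370080, -23545662354265218548939616698640,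
      41645123430621770096079223020840, -56820255597193342565290915435500,
      75743950228674257852875225632960, -84365090391844120189094736532560,
      64491246185497161009162977593800, -30909590277682146996273005978280,
      9055673285800373446194541360800, -1650541456760193319724315893980,
      208708428640388353053582965760, -16328543906461825580389848000],
    [ -16840186018652939797863534526000, 71366531218936122310189374726400,
      -135182219206438609743792026572800, 154078395178861758592189642119680,
      -118276480873393427687385962318640, 67574290245757795820407712264640,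
      -31807702155828497756905247600400, 11310234202674720053773128096000,
      -2519971778592335582163338529840, 267236629419144542957854774720,
      -10364040633124849249430771920],
    [ 19316258735542116148244177750016, -73140807384962036401932853883280,
      122672605379933423553765362848512, -125043572476934408414507324014080,
      80992601246733053857223230834848, -31631243723330711367377112971328,
      8317006694449983465376589628480, -1560470260539821144308209022608,
      221281124980787614888601680224, -4130625151590189638018304672],
    [ -14486274791142261689969836722000, 45922073430391340025780583395840,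
      -57897086129388317248568797367520, 46503977173007524362961024314240,
      -26977337230226717249936503872480, 7861952239026200386462945008000,
      -1330974512779214528814392490960, 59383434093628791130272288000,
      -19006343891956776805183384560],
    [ 7052098323591927756437790222720, -21791052466689316779038949398520,
      18664651855280439593283296838240, -7279599603412207819954323357240,
      4660975777635083243101557592800, -770158663951467307275270111600,
      171344657900251195477639682160, 20285472402669925209076478160],
    [ -6555823577970046640751118320, 5477831167948458887156351273280,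
      -4412735361972554581319125644720, -1782793599558695429693976172800,
      -215894568822517121685631282800, -179993874799026100039086034560,
      -23086019098563154853370562080],
    [ -3135080674444676973002199051840, 2238132189112761867540985450080,
      770831124430526530988770296000, 1498466097831989481676841440080,
      -18014936817777554694054581280, 51863174391129899829111503280],
    [ 2208626294474440254665672156736, -2865336686624034114386511576960,
      -273910517779325374510652993904, -393524345898145355637452444736,
      -8465748723050671443409130112],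
    [ -429879000287784914687134314000, 1206636668883321458103426645540,
      119027805218310635051895469980, 39583536007815023782856718420],
    [ -216390360172368549853468823040, -214658988941863095355167361920,
      -23366953449530713389779652240],
    [ 126439279957418230042480880640, 8913067664816676310896666720],
    [ -18510261884634755556434393280]]

theorem mat_PA : mat (NL PA) = MA := by decide +kernel
theorem mat_PF : mat (NL PF) = MF := by decide +kernel

theorem evm_MA (t y : ℝ) : evm MA t y = 100000000 ^ 2 * (lcm20 : ℝ) * NOf PA t y := by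
  rw [← mat_PA, evm_mat, ev_NL]

theorem evm_MF (t y : ℝ) : evm MF t y = 100000000 ^ 2 * (lcm20 : ℝ) * NOf PF t y := by
  rw [← mat_PF, evm_mat, ev_NL]

/-! ### Homogeneous templates -/

/-- The degree of a row. -/
def shape : List (List ℤ) → ℕ → Bool
  | [], _ => true
  | r :: M, 0 => decide (r.length ≤ 1) && M.isEmpty
  | r :: M, d + 1 => decide (r.length ≤ d + 2) && shape M d

/-- A row, made homogeneous. -/
def eRow : List ℤ → Ex → Ex → ℕ → Ex
  | [], _, _, _ => .num 0
  | c :: L, v, w, d => .add (.mul (.num c) (.pow w d)) (.mul v (eRow L v w (d - 1)))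

/-- A table, made homogeneous. -/
def eTab : List (List ℤ) → Ex → Ex → Ex → Ex → ℕ → Ex
  | [], _, _, _, _, _ => .num 0
  | r :: M, a, v, w, q, d =>
    .add (.mul (.pow q d) (eRow r v w d)) (.mul a (eTab M a v w q (d - 1)))

theorem eRow_eq {X Y y : ℝ} {v w : Ex} (hv : v.eval X Y 0 = y * w.eval X Y 0) :
    ∀ (L : List ℤ) (d : ℕ), L.length ≤ d + 1 →
      (eRow L v w d).eval X Y 0 = w.eval X Y 0 ^ d * evy L y
  | [], d, _ => by simp [eRow, evy, Ex.eval]
  | [c], d, _ => by simp [eRow, evy, Ex.eval]; ring
  | c :: e :: L, 0, h => by simp at h
  | c :: e :: L, d + 1, h => by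
    have ih := eRow_eq hv (e :: L) d (by simpa using h)
    rw [eRow, evy]
    simp only [Ex.eval, Nat.add_sub_cancel, ih, hv]
    ring

theorem eTab_eq {X Y T y : ℝ} {a v w q : Ex} (hv : v.eval X Y 0 = y * w.eval X Y 0)
    (ha : a.eval X Y 0 = T * (w.eval X Y 0 * q.eval X Y 0)) :
    ∀ (M : List (List ℤ)) (d : ℕ), shape M d = true →
      (eTab M a v w q d).eval X Y 0 = (w.eval X Y 0 * q.eval X Y 0) ^ d * evm M T y
  | [], d, _ => by simp [eTab, evm, Ex.eval]
  | r :: M, 0, h => by
    simp only [shape, Bool.and_eq_true, decide_eq_true_eq, List.isEmpty_iff] at h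
    obtain ⟨h, rfl⟩ := h
    simp [eTab, evm, Ex.eval, eRow_eq hv r 0 h]
  | r :: M, d + 1, h => by
    simp only [shape, Bool.and_eq_true, decide_eq_true_eq] at h
    rw [eTab, evm]
    simp only [Ex.eval, Nat.add_sub_cancel, eRow_eq hv r (d + 1) h.1, eTab_eq hv ha M d h.2, ha]
    ring

theorem shapeA : shape MA 19 = true := by decide +kernel
theorem shapeF : shape MF 19 = true := by decide +kernel

/-- The layer width times the height and second moment terms, cleared. -/
def eLin (a b c z : Ex) : Ex :=
  .add (.add (.mul (.num (2 * (10000000000000000 + sigI * sigI))) (.mul c (.pow z 2)))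
      (.mul (.num 4000000000000) (.pow z 3)))
    (.mul (.num (muI * 100000000))
      (.sub (.mul (.num 4) (.mul c (.add (.add (.pow a 2) (.mul a b)) (.pow b 2))))
        (.mul (.num 3) (.pow c 3))))

/-- The cost, cleared. -/
def eCost (M : List (List ℤ)) (a b v w q : Ex) : Ex :=
  .sub (.mul (.mul (.num lcm20) (.mul (.sub a b) (.pow (.mul w q) 16)))
      (eLin a b (.mul v q) (.mul w q)))
    (.mul (.mul (.num 2) (.mul v q)) (.sub (eTab M a v w q 19) (eTab M b v w q 19)))

/-- The value of a layer, cleared. -/
def eGain (a b w q : Ex) : Ex :=
  .mul (.num (18108280000000000 * lcm20)) (.mul (.sub a b) (.pow (.mul w q) 19))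

/-- The numerator of a chord gain, cleared. -/
def eNum (p : ℕ × ℕ × ℕ) (a b c z : Ex) : Ex :=
  let k := Ex.num p.2.2
  let s := Ex.mul (.num p.1) z
  let g := Ex.mul (.num p.2.1) z
  let y := Ex.mul k c
  let t := Ex.mul k a
  let l := Ex.mul k b
  let w := Ex.mul k z
  .mul (.num 509295) (.add
    (.sub
      (.mul (.sub y s) (.add
        (.mul (.num 3) (.add
          (.mul g (.add (.add (.pow y 3) (.mul (.num 2) (.mul (.pow y 2) s)))
            (.add (.mul (.num 3) (.mul y (.pow s 2))) (.mul (.num 4) (.pow s 3)))))
          (.mul t (.add (.add (.mul (.num 4) (.pow y 3)) (.mul (.num 3) (.mul (.pow y 2) s)))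
            (.add (.mul (.num 2) (.mul y (.pow s 2))) (.pow s 3))))))
        (.mul (.mul (.num 10) (.mul s y))
          (.add (.mul g (.add y (.mul (.num 2) s))) (.mul t (.add (.mul (.num 2) y) s))))))
      (.sub (.add (.mul (.num 12) (.pow l 5)) (.mul (.num 20) (.mul (.pow g 3) (.pow w 2))))
        (.add (.mul (.num 20) (.mul (.pow l 3) (.pow w 2))) (.mul (.num 12) (.pow g 5)))))
    (.mul (.mul (.num 20) (.mul s y)) (.sub (.pow l 3) (.pow g 3))))

/-- The denominator of a chord gain, cleared. -/
def eDen (p : ℕ × ℕ × ℕ) (c z : Ex) : Ex :=
  .mul (.mul (.num 6000000) (.pow (.mul (.num p.2.2) z) 4))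
    (.add (.mul (.num p.1) z) (.mul (.num p.2.2) c))

/-- The limit on the cost, cleared. -/
def eCap5 (M : List (List ℤ)) (a b v w q : Ex) : Ex :=
  .sub (.mul (.num 2) (eGain a b w q)) (eCost M a b v w q)

/-- The layer inequality with the gain of a chord, cleared. -/
def eF5 (M : List (List ℤ)) (p : ℕ × ℕ × ℕ) (a b v w q : Ex) : Ex :=
  let num := eNum p a b (.mul v q) (.mul w q)
  let den := Ex.mul (.num 3) (eDen p (.mul v q) (.mul w q))
  .sub (.mul (eGain a b w q) (.add (.mul (.num 2) num) den))
    (.mul (eCost M a b v w q) (.add num den))

/-- The points of the circle. -/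
def pts5 : List (ℕ × ℕ × ℕ) :=
  [(0, 1, 1), (7, 24, 25), (5, 12, 13), (8, 15, 17), (3, 4, 5), (20, 21, 29), (21, 20, 29),
    (4, 3, 5), (77, 36, 85), (15, 8, 17), (12, 5, 13), (24, 7, 25), (40, 9, 41), (60, 11, 61),
    (28, 45, 53), (45, 28, 53), (35, 12, 37)]

/-- The test of a leaf. -/
def test5 (M : List (List ℤ)) (a b v w q : Ex) (below : ℕ × ℕ × ℕ → Bool) (k : ℕ) : Bool :=
  match k with
  | 0 => check (.sub (eGain a b w q) (eCost M a b v w q))
  | j + 1 =>
    match pts5[j]? with
    | none => false
    | some p => decide (p.1 * p.1 + p.2.1 * p.2.1 = p.2.2 * p.2.2) && decide (0 < p.2.2) &&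
        below p && check (eF5 M p a b v w q)

/-- A subdivision. -/
def capArc : Tr :=
  (.leaf 0)

/-- A subdivision. -/
def mainArc : Tr :=
  (.cutT 16777472
    (.cutU 16777216
      (.cutU 8388608
        (.leaf 0)
        (.leaf 3))
      (.cutT 8388736
        (.cutU 25165824
          (.cutT 4194368
            (.leaf 8)
            (.cutU 20971520
              (.leaf 5)
              (.leaf 7)))
          (.cutU 29360128
            (.leaf 8)
            (.leaf 10)))
        (.cutU 25165824
          (.cutT 12583104
            (.leaf 5)
            (.leaf 4))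
          (.cutT 12583104
            (.leaf 6)
            (.leaf 5)))))
    (.cutU 16777216
      (.cutU 8388608
        (.leaf 0)
        (.leaf 2))
      (.cutT 25166208
        (.leaf 3)
        (.leaf 2))))

/-- A subdivision. -/
def capFlat : Tr :=
  (.cutU 16777472
    (.cutT 16777472
      (.leaf 0)
      (.leaf 0))
    (.cutT 16777472
      (.leaf 0)
      (.cutU 25166208
        (.leaf 0)
        (.leaf 0))))

/-- A subdivision. -/
def mainFlat : Tr :=
  (.cutT 16777472
    (.cutU 16777472
      (.cutT 8388736
        (.cutU 8388736
          (.cutU 4194368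
            (.cutU 2097184
              (.leaf 10)
              (.leaf 10))
            (.cutU 6291552
              (.leaf 8)
              (.leaf 7)))
          (.cutT 4194368
            (.leaf 6)
            (.leaf 6)))
        (.cutU 8388736
          (.cutT 12583104
            (.cutT 10485920
              (.leaf 8)
              (.leaf 7))
            (.cutT 14680288
              (.leaf 6)
              (.leaf 5)))
          (.leaf 2)))
      (.cutT 8388736
        (.leaf 2)
        (.leaf 2)))
    (.cutU 16777472
      (.cutU 8388736
        (.cutT 25166208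
          (.leaf 15)
          (.cutU 4194368
            (.leaf 2)
            (.leaf 2)))
        (.cutT 25166208
          (.leaf 2)
          (.cutT 29360576
            (.leaf 1)
            (.leaf 3))))
      (.cutT 25166208
        (.leaf 2)
        (.cutU 25166208
          (.cutT 29360576
            (.leaf 1)
            (.leaf 3))
          (.cutU 29360576
            (.cutT 29360576
              (.leaf 1)
              (.leaf 2))
            (.cutT 29360576
              (.leaf 1)
              (.cutU 31457760
                (.leaf 2)
                (.leaf 3))))))))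

def aW (b : Bx) : Ex := .add (.pow ud 2) (.pow (un b) 2)
def aV (b : Bx) : Ex := .mul (.mul (.num 2) (un b)) ud
def aB (b : Bx) : Ex := .mul (.sub (.pow ud 2) (.pow (un b) 2)) td
def aA (b : Bx) : Ex := .add (aB b) (.mul (.mul (.num 2) (.pow (un b) 2)) (tn b))
def gW : Ex := .mul (.num 25) ud
def gV (b : Bx) : Ex := .add (.mul (.num 25) ud) (.mul (.num 27) (un b))
def gA (b : Bx) : Ex := .mul gW (tn b)

def arcMain5 (b : Bx) (k : ℕ) : Bool :=
  test5 MA (aA b) (aB b) (aV b) (aW b) td (belowArc b) k
def arcCap5 (b : Bx) (_ : ℕ) : Bool := check (eCap5 MA (aA b) (aB b) (aV b) (aW b) td)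
def flatMain5 (b : Bx) (k : ℕ) : Bool := test5 MF (gA b) (.num 0) (gV b) gW td belowFlat k
def flatCap5 (b : Bx) (_ : ℕ) : Bool := check (eCap5 MF (gA b) (.num 0) (gV b) gW td)

theorem mainArc5_ok : walk arcMain5 mainArc rootArc = true := by decide +kernel
theorem capArc5_ok : walk arcCap5 capArc rootArc = true := by decide +kernel
theorem mainFlat5_ok : walk flatMain5 mainFlat rootFlat = true := by decide +kernel
theorem capFlat5_ok : walk flatCap5 capFlat rootFlat = true := by decide +kernel

/-! ### Values -/

/-- Values of the homogeneous coordinates and of the table. -/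
structure Val5 (P : Lst) (M : List (List ℤ)) (X Y : ℝ) (a b v w q : Ex) (T l y : ℝ) : Prop where
  za : a.eval X Y 0 = T * (w.eval X Y 0 * q.eval X Y 0)
  zb : b.eval X Y 0 = l * (w.eval X Y 0 * q.eval X Y 0)
  zv : v.eval X Y 0 = y * w.eval X Y 0
  wpos : 0 < w.eval X Y 0
  qpos : 0 < q.eval X Y 0
  hsh : shape M 19 = true
  hM : ∀ t y, evm M t y = 100000000 ^ 2 * (lcm20 : ℝ) * NOf P t y

variable {P : Lst} {M : List (List ℤ)} {X Y T l y : ℝ} {a b v w q : Ex}

/-- The common factor of the cleared layer. -/
noncomputable def SC (X Y : ℝ) (w q : Ex) : ℝ :=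
  20000000000000000 * (lcm20 : ℝ) * (w.eval X Y 0 * q.eval X Y 0) ^ 20

theorem Val5.gain_eq (h : Val5 P M X Y a b v w q T l y) :
    (eGain a b w q).eval X Y 0 = SC X Y w q * (905414 / 1000000 * (T - l)) := by
  simp only [eGain, Ex.eval, h.za, h.zb, SC]
  push_cast
  ring

theorem Val5.cost_eq (h : Val5 P M X Y a b v w q T l y) :
    (eCost M a b v w q).eval X Y 0 = SC X Y w q * cost5 P T l y := by
  simp only [eCost, eLin, Ex.eval, eTab_eq h.zv h.za M 19 h.hsh, eTab_eq h.zv h.zb M 19 h.hsh,
    h.za, h.zb, h.zv, h.hM, SC, cost5, mu5, sig5]
  push_cast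
  ring

theorem Val5.SC_pos (h : Val5 P M X Y a b v w q T l y) : 0 < SC X Y w q := by
  have := h.wpos; have := h.qpos
  have : (0 : ℝ) < lcm20 := by norm_num [lcm20]
  rw [SC]; positivity

theorem Val5.cap (h : Val5 P M X Y a b v w q T l y) (hX : 0 ≤ X) (hY : 0 ≤ Y)
    (hc : check (eCap5 M a b v w q) = true) : cost5 P T l y ≤ 2 * (905414 / 1000000) * (T - l) := by
  have := nonneg_of_check hc hX hY le_rfl
  simp only [eCap5, Ex.eval, h.gain_eq, h.cost_eq] at this
  push_cast at this
  refine le_of_mul_le_mul_left ?_ h.SC_pos
  linarith

theorem Val5.chord (h : Val5 P M X Y a b v w q T l y) (hX : 0 ≤ X) (hY : 0 ≤ Y) {p : ℕ × ℕ × ℕ}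
    (hk : 0 < p.2.2) (hden : 0 < (p.1 : ℝ) / p.2.2 + y) (hc : check (eF5 M p a b v w q) = true) :
    0 ≤ 905414 / 1000000 * (T - l) * (2 * chord5 T l y (p.1 / p.2.2) (p.2.1 / p.2.2) + 3)
      - cost5 P T l y * (chord5 T l y (p.1 / p.2.2) (p.2.1 / p.2.2) + 3) := by
  obtain ⟨s, r, k⟩ := p
  have hw := h.wpos; have hq := h.qpos; have hS := h.SC_pos
  have hk' : (0 : ℝ) < k := by exact_mod_cast hk
  set D := 6000000 * (w.eval X Y 0 * q.eval X Y 0) ^ 5 * (k : ℝ) ^ 5 * ((s : ℝ) / k + y) with hD
  have e : (eNum (s, r, k) a b (.mul v q) (.mul w q)).eval X Y 0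
      = D * chord5 T l y ((s : ℝ) / k) ((r : ℝ) / k) := by
    rw [chord5, hD, mul_div_assoc']
    rw [eq_div_iff (ne_of_gt hden)]
    simp only [eNum, Ex.eval, h.za, h.zb, h.zv]
    push_cast
    field_simp
    ring
  have e' : (eDen (s, r, k) (.mul v q) (.mul w q)).eval X Y 0 = D := by
    rw [hD]
    simp only [eDen, Ex.eval, h.zv]
    push_cast
    field_simp
  have h1 := nonneg_of_check hc hX hY le_rfl
  simp only [eF5, Ex.eval, h.gain_eq, h.cost_eq, e, e'] at h1
  push_cast at h1
  have hpos : 0 < SC X Y w q * D := mul_pos hS (mul_pos (by positivity) hden)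
  refine (mul_nonneg_iff_of_pos_left hpos).1 (le_of_le_of_eq h1 ?_)
  ring

/-- The conclusion from one leaf. -/
theorem main5_of_test (h : Val5 P M X Y a b v w q T l y) (hX : 0 ≤ X) (hY : 0 ≤ Y)
    {below : ℕ × ℕ × ℕ → Bool} {k : ℕ} (hk : test5 M a b v w q below k = true) (hy : 0 < y)
    (hb : ∀ p : ℕ × ℕ × ℕ, 0 < p.2.2 → below p = true → (p.1 : ℝ) / p.2.2 ≤ y)
    (hcap : cost5 P T l y ≤ 2 * (905414 / 1000000) * (T - l)) :
    ∃ B, 0 ≤ B ∧ (B = 0 ∨ ∃ s σ, 0 ≤ s ∧ s ≤ y ∧ 0 ≤ σ ∧ s ^ 2 + σ ^ 2 = 1 ∧
      B ≤ chord5 T l y s σ) ∧
      cost5 P T l y ≤ (T - l) * (905414 / 1000000 * ((3 + 2 * B) / (3 + B))) := by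
  rcases k with _ | j
  · have := nonneg_of_check hk hX hY le_rfl
    simp only [Ex.eval, h.gain_eq, h.cost_eq] at this
    have h2 : cost5 P T l y ≤ 905414 / 1000000 * (T - l) :=
      le_of_mul_le_mul_left (by linarith) h.SC_pos
    exact ⟨0, le_rfl, Or.inl rfl, by linarith⟩
  simp only [test5] at hk
  split at hk
  · simp at hk
  rename_i p _
  simp only [Bool.and_eq_true, decide_eq_true_eq] at hk
  obtain ⟨⟨⟨hc, hk0⟩, hl⟩, hf⟩ := hk
  have hF := h.chord hX hY hk0 (add_pos_of_nonneg_of_pos (by positivity) hy) hf
  set B := chord5 T l y (p.1 / p.2.2) (p.2.1 / p.2.2) with hB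
  rcases lt_or_ge B 0 with hn | hp
  · have : (2 * (905414 / 1000000) * (T - l) - cost5 P T l y) * B ≤ 0 :=
      mul_nonpos_of_nonneg_of_nonpos (by linarith) hn.le
    exact ⟨0, le_rfl, Or.inl rfl, by linarith⟩
  refine ⟨B, hp, Or.inr ⟨_, _, by positivity, hb p hk0 hl, by positivity, ?_, le_rfl⟩, ?_⟩
  · have hk' : (p.2.2 : ℝ) ≠ 0 := by positivity
    field_simp
    exact_mod_cast (by linarith [hc, sq (p.1), sq (p.2.1), sq (p.2.2)] :
      p.1 ^ 2 + p.2.1 ^ 2 = p.2.2 ^ 2)
  · rw [← mul_assoc, mul_div_assoc', le_div_iff₀ (by linarith)]
    linarith

theorem arc_val5 {bx : Bx} {u t : ℝ} (h0 : (bx.u0 : ℝ) ≤ u * DEN) (h1 : u * DEN < bx.u1)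
    (h2 : (bx.t0 : ℝ) ≤ t * DEN) (h3 : t * DEN < bx.t1) :
    ∃ X Y : ℝ, 0 ≤ X ∧ 0 ≤ Y ∧ Val5 PA MA X Y (aA bx) (aB bx) (aV bx) (aW bx) td
      ((1 - u ^ 2 + 2 * u ^ 2 * t) / (1 + u ^ 2)) ((1 - u ^ 2) / (1 + u ^ 2))
      (2 * u / (1 + u ^ 2)) := by
  obtain ⟨X, hX, eX⟩ := param h0 h1
  obtain ⟨Y, hY, eY⟩ := param h2 h3
  have vu : (un bx).eval X Y 0 = u * ud.eval X Y 0 := eX .x X Y rfl
  have vt : (tn bx).eval X Y 0 = t * td.eval X Y 0 := eY .y X Y rfl
  have d1 : 0 < ud.eval X Y 0 := by simp only [ud, pd, Ex.eval, DEN]; push_cast; positivity
  have d2 : 0 < td.eval X Y 0 := by simp only [td, pd, Ex.eval, DEN]; push_cast; positivity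
  have hu : (1 : ℝ) + u ^ 2 ≠ 0 := by positivity
  refine ⟨X, Y, hX, hY, ⟨?_, ?_, ?_, ?_, d2, shapeA, evm_MA⟩⟩
  all_goals simp only [aA, aB, aV, aW, Ex.eval, vu, vt]
  all_goals push_cast
  iterate 3 (field_simp; ring_nf)
  positivity

theorem flat_val5 {bx : Bx} {u t : ℝ} (h0 : (bx.u0 : ℝ) ≤ u * DEN)
    (h1 : u * DEN < bx.u1) (h2 : (bx.t0 : ℝ) ≤ t * DEN) (h3 : t * DEN < bx.t1) :
    ∃ X Y : ℝ, 0 ≤ X ∧ 0 ≤ Y ∧ Val5 PF MF X Y (gA bx) (.num 0) (gV bx) gW td t 0
      (1 + 27 / 25 * u) := by
  obtain ⟨X, hX, eX⟩ := param h0 h1
  obtain ⟨Y, hY, eY⟩ := param h2 h3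
  have vu : (un bx).eval X Y 0 = u * ud.eval X Y 0 := eX .x X Y rfl
  have vt : (tn bx).eval X Y 0 = t * td.eval X Y 0 := eY .y X Y rfl
  have d1 : 0 < ud.eval X Y 0 := by simp only [ud, pd, Ex.eval, DEN]; push_cast; positivity
  have d2 : 0 < td.eval X Y 0 := by simp only [td, pd, Ex.eval, DEN]; push_cast; positivity
  refine ⟨X, Y, hX, hY, ⟨?_, ?_, ?_, ?_, d2, shapeF, evm_MF⟩⟩
  all_goals simp only [gA, gV, gW, Ex.eval, vu, vt]
  all_goals push_cast
  iterate 3 ring
  positivity

/-- **The certificate below height one.** -/
theorem cert5A {T l y : ℝ} (hy0 : 0 < y) (hl : 0 < l) (hlT : l ≤ T) (hT : T ≤ 1)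
    (hc : l ^ 2 + y ^ 2 = 1) :
    ∃ B, 0 ≤ B ∧ (B = 0 ∨ ∃ s σ, 0 ≤ s ∧ s ≤ y ∧ 0 ≤ σ ∧ s ^ 2 + σ ^ 2 = 1 ∧
      B ≤ chord5 T l y s σ) ∧
      cost5 PA T l y ≤ (T - l) * (905414 / 1000000 * ((3 + 2 * B) / (3 + B))) := by
  obtain ⟨u, t, u0, u1, t0, t1, hT', hl', hy'⟩ := arc_param hy0.le hl hlT hT hc
  have hu : (0 : ℝ) ≤ u * DEN ∧ u * DEN < 33554432 ∧ (0 : ℝ) ≤ t * DEN ∧ t * DEN < 33554944 := by
    rw [DEN_cast]; refine ⟨?_, ?_, ?_, ?_⟩ <;> linarith
  obtain ⟨a, b, c, d⟩ := hu
  obtain ⟨bx, k, hk, g0, g1, g2, g3⟩ := walk_sound _ _ mainArc5_ok (u * DEN) (t * DEN)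
    (by simpa [rootArc] using a) (by simpa [rootArc] using b) (by simpa [rootArc] using c)
    (by simpa [rootArc] using d)
  obtain ⟨X, Y, hX, hY, v⟩ := arc_val5 g0 g1 g2 g3
  obtain ⟨bc, kc, hkc, c0, c1, c2, c3⟩ := walk_sound _ _ capArc5_ok (u * DEN) (t * DEN)
    (by simpa [rootArc] using a) (by simpa [rootArc] using b) (by simpa [rootArc] using c)
    (by simpa [rootArc] using d)
  obtain ⟨X', Y', hX', hY', v'⟩ := arc_val5 c0 c1 c2 c3
  rw [← hT', ← hl', ← hy'] at v v'
  refine main5_of_test v hX hY hk hy0 (fun p hp hb => ?_) (v'.cap hX' hY' hkc)
  simp only [belowArc, Bool.and_eq_true, decide_eq_true_eq] at hb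
  set e := (bx.u0 : ℝ) / DEN with he
  have hD : (0 : ℝ) < DEN := by rw [DEN_cast]; norm_num
  have au : e ≤ u := by rw [he, div_le_iff₀ hD]; exact g0
  have h1 : (p.1 : ℝ) * ((DEN : ℝ) * DEN + bx.u0 * bx.u0) ≤ 2 * bx.u0 * DEN * p.2.2 := by
    exact_mod_cast hb.1
  have hp' : (0 : ℝ) < p.2.2 := by exact_mod_cast hp
  have h2 : (p.1 : ℝ) / p.2.2 ≤ 2 * e / (1 + e ^ 2) := by
    rw [he, div_le_div_iff₀ hp' (by positivity)]
    field_simp
    linarith
  rw [hy']
  exact h2.trans (arc_mono au u0 u1.le)

/-- **The certificate above height one.** -/
theorem cert5F {T y : ℝ} (h0 : 0 ≤ T) (h1 : T ≤ 1) (hy0 : 1 ≤ y) (hy : y ≤ 208 / 100) :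
    ∃ B, 0 ≤ B ∧ (B = 0 ∨ ∃ s σ, 0 ≤ s ∧ s ≤ y ∧ 0 ≤ σ ∧ s ^ 2 + σ ^ 2 = 1 ∧
      B ≤ chord5 T 0 y s σ) ∧
      cost5 PF T 0 y ≤ T * (905414 / 1000000 * ((3 + 2 * B) / (3 + B))) := by
  obtain ⟨u, u0, u1, rfl⟩ : ∃ u : ℝ, 0 ≤ u ∧ u ≤ 1 ∧ y = 1 + 27 / 25 * u :=
    ⟨25 / 27 * (y - 1), by linarith, by linarith, by ring⟩
  have hu : (0 : ℝ) ≤ u * DEN ∧ u * DEN < 33554944 ∧ (0 : ℝ) ≤ T * DEN ∧ T * DEN < 33554944 := by
    rw [DEN_cast]; refine ⟨?_, ?_, ?_, ?_⟩ <;> linarith
  obtain ⟨a, b, c, d⟩ := hu
  obtain ⟨bx, k, hk, g0, g1, g2, g3⟩ := walk_sound _ _ mainFlat5_ok (u * DEN) (T * DEN)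
    (by simpa [rootFlat] using a) (by simpa [rootFlat] using b) (by simpa [rootFlat] using c)
    (by simpa [rootFlat] using d)
  obtain ⟨X, Y, hX, hY, v⟩ := flat_val5 g0 g1 g2 g3
  obtain ⟨bc, kc, hkc, c0, c1, c2, c3⟩ := walk_sound _ _ capFlat5_ok (u * DEN) (T * DEN)
    (by simpa [rootFlat] using a) (by simpa [rootFlat] using b) (by simpa [rootFlat] using c)
    (by simpa [rootFlat] using d)
  obtain ⟨X', Y', hX', hY', v'⟩ := flat_val5 c0 c1 c2 c3
  obtain ⟨B, hB0, hB, hle⟩ := main5_of_test v hX hY hk (by linarith) (fun p hp hb => by
    simp only [belowFlat, decide_eq_true_eq] at hb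
    have hp' : (0 : ℝ) < p.2.2 := by exact_mod_cast hp
    rw [div_le_iff₀ hp']
    have hb' : (p.1 : ℝ) ≤ p.2.2 := by exact_mod_cast hb
    linarith [mul_nonneg u0 hp'.le]) (v'.cap hX' hY' hkc)
  exact ⟨B, hB0, hB, by simpa using hle⟩

end Vale.Agent.P237N.Five
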