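import Vale.Agent.P237N.Data5I
import Vale.Agent.P237N.Cert4

/-!
# The isotropic certificate in dimension five

`P5_pos` and `cert5` for the data of `Data5I`. The parametrisation is that of `Cert4`, with
`y = 1 + 24/25 u` above height one and a coarser unit; subdivisions carry kernel-checked polynomials with nonnegative
coefficients. A leaf `k` uses the gain under the chord to the point `k % 25` and the slope to
the point `k / 25`, zero meaning none.
-/

namespace Vale.Agent.P237N.Iso5

open Vale.Agent.P100T.PosCheck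
open Vale.Agent.P237N.Cert (Tr Bx walk walk_sound pn arc_param Val)

/-! ### Templates -/

/-- `hN` as an expression. -/
def eN : ℕ → Ex → Ex → Ex
  | 0, _, _ => .num 1
  | n + 1, x, z => .add (.mul x (eN n x z)) (.pow z (n + 1))

/-- `L hS n`, made homogeneous. -/
def eS (L n : ℕ) (x z : Ex) : Ex := .mul (.num (L / (n + 1) : ℕ)) (eN n x z)

/-- The degrees allowed in the coefficient list. -/
def good (v : ℕ × ℕ × ℤ) : Bool :=
  decide (v.1 + v.2.1 ≤ 8) && decide (840 % (v.2.1 + 3) = 0) && decide (840 % (v.2.1 + 1) = 0)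

/-- `84·10⁹ hv`, made homogeneous. -/
def eV : List (ℕ × ℕ × ℤ) → Ex → Ex → Ex → Ex → Ex
  | [], _, _, _, _ => .num 0
  | (i, j, v) :: L, a, b, c, z =>
    .add (.mul (.mul (.num v) (.pow z (8 - i - j)))
      (.add
        (.mul (.mul (.num ((3 + i : ℕ) : ℤ)) (.pow c i))
          (.sub (eS 840 (j + 2) a b) (.mul (eS 840 j a b) (.pow z 2))))
        (.mul (.mul (.num ((5 + i : ℕ) : ℤ)) (.pow c (i + 2))) (eS 840 j a b))))
      (eV L a b c z)

/-- `10⁸ pv`, made homogeneous. -/
def ePv : List (ℕ × ℕ × ℤ) → Ex → Ex → Ex → Ex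
  | [], _, _, _ => .num 0
  | (i, j, v) :: L, a, c, z =>
    .add (.mul (.mul (.num v) (.pow z (8 - i - j))) (.mul (.pow c i) (.pow a j))) (ePv L a c z)

/-- The cost, cleared. -/
def eR (a b c z : Ex) : Ex :=
  .add
    (.add (.add (eV C5 a b c z) (.mul (.num 336000000000) (.mul c (.pow z 9))))
      (.mul (.mul (.num 12574800000) (.pow z 7))
        (.sub (.mul (.num 4) (.mul c (.add (.add (.pow a 2) (.mul a b)) (.pow b 2))))
          (.mul (.num 3) (.pow c 3)))))
    (.mul (.num 168000000) (.pow z 10))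

/-- The value of a layer, cleared. -/
def eG (z : Ex) : Ex := .mul (.num 304219104000) (.pow z 10)

/-- The excess of the test polynomial over `1/100000`, cleared. -/
def ePos (a c z : Ex) : Ex := .sub (ePv C5 a c z) (.mul (.num 1000) (.pow z 8))

/-- The limit on the cost, cleared. -/
def eCap (a b c z : Ex) : Ex := .sub (.mul (.num 2) (eG z)) (eR a b c z)

/-- `2520 LI`, made homogeneous. -/
def eLI (n : ℕ) (Y T S O : Ex) : Ex :=
  .add (.mul O (.sub (.mul Y (eS 2520 n Y S)) (eS 2520 (n + 1) Y S)))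
    (.mul T (.sub (eS 2520 (n + 1) Y S) (.mul S (eS 2520 n Y S))))

/-- `2520 G3`, made homogeneous. -/
def eG3 (v W : Ex) : Ex :=
  .sub (.mul (.num 840) (.mul (.pow v 3) (.pow W 2))) (.mul (.num 504) (.pow v 5))

/-- `2520 G5`, made homogeneous. -/
def eG5 (v W : Ex) : Ex :=
  .add (.sub (.mul (.num 840) (.mul (.pow v 3) (.pow W 4)))
    (.mul (.num 1008) (.mul (.pow v 5) (.pow W 2)))) (.mul (.num 360) (.pow v 7))

/-- `2520 G7`, made homogeneous. -/
def eG7 (v W : Ex) : Ex :=
  .sub (.add (.sub (.mul (.num 840) (.mul (.pow v 3) (.pow W 6)))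
    (.mul (.num 1512) (.mul (.pow v 5) (.pow W 4))))
    (.mul (.num 1080) (.mul (.pow v 7) (.pow W 2)))) (.mul (.num 280) (.pow v 9))

/-- The numerator of a chord gain in the scaled coordinates. -/
def eNum0 (Y T L S O W : Ex) : Ex :=
  .mul (.num 5092957)
    (.add
      (.sub
        (.mul (.mul (.num 3051) (.pow Y 4)) (.sub (eLI 3 Y T S O) (.sub (eG3 O W) (eG3 L W))))
        (.mul (.mul (.num 3008) (.pow Y 2)) (.sub (eLI 5 Y T S O) (.sub (eG5 O W) (eG5 L W)))))
      (.mul (.num 1280) (.sub (eLI 7 Y T S O) (.sub (eG7 O W) (eG7 L W)))))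

/-- The numerator of a chord gain, cleared. -/
def eNum (p : ℕ × ℕ × ℕ) (a b c z : Ex) : Ex :=
  eNum0 (.mul (.num p.2.2) c) (.mul (.num p.2.2) a) (.mul (.num p.2.2) b) (.mul (.num p.1) z)
    (.mul (.num p.2.1) z) (.mul (.num p.2.2) z)

/-- The denominator of a chord gain, cleared. -/
def eDen (p : ℕ × ℕ × ℕ) (c z : Ex) : Ex :=
  .mul (.num 3333960000000)
    (.mul (.pow (.mul (.num p.2.2) c) 5) (.pow (.mul (.num p.2.2) z) 4))

/-- The height above the point of a chord, cleared. -/
def eUp (p : ℕ × ℕ × ℕ) (c z : Ex) : Ex := .sub (.mul (.num p.2.2) c) (.mul (.num p.1) z)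

/-- The width left of the point of a chord, cleared. -/
def eLeft (p : ℕ × ℕ × ℕ) (a z : Ex) : Ex := .sub (.mul (.num p.2.1) z) (.mul (.num p.2.2) a)

/-- The slope term below height one, cleared. -/
def eArcE (p : ℕ × ℕ × ℕ) (a b c z : Ex) : Ex :=
  .mul (.mul (.mul (.num 840) (.add a b)) (.mul (eLeft p a z) c)) (ePv C5 a c z)

/-- The slope term above height one, cleared. -/
def eFlatE (p : ℕ × ℕ × ℕ) (a c z : Ex) : Ex :=
  .mul (.mul (.mul (.num 840) (.sub (.add (.pow a 2) (.pow c 2)) (.pow z 2)))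
    (.mul (eLeft p a z) c)) (ePv C5 a c z)

/-- The points of the circle. -/
def pts : List (ℕ × ℕ × ℕ) := [
  (0, 1, 1), (11, 60, 61), (9, 40, 41), (7, 24, 25), (12, 35, 37), (5, 12, 13), (8, 15, 17), (33, 56, 65),
  (28, 45, 53), (3, 4, 5), (65, 72, 97), (20, 21, 29), (21, 20, 29), (55, 48, 73), (4, 3, 5), (45, 28, 53),
  (56, 33, 65), (15, 8, 17), (77, 36, 85), (12, 5, 13), (35, 12, 37), (24, 7, 25), (40, 9, 41), (60, 11, 61)]

/-- A point of the circle. -/
def okPt (p : ℕ × ℕ × ℕ) : Bool :=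
  decide (p.1 * p.1 + p.2.1 * p.2.1 = p.2.2 * p.2.2) && decide (0 < p.2.2)

/-- The main inequality of a leaf with slope term `eE / eD`. -/
def testB (a b c z eE eD : Ex) (k : ℕ) : Bool :=
  match k with
  | 0 => check (.sub (.mul eD (eG z)) (.sub (.mul eD (eR a b c z)) eE))
  | j + 1 =>
    match pts[j]? with
    | none => false
    | some p => okPt p && check (eUp p c z) &&
        check (.add
          (.mul (.mul (.num 3) (eDen p c z)) (.sub (.mul eD (eG z)) (.sub (.mul eD (eR a b c z)) eE)))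
          (.mul (eNum p a b c z)
            (.sub (.mul (.num 2) (.mul eD (eG z))) (.sub (.mul eD (eR a b c z)) eE))))

/-- The test of a leaf. -/
def testLeaf (a b c z : Ex) (eE eD : ℕ × ℕ × ℕ → Ex) (k : ℕ) : Bool :=
  match k / 25 with
  | 0 => testB a b c z (.num 0) (.num 1) (k % 25)
  | j + 1 =>
    match pts[j]? with
    | none => false
    | some p => okPt p && check (eUp p c z) && check (eLeft p a z) &&
        testB a b c z (eE p) (eD p) (k % 25)

/-- The unit of the subdivisions; the coarse unit keeps the checked integers short. -/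
def UN : ℕ := 1023

/-- Denominator of an interval parameter. -/
def qd (X : Ex) : Ex := .mul (.num UN) (.add (.num 1) X)

def un (b : Bx) : Ex := pn b.u0 b.u1 .x
def tn (b : Bx) : Ex := pn b.t0 b.t1 .y
def ud : Ex := qd .x
def td : Ex := qd .y

/-- The parameter square, slightly enlarged. -/
def root : Bx := ⟨0, 1024, 0, 1024⟩

def cB (b : Bx) : Ex := .mul (.sub (.pow ud 2) (.pow (un b) 2)) td
def cC (b : Bx) : Ex := .mul (.mul (.mul (.num 2) (un b)) ud) td
def cZ (b : Bx) : Ex := .mul (.add (.pow ud 2) (.pow (un b) 2)) td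
def cA (b : Bx) : Ex := .add (cB b) (.mul (.mul (.num 2) (.pow (un b) 2)) (tn b))

def gA (b : Bx) : Ex := .mul (.mul (.num 25) ud) (tn b)
def gC (b : Bx) : Ex := .mul (.add (.mul (.num 25) ud) (.mul (.num 24) (un b))) td
def gZ : Ex := .mul (.mul (.num 25) ud) td

def arcCap (b : Bx) (_ : ℕ) : Bool := check (eCap (cA b) (cB b) (cC b) (cZ b))
def arcPos (b : Bx) (_ : ℕ) : Bool := check (ePos (cA b) (cC b) (cZ b))
def arcMain (b : Bx) (k : ℕ) : Bool :=
  testLeaf (cA b) (cB b) (cC b) (cZ b) (fun p => eArcE p (cA b) (cB b) (cC b) (cZ b))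
    (fun p => eUp p (cC b) (cZ b)) k
def flatCap (b : Bx) (_ : ℕ) : Bool := check (eCap (gA b) (.num 0) (gC b) gZ)
def flatPos (b : Bx) (_ : ℕ) : Bool := check (ePos (gA b) (gC b) gZ)
def flatMain (b : Bx) (k : ℕ) : Bool :=
  testLeaf (gA b) (.num 0) (gC b) gZ (fun p => eFlatE p (gA b) (gC b) gZ)
    (fun p => .mul (gA b) (eUp p (gC b) gZ)) k

/-- A subdivision. -/
def capArc : Tr :=
  (.leaf 0)

/-- A subdivision. -/
def posArc : Tr :=
  (.cutU 512
    (.leaf 0)
    (.cutT 512
      (.cutU 768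
        (.cutT 256
          (.leaf 0)
          (.leaf 0))
        (.cutT 256
          (.cutU 896
            (.leaf 0)
            (.leaf 0))
          (.cutU 896
            (.leaf 0)
            (.leaf 0))))
      (.leaf 0)))

/-- A subdivision. -/
def mainArc : Tr :=
  (.cutT 512
    (.cutU 512
      (.cutU 256
        (.leaf 25)
        (.cutU 384
          (.leaf 106)
          (.cutT 256
            (.cutT 128
              (.cutU 448
                (.leaf 225)
                (.leaf 260))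
              (.cutU 448
                (.cutU 416
                  (.leaf 150)
                  (.leaf 181))
                (.cutT 192
                  (.leaf 235)
                  (.leaf 184))))
            (.cutT 384
              (.leaf 157)
              (.leaf 130)))))
      (.cutU 768
        (.cutT 256
          (.cutT 128
            (.cutT 64
              (.leaf 325)
              (.leaf 263))
            (.cutT 192
              (.cutT 160
                (.cutU 640
                  (.leaf 261)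
                  (.leaf 313))
                (.cutU 640
                  (.leaf 236)
                  (.leaf 288)))
              (.cutU 640
                (.leaf 235)
                (.leaf 287))))
          (.cutU 640
            (.leaf 184)
            (.cutT 384
              (.cutT 320
                (.leaf 261)
                (.leaf 260))
              (.leaf 259))))
        (.cutU 896
          (.cutU 832
            (.cutT 256
              (.cutU 800
                (.cutT 128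
                  (.leaf 15)
                  (.leaf 13))
                (.leaf 15))
              (.cutT 384
                (.leaf 11)
                (.leaf 10)))
            (.cutT 256
              (.cutT 128
                (.leaf 18)
                (.leaf 15))
              (.leaf 12)))
          (.cutU 960
            (.cutT 256
              (.cutT 128
                (.leaf 20)
                (.leaf 16))
              (.leaf 13))
            (.cutT 256
              (.cutU 992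
                (.cutT 128
                  (.leaf 525)
                  (.leaf 19))
                (.cutT 128
                  (.leaf 0)
                  (.leaf 20)))
              (.leaf 15))))))
    (.cutT 768
      (.cutU 512
        (.cutU 256
          (.leaf 25)
          (.leaf 54))
        (.leaf 80))
      (.cutT 896
        (.cutU 512
          (.leaf 26)
          (.leaf 1))
        (.cutU 512
          (.cutU 256
            (.leaf 1)
            (.leaf 1))
          (.leaf 1)))))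

/-- A subdivision. -/
def capFlat : Tr :=
  (.cutU 512
    (.leaf 0)
    (.leaf 0))

/-- A subdivision. -/
def posFlat : Tr :=
  (.cutU 512
    (.cutT 512
      (.cutU 256
        (.cutT 256
          (.cutU 128
            (.leaf 0)
            (.leaf 0))
          (.leaf 0))
        (.leaf 0))
      (.cutU 256
        (.cutT 768
          (.cutU 128
            (.leaf 0)
            (.leaf 0))
          (.cutU 128
            (.cutT 896
              (.leaf 0)
              (.cutU 64
                (.leaf 0)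
                (.leaf 0)))
            (.leaf 0)))
        (.leaf 0)))
    (.cutT 512
      (.cutU 768
        (.leaf 0)
        (.cutT 256
          (.cutU 896
            (.leaf 0)
            (.cutT 128
              (.leaf 0)
              (.cutU 960
                (.leaf 0)
                (.cutT 192
                  (.cutU 992
                    (.leaf 0)
                    (.cutT 160
                      (.cutU 1008
                        (.leaf 0)
                        (.cutT 144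
                          (.leaf 0)
                          (.leaf 0)))
                      (.leaf 0)))
                  (.leaf 0)))))
          (.leaf 0)))
      (.cutU 768
        (.leaf 0)
        (.cutT 768
          (.leaf 0)
          (.leaf 0)))))

/-- A subdivision. -/
def mainFlat : Tr :=
  (.cutT 512
    (.cutU 512
      (.cutT 256
        (.cutT 128
          (.cutU 256
            (.cutU 128
              (.cutT 64
                (.cutU 64
                  (.cutU 32
                    (.leaf 575)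
                    (.leaf 520))
                  (.leaf 442))
                (.cutU 64
                  (.cutU 32
                    (.leaf 545)
                    (.leaf 468))
                  (.leaf 417)))
              (.cutU 192
                (.leaf 391)
                (.cutU 224
                  (.cutU 208
                    (.cutT 64
                      (.leaf 390)
                      (.leaf 390))
                    (.cutT 64
                      (.leaf 390)
                      (.leaf 390)))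
                  (.cutU 240
                    (.cutT 64
                      (.leaf 390)
                      (.leaf 390))
                    (.cutT 64
                      (.leaf 390)
                      (.leaf 390))))))
            (.cutU 384
              (.cutU 320
                (.cutU 288
                  (.cutU 272
                    (.cutT 64
                      (.leaf 364)
                      (.leaf 364))
                    (.cutT 64
                      (.leaf 364)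
                      (.leaf 364)))
                  (.cutU 304
                    (.cutT 64
                      (.leaf 364)
                      (.leaf 364))
                    (.leaf 338)))
                (.leaf 338))
              (.leaf 312)))
          (.cutU 256
            (.cutT 192
              (.cutU 128
                (.cutU 64
                  (.cutT 160
                    (.leaf 443)
                    (.leaf 416))
                  (.leaf 391))
                (.leaf 415))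
              (.cutT 224
                (.cutU 128
                  (.leaf 465)
                  (.leaf 390))
                (.leaf 415)))
            (.leaf 338)))
        (.cutT 384
          (.cutT 320
            (.cutU 256
              (.leaf 390)
              (.leaf 11))
            (.leaf 388))
          (.leaf 311)))
      (.cutU 768
        (.leaf 260)
        (.cutU 896
          (.leaf 182)
          (.cutU 960
            (.leaf 130)
            (.cutT 256
              (.leaf 208)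
              (.leaf 4))))))
    (.cutT 768
      (.cutU 512
        (.leaf 8)
        (.leaf 2))
      (.cutT 896
        (.cutU 512
          (.leaf 2)
          (.leaf 1))
        (.cutU 512
          (.cutT 960
            (.leaf 1)
            (.cutU 256
              (.leaf 1)
              (.leaf 1)))
          (.cutT 960
            (.leaf 1)
            (.cutU 768
              (.leaf 1)
              (.leaf 1)))))))

theorem capArc_ok : walk arcCap capArc root = true := by decide +kernel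
theorem posArc_ok : walk arcPos posArc root = true := by decide +kernel
theorem mainArc_ok : walk arcMain mainArc root = true := by decide +kernel
theorem capFlat_ok : walk flatCap capFlat root = true := by decide +kernel
theorem posFlat_ok : walk flatPos posFlat root = true := by decide +kernel
theorem mainFlat_ok : walk flatMain mainFlat root = true := by decide +kernel
theorem C5_good : C5.all good = true := by decide +kernel

/-! ### Values -/

theorem hN_scale {R : Type*} [CommRing R] (p q w : R) :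
    ∀ n, hN n (p * w) (q * w) = w ^ n * hN n p q
  | 0 => by simp [hN]
  | n + 1 => by simp only [hN, hN_scale p q w n]; ring

theorem eN_eval (x z : Ex) (X Y : ℝ) :
    ∀ n, (eN n x z).eval X Y 0 = hN n (x.eval X Y 0) (z.eval X Y 0)
  | 0 => by simp [eN, hN, Ex.eval]
  | n + 1 => by simp only [eN, hN, Ex.eval, eN_eval x z X Y n]

theorem eS_eq {X Y p q w : ℝ} {x z : Ex} {L n : ℕ} (h : (n + 1) ∣ L) (hx : x.eval X Y 0 = p * w)
    (hz : z.eval X Y 0 = q * w) :
    (eS L n x z).eval X Y 0 = (L : ℝ) * w ^ n * hS n p q := by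
  obtain ⟨m, rfl⟩ := h
  have hn : (n : ℝ) + 1 ≠ 0 := by positivity
  simp only [eS, Ex.eval, eN_eval, hx, hz, hN_scale, hS, Nat.mul_div_cancel_left m n.succ_pos]
  push_cast
  field_simp

/-- The cost of a layer. -/
noncomputable def R5 (T l y : ℝ) : ℝ :=
  y + mu5 * (2 * y * (T ^ 2 + T * l + l ^ 2) - 3 / 2 * y ^ 3) + hq5 T l y + 1 / 2000

theorem brk5_eq (T l y B E : ℝ) : brk5 T l y B E
    = 905414 / 1000000 * ((3 + 2 * B) / (3 + B)) - R5 T l y + 1 / 2000 + E * (y * P5 T y / 4) := by
  simp only [brk5, R5]; ring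

variable {X Y T l y : ℝ} {a b c z : Ex}

theorem eV_eq (v : Val X Y a b c z T l y) : ∀ L : List (ℕ × ℕ × ℤ), L.all good = true →
    (eV L a b c z).eval X Y 0 = 84000000000 * z.eval X Y 0 ^ 10 * hv L T l y
  | [], _ => by simp [eV, hv, Ex.eval]
  | (i, j, u) :: L, h => by
    simp only [List.all_cons, Bool.and_eq_true, good, decide_eq_true_eq] at h
    obtain ⟨⟨⟨hd, h2⟩, h0⟩, hL⟩ := h
    have h0' : (j + 1) ∣ 840 := Nat.dvd_of_mod_eq_zero h0
    have h2' : (j + 2 + 1) ∣ 840 := Nat.dvd_of_mod_eq_zero h2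
    have e : (10 : ℕ) = i + j + 2 + (8 - i - j) := by omega
    rw [eV, hv]
    simp only [Ex.eval, eV_eq v L hL, eS_eq h0' v.za v.zb, eS_eq h2' v.za v.zb, v.zc]
    rw [e]
    push_cast
    simp only [pow_add]
    ring

theorem ePv_eq (v : Val X Y a b c z T l y) : ∀ L : List (ℕ × ℕ × ℤ), L.all good = true →
    (ePv L a c z).eval X Y 0 = 100000000 * z.eval X Y 0 ^ 8 * pv L T y
  | [], _ => by simp [ePv, pv, Ex.eval]
  | (i, j, u) :: L, h => by
    simp only [List.all_cons, Bool.and_eq_true, good, decide_eq_true_eq] at h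
    obtain ⟨⟨⟨hd, -⟩, -⟩, hL⟩ := h
    have e : z.eval X Y 0 ^ 8 = z.eval X Y 0 ^ i * z.eval X Y 0 ^ j * z.eval X Y 0 ^ (8 - i - j) := by
      rw [← pow_add, ← pow_add]
      congr 1
      omega
    rw [ePv, pv]
    simp only [Ex.eval, ePv_eq v L hL, v.za, v.zc, e]
    ring

theorem eR_eq (v : Val X Y a b c z T l y) :
    (eR a b c z).eval X Y 0 = 336000000000 * z.eval X Y 0 ^ 10 * R5 T l y := by
  simp only [eR, Ex.eval, eV_eq v C5 C5_good, v.za, v.zb, v.zc, R5, hq5, mu5]
  push_cast
  ring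

theorem eG_eq : (eG z).eval X Y 0 = 336000000000 * z.eval X Y 0 ^ 10 * (905414 / 1000000) := by
  simp only [eG, Ex.eval]
  push_cast
  ring

theorem cap_le (v : Val X Y a b c z T l y) (hX : 0 ≤ X) (hY : 0 ≤ Y)
    (h : check (eCap a b c z) = true) : R5 T l y ≤ 2 * (905414 / 1000000) := by
  have hz := v.zpos
  have h := nonneg_of_check h hX hY le_rfl
  simp only [eCap, Ex.eval, eR_eq v, eG_eq] at h
  push_cast at h
  refine le_of_mul_le_mul_left ?_ (show 0 < 336000000000 * z.eval X Y 0 ^ 10 by positivity)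
  linarith

theorem pos_le (v : Val X Y a b c z T l y) (hX : 0 ≤ X) (hY : 0 ≤ Y)
    (h : check (ePos a c z) = true) : 1 / 100000 ≤ P5 T y := by
  have hz := v.zpos
  have h := nonneg_of_check h hX hY le_rfl
  simp only [ePos, Ex.eval, ePv_eq v C5 C5_good] at h
  push_cast at h
  refine le_of_mul_le_mul_left ?_ (show 0 < 100000000 * z.eval X Y 0 ^ 8 by positivity)
  rw [P5]
  linarith

theorem eLI_eq {Yc Tc S O : Ex} {ω s σ : ℝ} {n : ℕ} (h0 : (n + 1) ∣ 2520)
    (h1 : (n + 1 + 1) ∣ 2520) (hy : Yc.eval X Y 0 = y * ω) (hT : Tc.eval X Y 0 = T * ω)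
    (hs : S.eval X Y 0 = s * ω) (ho : O.eval X Y 0 = σ * ω) :
    (eLI n Yc Tc S O).eval X Y 0 = 2520 * ω ^ (n + 2) * LI n T y s σ := by
  simp only [eLI, Ex.eval, eS_eq h0 hy hs, eS_eq h1 hy hs, hy, hT, hs, ho, LI]
  push_cast
  ring

theorem eNum_eq (v : Val X Y a b c z T l y) (hy : y ≠ 0) {s r k : ℕ} (hk : 0 < k) :
    (eNum (s, r, k) a b c z).eval X Y 0
      = (eDen (s, r, k) c z).eval X Y 0 * chord5 T l y ((s : ℝ) / k) ((r : ℝ) / k) := by
  have hk' : (k : ℝ) ≠ 0 := by positivity
  set ω := (k : ℝ) * z.eval X Y 0 with hω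
  have e1 : (Ex.mul (.num k) c).eval X Y 0 = y * ω := by simp [Ex.eval, v.zc, hω]; ring
  have e2 : (Ex.mul (.num k) a).eval X Y 0 = T * ω := by simp [Ex.eval, v.za, hω]; ring
  have e3 : (Ex.mul (.num k) b).eval X Y 0 = l * ω := by simp [Ex.eval, v.zb, hω]; ring
  have e4 : (Ex.mul (.num s) z).eval X Y 0 = (s : ℝ) / k * ω := by
    simp [Ex.eval, hω]; field_simp
  have e5 : (Ex.mul (.num r) z).eval X Y 0 = (r : ℝ) / k * ω := by
    simp [Ex.eval, hω]; field_simp
  have e6 : (Ex.mul (.num k) z).eval X Y 0 = ω := by simp [Ex.eval, hω]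
  simp only [eNum, eNum0, eDen, eG3, eG5, eG7]
  generalize hYc : Ex.mul (.num k) c = Yc at e1 ⊢
  generalize hTc : Ex.mul (.num k) a = Tc at e2 ⊢
  generalize hLc : Ex.mul (.num k) b = Lc at e3 ⊢
  generalize hSc : Ex.mul (.num s) z = Sc at e4 ⊢
  generalize hOc : Ex.mul (.num r) z = Oc at e5 ⊢
  generalize hWc : Ex.mul (.num k) z = Wc at e6 ⊢
  simp only [Ex.eval, eLI_eq (n := 3) (by norm_num) (by norm_num) e1 e2 e4 e5,
    eLI_eq (n := 5) (by norm_num) (by norm_num) e1 e2 e4 e5,
    eLI_eq (n := 7) (by norm_num) (by norm_num) e1 e2 e4 e5, e1, e3, e5, e6,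
    chord5, G3, G5, G7]
  push_cast
  field_simp
  ring

/-- A slope term, once the bracket with it is nonnegative. -/
theorem exists_slope {B d e0 : ℝ} (hB : 0 ≤ B) (hd : 0 ≤ d) (he : 0 ≤ e0) (hP : 0 < y * P5 T y / 4)
    (h : 0 ≤ 3 * (d * (905414 / 1000000) - (d * R5 T l y - e0 * (y * P5 T y / 4)))
      + B * (2 * (d * (905414 / 1000000)) - (d * R5 T l y - e0 * (y * P5 T y / 4)))) :
    ∃ E, 0 ≤ E ∧ E * d ≤ e0 ∧ 1 / 2000 ≤ brk5 T l y B E := by
  set p := y * P5 T y / 4 with hp
  set f := 905414 / 1000000 * ((3 + 2 * B) / (3 + B)) with hf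
  have h3 : 0 < 3 + B := by linarith
  have key : 0 ≤ d * f - d * R5 T l y + e0 * p := by
    refine (mul_nonneg_iff_of_pos_left h3).1 (le_of_le_of_eq h ?_)
    rw [hf]; field_simp; ring
  rcases hd.eq_or_lt with rfl | hd
  · refine ⟨max 0 ((R5 T l y - f) / p), le_max_left _ _, by simpa using he, ?_⟩
    have h2 : R5 T l y - f ≤ max 0 ((R5 T l y - f) / p) * p := (div_le_iff₀ hP).1 (le_max_right _ _)
    rw [brk5_eq, ← hf, ← hp]
    linarith
  · refine ⟨e0 / d, by positivity, by rw [div_mul_cancel₀ _ hd.ne'], ?_⟩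
    have h2 : 0 ≤ f - R5 T l y + e0 / d * p := by
      refine (mul_nonneg_iff_of_pos_left hd).1 (le_of_le_of_eq key ?_)
      field_simp
    rw [brk5_eq, ← hf, ← hp]
    linarith

theorem okPt_spec {p : ℕ × ℕ × ℕ} (h : okPt p = true) :
    0 < p.2.2 ∧ ((p.1 : ℝ) / p.2.2) ^ 2 + ((p.2.1 : ℝ) / p.2.2) ^ 2 = 1 := by
  simp only [okPt, Bool.and_eq_true, decide_eq_true_eq] at h
  refine ⟨h.2, ?_⟩
  have hk : (p.2.2 : ℝ) ≠ 0 := by have := h.2; positivity
  field_simp
  have : (p.1 : ℝ) * p.1 + p.2.1 * p.2.1 = p.2.2 * p.2.2 := by exact_mod_cast h.1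
  linarith

theorem up_le (v : Val X Y a b c z T l y) (hX : 0 ≤ X) (hY : 0 ≤ Y) {p : ℕ × ℕ × ℕ}
    (hk : 0 < p.2.2) (h : check (eUp p c z) = true) : (p.1 : ℝ) / p.2.2 ≤ y := by
  have h := nonneg_of_check h hX hY le_rfl
  simp only [eUp, Ex.eval, v.zc] at h
  push_cast at h
  rw [div_le_iff₀ (by exact_mod_cast hk)]
  exact le_of_mul_le_mul_right (by linarith) v.zpos

theorem left_le (v : Val X Y a b c z T l y) (hX : 0 ≤ X) (hY : 0 ≤ Y) {p : ℕ × ℕ × ℕ}
    (hk : 0 < p.2.2) (h : check (eLeft p a z) = true) : T ≤ (p.2.1 : ℝ) / p.2.2 := by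
  have h := nonneg_of_check h hX hY le_rfl
  simp only [eLeft, Ex.eval, v.za] at h
  push_cast at h
  rw [le_div_iff₀ (by exact_mod_cast hk)]
  exact le_of_mul_le_mul_right (by linarith) v.zpos

/-- The conclusion of the main test, given the meaning of the slope term. -/
theorem of_testB (v : Val X Y a b c z T l y) (hX : 0 ≤ X) (hY : 0 ≤ Y) (hy : 0 < y)
    (hcap : R5 T l y ≤ 2 * (905414 / 1000000)) (hP : 0 < y * P5 T y / 4) {eE eD : Ex} {k : ℕ}
    {κ d e0 : ℝ} (hκ : 0 < κ) (hd : 0 ≤ d) (he : 0 ≤ e0) (hD : eD.eval X Y 0 = κ * d)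
    (hE : eE.eval X Y 0 = κ * (336000000000 * z.eval X Y 0 ^ 10) * (e0 * (y * P5 T y / 4)))
    (hk : testB a b c z eE eD k = true) :
    ∃ B E, 0 ≤ B ∧ (B = 0 ∨ ∃ s σ, 0 ≤ s ∧ s ≤ y ∧ 0 ≤ σ ∧ s ^ 2 + σ ^ 2 = 1 ∧
      B ≤ chord5 T l y s σ) ∧ 0 ≤ E ∧ E * d ≤ e0 ∧ 1 / 2000 ≤ brk5 T l y B E := by
  have hz := v.zpos
  set w := e0 * (y * P5 T y / 4) with hw
  rcases k with _ | j
  · have h := nonneg_of_check hk hX hY le_rfl
    simp only [Ex.eval, eR_eq v, eG_eq, hD, hE] at h
    have h1 : 0 ≤ d * (905414 / 1000000) - (d * R5 T l y - w) := by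
      refine (mul_nonneg_iff_of_pos_left
        (show 0 < κ * (336000000000 * z.eval X Y 0 ^ 10) by positivity)).1 (le_of_le_of_eq h ?_)
      ring
    obtain ⟨E, hE0, hEd, hb⟩ := exists_slope le_rfl hd he hP (l := l) (by linarith)
    exact ⟨0, E, le_rfl, .inl rfl, hE0, hEd, hb⟩
  simp only [testB] at hk
  split at hk
  · simp at hk
  rename_i p _
  simp only [Bool.and_eq_true] at hk
  obtain ⟨⟨ho, hu⟩, hm⟩ := hk
  obtain ⟨hk0, hc⟩ := okPt_spec ho
  obtain ⟨s, r, k⟩ := p
  have h := nonneg_of_check hm hX hY le_rfl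
  simp only [Ex.eval, eR_eq v, eG_eq, hD, hE, eNum_eq v hy.ne' hk0] at h
  push_cast at h
  have hden : 0 < (eDen (s, r, k) c z).eval X Y 0 := by
    simp only [eDen, Ex.eval, v.zc]
    push_cast
    have : (0 : ℝ) < k := by exact_mod_cast hk0
    positivity
  set B := chord5 T l y ((s : ℝ) / k) ((r : ℝ) / k) with hB
  have h1 : 0 ≤ 3 * (d * (905414 / 1000000) - (d * R5 T l y - w))
      + B * (2 * (d * (905414 / 1000000)) - (d * R5 T l y - w)) := by
    refine (mul_nonneg_iff_of_pos_left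
      (show 0 < (eDen (s, r, k) c z).eval X Y 0 * (κ * (336000000000 * z.eval X Y 0 ^ 10)) by
        positivity)).1 (le_of_le_of_eq h ?_)
    ring
  rcases lt_or_ge B 0 with hn | hp
  · have h2 : 0 ≤ 2 * (d * (905414 / 1000000)) - (d * R5 T l y - w) := by
      have : 0 ≤ w := mul_nonneg he hP.le
      linarith [mul_le_mul_of_nonneg_left hcap hd]
    have h3 := mul_nonpos_of_nonpos_of_nonneg hn.le h2
    obtain ⟨E, hE0, hEd, hb⟩ := exists_slope le_rfl hd he hP (l := l) (by linarith)
    exact ⟨0, E, le_rfl, .inl rfl, hE0, hEd, hb⟩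
  · obtain ⟨E, hE0, hEd, hb⟩ := exists_slope hp hd he hP h1
    exact ⟨B, E, hp, .inr ⟨_, _, by positivity, up_le v hX hY hk0 hu, by positivity, hc, le_rfl⟩,
      hE0, hEd, hb⟩

/-- What `cert5` asserts at one point. -/
def Good (T l y : ℝ) : Prop :=
  ∃ B E, 0 ≤ B ∧ (B = 0 ∨ ∃ s σ, 0 ≤ s ∧ s ≤ y ∧ 0 ≤ σ ∧ s ^ 2 + σ ^ 2 = 1 ∧
      B ≤ chord5 T l y s σ) ∧
    0 ≤ E ∧ (E = 0 ∨ ∃ s σ, 0 ≤ s ∧ s ≤ y ∧ 0 ≤ σ ∧ s ^ 2 + σ ^ 2 = 1 ∧
      E * (y - s) * (T - l) ≤ (σ - T) * (T ^ 2 + y ^ 2 - 1)) ∧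
    1 / 2000 ≤ brk5 T l y B E

/-- The conclusion from one leaf. -/
theorem of_testLeaf (v : Val X Y a b c z T l y) (hX : 0 ≤ X) (hY : 0 ≤ Y) (hy : 0 < y)
    (hcap : R5 T l y ≤ 2 * (905414 / 1000000)) (hP : 0 < y * P5 T y / 4)
    {eE eD : ℕ × ℕ × ℕ → Ex}
    (hed : ∀ s r k : ℕ, 0 < k → (s : ℝ) / k ≤ y → T ≤ (r : ℝ) / k →
      ∃ κ d e0 : ℝ, 0 < κ ∧ 0 ≤ d ∧ 0 ≤ e0 ∧ (eD (s, r, k)).eval X Y 0 = κ * d ∧
        (eE (s, r, k)).eval X Y 0
          = κ * (336000000000 * z.eval X Y 0 ^ 10) * (e0 * (y * P5 T y / 4)) ∧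
        ∀ E, 0 ≤ E → E * d ≤ e0 → E * (y - (s : ℝ) / k) * (T - l)
          ≤ ((r : ℝ) / k - T) * (T ^ 2 + y ^ 2 - 1))
    {k : ℕ} (hk : testLeaf a b c z eE eD k = true) : Good T l y := by
  rw [testLeaf] at hk
  rcases hkn : k / 25 with _ | j <;> rw [hkn] at hk <;> simp only at hk
  · obtain ⟨B, E, hB, hB', hE, hEd, hb⟩ := of_testB v hX hY hy hcap hP (κ := 1) (d := 1) (e0 := 0)
      one_pos zero_le_one le_rfl (by simp [Ex.eval]) (by simp [Ex.eval]) hk
    exact ⟨B, E, hB, hB', hE, .inl (le_antisymm (by simpa using hEd) hE), hb⟩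
  · split at hk
    · simp at hk
    rename_i p _
    simp only [Bool.and_eq_true] at hk
    obtain ⟨⟨⟨ho, hu⟩, hl⟩, hm⟩ := hk
    obtain ⟨hk0, hc⟩ := okPt_spec ho
    obtain ⟨s, r, m⟩ := p
    have hs := up_le v hX hY hk0 hu
    obtain ⟨κ, d, e0, hκ, hd, he, hD, hE', hcond⟩ := hed s r m hk0 hs (left_le v hX hY hk0 hl)
    obtain ⟨B, E, hB, hB', hE, hEd, hb⟩ := of_testB v hX hY hy hcap hP hκ hd he hD hE' hm
    exact ⟨B, E, hB, hB', hE,
      .inr ⟨_, _, by positivity, hs, by positivity, hc, hcond E hE hEd⟩, hb⟩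

theorem UN_cast : (UN : ℝ) = 1023 := by norm_num [UN]

/-- A point of a box in the variables of the test. -/
theorem param {a b : ℕ} {u : ℝ} (h0 : (a : ℝ) ≤ u * UN) (h1 : u * UN < b) :
    ∃ X : ℝ, 0 ≤ X ∧ ∀ (e : Ex) (P Q : ℝ), e.eval P Q 0 = X →
      (pn a b e).eval P Q 0 = u * (qd e).eval P Q 0 := by
  refine ⟨(u * UN - a) / (b - u * UN), div_nonneg (by linarith) (by linarith),
    fun e P Q he => ?_⟩
  have : (b : ℝ) - u * UN ≠ 0 := by linarith
  simp only [pn, qd, Ex.eval, he]
  push_cast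
  field_simp
  ring

/-- The values on the arc. -/
theorem arc_val {bx : Bx} {u t : ℝ} (h0 : (bx.u0 : ℝ) ≤ u * UN) (h1 : u * UN < bx.u1)
    (h2 : (bx.t0 : ℝ) ≤ t * UN) (h3 : t * UN < bx.t1) :
    ∃ X Y : ℝ, 0 ≤ X ∧ 0 ≤ Y ∧ Val X Y (cA bx) (cB bx) (cC bx) (cZ bx)
      ((1 - u ^ 2 + 2 * u ^ 2 * t) / (1 + u ^ 2)) ((1 - u ^ 2) / (1 + u ^ 2))
      (2 * u / (1 + u ^ 2)) := by
  obtain ⟨X, hX, eX⟩ := param h0 h1
  obtain ⟨Y, hY, eY⟩ := param h2 h3
  have vu : (un bx).eval X Y 0 = u * ud.eval X Y 0 := eX .x X Y rfl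
  have vt : (tn bx).eval X Y 0 = t * td.eval X Y 0 := eY .y X Y rfl
  have d1 : 0 < ud.eval X Y 0 := by simp only [ud, qd, Ex.eval, UN]; push_cast; positivity
  have d2 : 0 < td.eval X Y 0 := by simp only [td, qd, Ex.eval, UN]; push_cast; positivity
  have hu : (1 : ℝ) + u ^ 2 ≠ 0 := by positivity
  refine ⟨X, Y, hX, hY, ⟨?_, ?_, ?_, ?_⟩⟩
  all_goals simp only [cA, cB, cC, cZ, Ex.eval, vu, vt]
  all_goals push_cast
  iterate 3 (field_simp; ring_nf)
  positivity

theorem flat_val {bx : Bx} {u t : ℝ} (h0 : (bx.u0 : ℝ) ≤ u * UN) (h1 : u * UN < bx.u1)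
    (h2 : (bx.t0 : ℝ) ≤ t * UN) (h3 : t * UN < bx.t1) :
    ∃ X Y : ℝ, 0 ≤ X ∧ 0 ≤ Y ∧
      Val X Y (gA bx) (.num 0) (gC bx) gZ t 0 (1 + 24 / 25 * u) := by
  obtain ⟨X, hX, eX⟩ := param h0 h1
  obtain ⟨Y, hY, eY⟩ := param h2 h3
  have vu : (un bx).eval X Y 0 = u * ud.eval X Y 0 := eX .x X Y rfl
  have vt : (tn bx).eval X Y 0 = t * td.eval X Y 0 := eY .y X Y rfl
  have d1 : 0 < ud.eval X Y 0 := by simp only [ud, qd, Ex.eval, UN]; push_cast; positivity
  have d2 : 0 < td.eval X Y 0 := by simp only [td, qd, Ex.eval, UN]; push_cast; positivity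
  refine ⟨X, Y, hX, hY, ⟨?_, ?_, ?_, ?_⟩⟩
  all_goals simp only [gA, gC, gZ, Ex.eval, vu, vt]
  all_goals push_cast
  iterate 3 ring
  positivity

theorem pos_arc {T l y : ℝ} (hy0 : 0 ≤ y) (hl : 0 < l) (hlT : l ≤ T) (hT : T ≤ 1)
    (hc : l ^ 2 + y ^ 2 = 1) : 1 / 100000 ≤ P5 T y := by
  obtain ⟨u, t, u0, u1, t0, t1, eT, -, ey⟩ := arc_param hy0 hl hlT hT hc
  have hu : (0 : ℝ) ≤ u * UN ∧ u * UN < 1024 ∧ (0 : ℝ) ≤ t * UN ∧ t * UN < 1024 := by
    rw [UN_cast]; refine ⟨?_, ?_, ?_, ?_⟩ <;> linarith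
  obtain ⟨bx, k, hk, g0, g1, g2, g3⟩ := walk_sound _ _ posArc_ok (u * UN) (t * UN)
    (by simpa [root] using hu.1) (by simpa [root] using hu.2.1)
    (by simpa [root] using hu.2.2.1) (by simpa [root] using hu.2.2.2)
  obtain ⟨X, Y, hX, hY, v⟩ := arc_val g0 g1 g2 g3
  rw [eT, ey]
  exact pos_le v hX hY hk

theorem pos_flat {T y : ℝ} (h0 : 0 ≤ T) (h1 : T ≤ 1) (hy0 : 1 ≤ y) (hy : y ≤ 196 / 100) :
    1 / 100000 ≤ P5 T y := by
  obtain ⟨u, u0, u1, rfl⟩ : ∃ u : ℝ, 0 ≤ u ∧ u ≤ 1 ∧ y = 1 + 24 / 25 * u :=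
    ⟨25 / 24 * (y - 1), by linarith, by linarith, by ring⟩
  have hu : (0 : ℝ) ≤ u * UN ∧ u * UN < 1024 ∧ (0 : ℝ) ≤ T * UN ∧ T * UN < 1024 := by
    rw [UN_cast]; refine ⟨?_, ?_, ?_, ?_⟩ <;> linarith
  obtain ⟨bx, k, hk, g0, g1, g2, g3⟩ := walk_sound _ _ posFlat_ok (u * UN) (T * UN)
    (by simpa [root] using hu.1) (by simpa [root] using hu.2.1)
    (by simpa [root] using hu.2.2.1) (by simpa [root] using hu.2.2.2)
  obtain ⟨X, Y, hX, hY, v⟩ := flat_val g0 g1 g2 g3
  exact pos_le v hX hY hk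

/-- The test polynomial is bounded below outside the disc. -/
theorem P5_pos {t y : ℝ} (ht0 : 0 ≤ t) (ht : t ≤ 1) (hy0 : 0 ≤ y) (hy : y ≤ 196 / 100)
    (hout : 1 ≤ t ^ 2 + y ^ 2) : 1 / 100000 ≤ P5 t y := by
  rcases lt_or_ge y 1 with h | h
  · have h2 : 0 < 1 - y ^ 2 := by nlinarith
    refine pos_arc hy0 (Real.sqrt_pos.2 h2) ?_ ht ?_
    · rw [Real.sqrt_le_left ht0]; linarith
    · rw [Real.sq_sqrt h2.le]; ring
  · exact pos_flat ht0 ht h hy

/-- The test polynomial is nonnegative outside the disc. -/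
theorem P5_nonneg (t y : ℝ) (ht0 : 0 ≤ t) (ht : t ≤ 1) (hy0 : 0 ≤ y) (hy : y ≤ 196 / 100)
    (hout : 1 ≤ t ^ 2 + y ^ 2) : 0 ≤ P5 t y :=
  le_trans (by norm_num) (P5_pos ht0 ht hy0 hy hout)

theorem arc_main {T l y : ℝ} (hy0 : 0 < y) (hl : 0 < l) (hlT : l ≤ T) (hT : T ≤ 1)
    (hc : l ^ 2 + y ^ 2 = 1) : Good T l y := by
  obtain ⟨u, t, u0, u1, t0, t1, eT, el, ey⟩ := arc_param hy0.le hl hlT hT hc
  have hu : (0 : ℝ) ≤ u * UN ∧ u * UN < 1024 ∧ (0 : ℝ) ≤ t * UN ∧ t * UN < 1024 := by
    rw [UN_cast]; refine ⟨?_, ?_, ?_, ?_⟩ <;> linarith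
  obtain ⟨bx, k, hk, g0, g1, g2, g3⟩ := walk_sound _ _ mainArc_ok (u * UN) (t * UN)
    (by simpa [root] using hu.1) (by simpa [root] using hu.2.1)
    (by simpa [root] using hu.2.2.1) (by simpa [root] using hu.2.2.2)
  obtain ⟨X, Y, hX, hY, v⟩ := arc_val g0 g1 g2 g3
  obtain ⟨bc, kc, hkc, c0, c1, c2, c3⟩ := walk_sound _ _ capArc_ok (u * UN) (t * UN)
    (by simpa [root] using hu.1) (by simpa [root] using hu.2.1)
    (by simpa [root] using hu.2.2.1) (by simpa [root] using hu.2.2.2)
  obtain ⟨X', Y', hX', hY', v'⟩ := arc_val c0 c1 c2 c3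
  rw [← eT, ← el, ← ey] at v v'
  have hP := pos_arc hy0.le hl hlT hT hc
  unfold arcMain at hk
  unfold arcCap at hkc
  have hW : 0 < y * P5 T y / 4 := by
    have : (0 : ℝ) < P5 T y := by linarith
    positivity
  have hcap := cap_le v' hX' hY' hkc
  refine of_testLeaf v hX hY hy0 hcap hW (eE := fun p => eArcE p (cA bx) (cB bx) (cC bx) (cZ bx))
    (eD := fun p => eUp p (cC bx) (cZ bx)) ?_ hk
  intro s r m hm hs hr
  have hm' : (0 : ℝ) < m := by exact_mod_cast hm
  have hz := v.zpos
  refine ⟨m * (cZ bx).eval X Y 0, y - (s : ℝ) / m, (T + l) * ((r : ℝ) / m - T), by positivity,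
    by linarith, mul_nonneg (by linarith) (by linarith), ?_, ?_, fun E _ hE => ?_⟩
  · simp only [eUp, Ex.eval, v.zc]
    push_cast
    field_simp
  · simp only [eArcE, eLeft, Ex.eval, ePv_eq v C5 C5_good, v.za, v.zb, v.zc, P5]
    push_cast
    field_simp
    ring
  · have h2 : T ^ 2 + y ^ 2 - 1 = (T + l) * (T - l) := by linear_combination hc
    rw [h2]
    linarith [mul_le_mul_of_nonneg_right hE (sub_nonneg.2 hlT)]

theorem flat_main {T y : ℝ} (h0 : 0 ≤ T) (h1 : T ≤ 1) (hy0 : 1 ≤ y) (hy : y ≤ 196 / 100) :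
    Good T 0 y := by
  have hP := pos_flat h0 h1 hy0 hy
  obtain ⟨u, u0, u1, hyu⟩ : ∃ u : ℝ, 0 ≤ u ∧ u ≤ 1 ∧ y = 1 + 24 / 25 * u :=
    ⟨25 / 24 * (y - 1), by linarith, by linarith, by ring⟩
  have hu : (0 : ℝ) ≤ u * UN ∧ u * UN < 1024 ∧ (0 : ℝ) ≤ T * UN ∧ T * UN < 1024 := by
    rw [UN_cast]; refine ⟨?_, ?_, ?_, ?_⟩ <;> linarith
  obtain ⟨bx, k, hk, g0, g1, g2, g3⟩ := walk_sound _ _ mainFlat_ok (u * UN) (T * UN)
    (by simpa [root] using hu.1) (by simpa [root] using hu.2.1)
    (by simpa [root] using hu.2.2.1) (by simpa [root] using hu.2.2.2)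
  obtain ⟨X, Y, hX, hY, v⟩ := flat_val g0 g1 g2 g3
  obtain ⟨bc, kc, hkc, c0, c1, c2, c3⟩ := walk_sound _ _ capFlat_ok (u * UN) (T * UN)
    (by simpa [root] using hu.1) (by simpa [root] using hu.2.1)
    (by simpa [root] using hu.2.2.1) (by simpa [root] using hu.2.2.2)
  obtain ⟨X', Y', hX', hY', v'⟩ := flat_val c0 c1 c2 c3
  unfold flatMain at hk
  unfold flatCap at hkc
  rw [← hyu] at v v'
  have hW : 0 < y * P5 T y / 4 := by
    have : (0 : ℝ) < P5 T y := by linarith
    positivity
  have hcap := cap_le v' hX' hY' hkc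
  refine of_testLeaf v hX hY (by linarith) hcap hW
    (eE := fun p => eFlatE p (gA bx) (gC bx) gZ)
    (eD := fun p => .mul (gA bx) (eUp p (gC bx) gZ)) ?_ hk
  intro s r m hm hs hr
  clear hk hkc
  have hm' : (0 : ℝ) < m := by exact_mod_cast hm
  have hz := v.zpos
  refine ⟨m * gZ.eval X Y 0 ^ 2, T * (y - (s : ℝ) / m),
    (T ^ 2 + y ^ 2 - 1) * ((r : ℝ) / m - T), by positivity,
    mul_nonneg h0 (by linarith), mul_nonneg (by nlinarith) (by linarith), ?_, ?_,
    fun E _ hE => ?_⟩
  · simp only [eUp, Ex.eval, v.za, v.zc]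
    push_cast
    field_simp
  · simp only [eFlatE, eLeft, Ex.eval, ePv_eq v C5 C5_good, v.za, v.zc, P5]
    push_cast
    field_simp
    ring
  · linarith

/-- **The layer certificate.** -/
theorem cert5 (T l y : ℝ) (hy0 : 0 < y) (hy : y ≤ 196 / 100) (hl : 0 ≤ l) (hlT : l ≤ T)
    (hT : T ≤ 1) (hcirc : (y ≤ 1 ∧ l ^ 2 + y ^ 2 = 1) ∨ (1 ≤ y ∧ l = 0)) :
    ∃ B E, 0 ≤ B ∧ (B = 0 ∨ ∃ s σ, 0 ≤ s ∧ s ≤ y ∧ 0 ≤ σ ∧ s ^ 2 + σ ^ 2 = 1 ∧
        B ≤ chord5 T l y s σ) ∧
      0 ≤ E ∧ (E = 0 ∨ ∃ s σ, 0 ≤ s ∧ s ≤ y ∧ 0 ≤ σ ∧ s ^ 2 + σ ^ 2 = 1 ∧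
        E * (y - s) * (T - l) ≤ (σ - T) * (T ^ 2 + y ^ 2 - 1)) ∧
      1 / 2000 ≤ brk5 T l y B E := by
  rcases hl.eq_or_lt with e | hl0
  · subst e
    refine flat_main hlT hT ?_ hy
    rcases hcirc with ⟨-, h⟩ | ⟨h, -⟩
    · nlinarith
    · exact h
  · rcases hcirc with ⟨-, h⟩ | ⟨-, h⟩
    · exact arc_main hy0 hl0 hlT hT h
    · linarith

end Vale.Agent.P237N.Iso5
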