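import Mathlib

/-!
# The test data for the profile inequality in dimension four
-/

namespace Vale.Agent.P237N

/-- The test polynomial. -/
noncomputable def P4 (t y : ℝ) : ℝ :=
  (38969852 / 1000000)
    + (-20264154 / 1000000) * t
    + (28969789 / 1000000) * t ^ 2
    + (-16796612 / 1000000) * t ^ 3
    + (7451180 / 1000000) * t ^ 4
    + (-2266032 / 1000000) * t ^ 5
    + (-136908723 / 1000000) * y
    + (32453925 / 1000000) * y * t
    + (-43063251 / 1000000) * y * t ^ 2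
    + (12547984 / 1000000) * y * t ^ 3
    + (-527057 / 1000000) * y * t ^ 4
    + (191963414 / 1000000) * y ^ 2
    + (-11972310 / 1000000) * y ^ 2 * t
    + (21673738 / 1000000) * y ^ 2 * t ^ 2
    + (-3768508 / 1000000) * y ^ 2 * t ^ 3
    + (-134195381 / 1000000) * y ^ 3
    + (-2829524 / 1000000) * y ^ 3 * t
    + (-3291983 / 1000000) * y ^ 3 * t ^ 2
    + (46739471 / 1000000) * y ^ 4
    + (1607821 / 1000000) * y ^ 4 * t
    + (-6482746 / 1000000) * y ^ 5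

/-- The divided difference of a monomial. -/
noncomputable def hS0 (T l : ℝ) : ℝ := (1) / 1

/-- The divided difference of a monomial. -/
noncomputable def hS1 (T l : ℝ) : ℝ := (T + l) / 2

/-- The divided difference of a monomial. -/
noncomputable def hS2 (T l : ℝ) : ℝ := (T ^ 2 + T * l + l ^ 2) / 3

/-- The divided difference of a monomial. -/
noncomputable def hS3 (T l : ℝ) : ℝ := (T ^ 3 + T ^ 2 * l + T * l ^ 2 + l ^ 3) / 4

/-- The divided difference of a monomial. -/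
noncomputable def hS4 (T l : ℝ) : ℝ := (T ^ 4 + T ^ 3 * l + T ^ 2 * l ^ 2 + T * l ^ 3 + l ^ 4) / 5

/-- The divided difference of a monomial. -/
noncomputable def hS5 (T l : ℝ) : ℝ := (T ^ 5 + T ^ 4 * l + T ^ 3 * l ^ 2 + T ^ 2 * l ^ 3 + T * l ^ 4 + l ^ 5) / 6

/-- The divided difference of a monomial. -/
noncomputable def hS6 (T l : ℝ) : ℝ := (T ^ 6 + T ^ 5 * l + T ^ 4 * l ^ 2 + T ^ 3 * l ^ 3 + T ^ 2 * l ^ 4 + T * l ^ 5 + l ^ 6) / 7

/-- The divided difference of a monomial. -/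
noncomputable def hS7 (T l : ℝ) : ℝ := (T ^ 7 + T ^ 6 * l + T ^ 5 * l ^ 2 + T ^ 4 * l ^ 3 + T ^ 3 * l ^ 4 + T ^ 2 * l ^ 5 + T * l ^ 6 + l ^ 7) / 8

/-- The layer integral of the test function, divided by the width and the height. -/
noncomputable def hq4 (T l y : ℝ) : ℝ :=
  (38969852 / 1000000) * (3 * y ^ 1 * (hS2 T l - hS0 T l) + 5 * y ^ 3 * hS0 T l)
    + (-20264154 / 1000000) * (3 * y ^ 1 * (hS3 T l - hS1 T l) + 5 * y ^ 3 * hS1 T l)
    + (28969789 / 1000000) * (3 * y ^ 1 * (hS4 T l - hS2 T l) + 5 * y ^ 3 * hS2 T l)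
    + (-16796612 / 1000000) * (3 * y ^ 1 * (hS5 T l - hS3 T l) + 5 * y ^ 3 * hS3 T l)
    + (7451180 / 1000000) * (3 * y ^ 1 * (hS6 T l - hS4 T l) + 5 * y ^ 3 * hS4 T l)
    + (-2266032 / 1000000) * (3 * y ^ 1 * (hS7 T l - hS5 T l) + 5 * y ^ 3 * hS5 T l)
    + (-136908723 / 1000000) * (4 * y ^ 2 * (hS2 T l - hS0 T l) + 6 * y ^ 4 * hS0 T l)
    + (32453925 / 1000000) * (4 * y ^ 2 * (hS3 T l - hS1 T l) + 6 * y ^ 4 * hS1 T l)
    + (-43063251 / 1000000) * (4 * y ^ 2 * (hS4 T l - hS2 T l) + 6 * y ^ 4 * hS2 T l)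
    + (12547984 / 1000000) * (4 * y ^ 2 * (hS5 T l - hS3 T l) + 6 * y ^ 4 * hS3 T l)
    + (-527057 / 1000000) * (4 * y ^ 2 * (hS6 T l - hS4 T l) + 6 * y ^ 4 * hS4 T l)
    + (191963414 / 1000000) * (5 * y ^ 3 * (hS2 T l - hS0 T l) + 7 * y ^ 5 * hS0 T l)
    + (-11972310 / 1000000) * (5 * y ^ 3 * (hS3 T l - hS1 T l) + 7 * y ^ 5 * hS1 T l)
    + (21673738 / 1000000) * (5 * y ^ 3 * (hS4 T l - hS2 T l) + 7 * y ^ 5 * hS2 T l)
    + (-3768508 / 1000000) * (5 * y ^ 3 * (hS5 T l - hS3 T l) + 7 * y ^ 5 * hS3 T l)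
    + (-134195381 / 1000000) * (6 * y ^ 4 * (hS2 T l - hS0 T l) + 8 * y ^ 6 * hS0 T l)
    + (-2829524 / 1000000) * (6 * y ^ 4 * (hS3 T l - hS1 T l) + 8 * y ^ 6 * hS1 T l)
    + (-3291983 / 1000000) * (6 * y ^ 4 * (hS4 T l - hS2 T l) + 8 * y ^ 6 * hS2 T l)
    + (46739471 / 1000000) * (7 * y ^ 5 * (hS2 T l - hS0 T l) + 9 * y ^ 7 * hS0 T l)
    + (1607821 / 1000000) * (7 * y ^ 5 * (hS3 T l - hS1 T l) + 9 * y ^ 7 * hS1 T l)
    + (-6482746 / 1000000) * (8 * y ^ 6 * (hS2 T l - hS0 T l) + 10 * y ^ 8 * hS0 T l)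

/-- The bracket of a layer, with a lower bound `B` for the gain below it. -/
noncomputable def brk4 (T l y B : ℝ) : ℝ :=
  9 / 2 * ((4 + 3 * B) / (4 + B)) - 509296 / 100000 * y
    - 7748 / 10000 * (y * (T ^ 2 + T * l + l ^ 2) - y ^ 3) - hq4 T l y

/-- The gain under the chord from `(y, T)` to the point `(s, σ)` of the circle. -/
noncomputable def chord4 (T l y s σ : ℝ) : ℝ :=
  (y - s) / 2 * (σ * (2 * s + y) + T * (s + 2 * y)) + l ^ 3 - σ ^ 3

end Vale.Agent.P237N
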