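import Mathlib

/-!
# The test data for the profile inequality in dimension five

The calibration `p = t β` with `β = σ + (t² + y² - 1) S` below height one and
`β + (y - 1)² R` above it, its primitive `W` in `t`, and the layer cost.
-/

namespace Vale.Agent.P237N.Five

/-- Terms `c tⁱ yʲ`. -/
abbrev Lst := List (ℤ × ℕ × ℕ)

/-- Value of a list of terms. -/
def ev : Lst → ℝ → ℝ → ℝ
  | [], _, _ => 0
  | (c, i, j) :: L, t, y => c * t ^ i * y ^ j + ev L t y

/-- Product of two lists of terms. -/
def tmul : Lst → Lst → Lst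
  | [], _ => []
  | (c, i, j) :: A, B => B.map (fun b => (c * b.1, i + b.2.1, j + b.2.2)) ++ tmul A B

/-- The least common multiple of `1, …, 20`. -/
def lcm20 : ℤ := 232792560

/-- `lcm20` times the primitive in `t`. -/
def integ (L : Lst) : Lst := L.map fun b => (b.1 * (lcm20 / (b.2.1 + 1 : ℕ)), b.2.1 + 1, b.2.2)

/-- `y` times the derivative in `y`. -/
def ydy (L : Lst) : Lst := L.map fun b => (b.1 * (b.2.2 : ℕ), b.2.1, b.2.2)

/-- `10⁸ σ`. -/
def sigI : ℤ := -12836202

/-- `10⁸ μ`. -/
def muI : ℤ := 6394463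

/-- The multiplier of the second moments. -/
noncomputable def mu5 : ℝ := (muI : ℝ) / 100000000

/-- The value of `β` on the circle. -/
noncomputable def sig5 : ℝ := (sigI : ℝ) / 100000000

/-- `10⁸ p` below height one. -/
def PA : Lst := [
  (23205822097, 1, 0), (-57767902537, 1, 1), (-4916995801, 1, 2), (108735949871, 1, 3),
  (-67083980605, 1, 4), (-34623943571, 1, 5), (46628404256, 1, 6), (-16344103763, 1, 7),
  (2153913851, 1, 8), (-14453067994, 2, 0), (78781414608, 2, 1), (-67262974449, 2, 2),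
  (-69974182746, 2, 3), (88849829699, 2, 4), (-9587850126, 2, 5), (-7133787256, 2, 6),
  (780618264, 2, 7), (-85672075335, 3, 0), (127763612934, 3, 1), (53912277121, 3, 2),
  (-129094584543, 3, 3), (41609899663, 3, 4), (-8213276951, 3, 5), (-434190288, 3, 6),
  (78357553807, 4, 0), (-196709571430, 4, 1), (45656102583, 4, 2), (104667919101, 4, 3),
  (-34978333209, 4, 4), (5233624123, 4, 5), (70611722066, 5, 0), (-32290527944, 5, 1),
  (-21657213929, 5, 2), (-29574355641, 5, 3), (1150282177, 5, 4), (-91320109509, 6, 0),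
  (116079577185, 6, 1), (-428922257, 6, 2), (6301585496, 6, 3), (-53648472, 7, 0),
  (-37705182453, 7, 1), (-4366270242, 7, 2), (27415623696, 8, 0), (1848579637, 8, 1),
  (-8104656558, 9, 0)]

/-- `10⁸` times the correction above height one. -/
def PR : Lst := [
  (-122188661905, 1, 0), (521917246044, 1, 1), (-884322604577, 1, 2), (767991468093, 1, 3),
  (-374488371224, 1, 4), (105838497687, 1, 5), (-14747574118, 1, 6), (-34805009013, 2, 0),
  (102242608128, 2, 1), (-214613125069, 2, 2), (306970125311, 2, 3), (-205046262862, 2, 4),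
  (45251663505, 2, 5), (166735755076, 3, 0), (-355666219271, 3, 1), (237723823546, 3, 2),
  (-75392009583, 3, 3), (26598650232, 3, 4), (-205792272274, 4, 0), (424927807108, 4, 1),
  (-232478797394, 4, 2), (13343262560, 4, 3), (82569492971, 5, 0), (-165138985942, 5, 1),
  (82569492971, 5, 2)]

/-- `10⁸ p` above height one. -/
def PF : Lst := PA ++ PR

/-- The test function. -/
noncomputable def pOf (P : Lst) (t y : ℝ) : ℝ := ev P t y / 100000000

/-- Its square integrated from `0` to `t`. -/
noncomputable def WOf (P : Lst) (t y : ℝ) : ℝ :=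
  ev (integ (tmul P P)) t y / (100000000 ^ 2 * lcm20)

/-- `y` times the `y`-derivative of `WOf`. -/
noncomputable def yWyOf (P : Lst) (t y : ℝ) : ℝ :=
  ev (ydy (integ (tmul P P))) t y / (100000000 ^ 2 * lcm20)

/-- The calibrated Fisher integrand of a layer ending at `t`. -/
noncomputable def NOf (P : Lst) (t y : ℝ) : ℝ :=
  2 * sig5 * pOf P t y - t * pOf P t y ^ 2 - 4 * WOf P t y - yWyOf P t y

/-- The cost of the layer `[l, T]` at height `y`. -/
noncomputable def cost5 (P : Lst) (T l y : ℝ) : ℝ :=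
  (T - l) * (y * (1 + sig5 ^ 2) + 1 / 5000
      + 6 * mu5 * (y * (T ^ 2 + T * l + l ^ 2) / 3 - y ^ 3 / 4))
    - y * (NOf P T y - NOf P l y)

/-- The gain under the chord from `(y, T)` to the point `(s, σ)` of the circle, with the weight
`u²` bounded below by `(u³ + s y u) / (s + y)`. -/
noncomputable def chord5 (T l y s σ : ℝ) : ℝ :=
  509295 / 100000 * ((y - s) * ((σ * (y ^ 3 + 2 * y ^ 2 * s + 3 * y * s ^ 2 + 4 * s ^ 3)
          + T * (4 * y ^ 3 + 3 * y ^ 2 * s + 2 * y * s ^ 2 + s ^ 3)) / 20
        + s * y * (σ * (y + 2 * s) + T * (2 * y + s)) / 6)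
      - (l ^ 5 / 5 - l ^ 3 / 3 + σ ^ 3 / 3 - σ ^ 5 / 5) + s * y * (l ^ 3 - σ ^ 3) / 3) / (s + y)

end Vale.Agent.P237N.Five
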