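import Mathlib

/-!
# The isotropic test data for the profile inequality in dimension five

A polynomial test function, its layer integral, the gain under a chord, and the bracket of a
layer with a gain `B` and a slope term `E`.
-/

namespace Vale.Agent.P237N.Iso5

/-- `xⁿ + xⁿ⁻¹ z + … + zⁿ`. -/
def hN {R : Type*} [CommRing R] : ℕ → R → R → R
  | 0, _, _ => 1
  | n + 1, x, z => x * hN n x z + z ^ (n + 1)

/-- The divided difference of `vⁿ⁺¹ / (n + 1)` between `x` and `z`. -/
noncomputable def hS (n : ℕ) (x z : ℝ) : ℝ := hN n x z / ((n : ℝ) + 1)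

/-- The coefficients `(i, j, c)` of `c / 10⁸ yⁱ tʲ`. -/
def C5 : List (ℕ × ℕ × ℤ) := [
  (0, 0, 36207530545), (0, 1, -3808735765), (0, 2, 17388452215), (0, 3, -85020167542),
  (0, 4, 34525067140), (0, 5, 7304401608), (1, 0, -198078509745), (1, 1, 11669591344),
  (1, 2, 11582065143), (1, 3, 263798815304), (1, 4, -116941474842), (1, 5, -17715439950),
  (2, 0, 471104865772), (2, 1, -35691697904), (2, 2, -156037509504), (2, 3, -299873691644),
  (2, 4, 146324143929), (2, 5, 13817206468), (3, 0, -634998777237), (3, 1, 81947471469),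
  (3, 2, 250085445252), (3, 3, 145571967014), (3, 4, -79662625101), (3, 5, -3404281446),
  (4, 0, 529500170661), (4, 1, -100446071373), (4, 2, -169313492079), (4, 3, -23457109067),
  (4, 4, 15766026308), (5, 0, -279183141448), (5, 1, 64091553128), (5, 2, 52267329026),
  (5, 3, -1055439207), (6, 0, 90744242500), (6, 1, -20304833264), (6, 2, -5935031658),
  (7, 0, -16599987644), (7, 1, 2525281674), (8, 0, 1306835555)]

/-- The value of a list of coefficients. -/
noncomputable def pv : List (ℕ × ℕ × ℤ) → ℝ → ℝ → ℝ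
  | [], _, _ => 0
  | (i, j, c) :: L, t, y => (c : ℝ) / 100000000 * y ^ i * t ^ j + pv L t y

/-- The layer integral of a list of coefficients, divided by the width and the height. -/
noncomputable def hv : List (ℕ × ℕ × ℤ) → ℝ → ℝ → ℝ → ℝ
  | [], _, _, _ => 0
  | (i, j, c) :: L, T, l, y =>
    (c : ℝ) / 100000000 * ((3 + i) * y ^ i * (hS (j + 2) T l - hS j T l)
      + (5 + i) * y ^ (i + 2) * hS j T l) + hv L T l y

/-- The multiplier of the second moments. -/
noncomputable def mu5 : ℝ := 7485 / 100000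

/-- The test polynomial. -/
noncomputable def P5 (t y : ℝ) : ℝ := pv C5 t y

/-- The layer integral of the test function, divided by the width and the height. -/
noncomputable def hq5 (T l y : ℝ) : ℝ := hv C5 T l y / 4

/-- The integral of `uᵏ` times the height of the chord from `(y, T)` to `(s, σ)`. -/
noncomputable def LI (k : ℕ) (T y s σ : ℝ) : ℝ :=
  σ * (y * hS k y s - hS (k + 1) y s) + T * (hS (k + 1) y s - s * hS k y s)

/-- A primitive of `v² (1 - v²)`. -/
noncomputable def G3 (v : ℝ) : ℝ := v ^ 3 / 3 - v ^ 5 / 5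

/-- A primitive of `v² (1 - v²)²`. -/
noncomputable def G5 (v : ℝ) : ℝ := v ^ 3 / 3 - 2 * v ^ 5 / 5 + v ^ 7 / 7

/-- A primitive of `v² (1 - v²)³`. -/
noncomputable def G7 (v : ℝ) : ℝ := v ^ 3 / 3 - 3 * v ^ 5 / 5 + 3 * v ^ 7 / 7 - v ^ 9 / 9

/-- The gain under the chord from `(y, T)` to the point `(s, σ)` of the circle. -/
noncomputable def chord5 (T l y s σ : ℝ) : ℝ :=
  5092957 / 1000000 / 1323 *
    (3051 * (LI 3 T y s σ - (G3 σ - G3 l)) / y
      - 3008 * (LI 5 T y s σ - (G5 σ - G5 l)) / y ^ 3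
      + 1280 * (LI 7 T y s σ - (G7 σ - G7 l)) / y ^ 5)

/-- The bracket of a layer, with the gain `B` below it and the slope term `E`. -/
noncomputable def brk5 (T l y B E : ℝ) : ℝ :=
  905414 / 1000000 * ((3 + 2 * B) / (3 + B)) - y
    - mu5 * (2 * y * (T ^ 2 + T * l + l ^ 2) - 3 / 2 * y ^ 3) - hq5 T l y + E * y * P5 T y / 4

end Vale.Agent.P237N.Iso5
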