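import Vale.Agent.P237N.Data4

/-!
# Derivatives of the test integrand in dimension four
-/

namespace Vale.Agent.P237N

/-- The derivative in the height of the test function. -/
noncomputable def psiH4 (t y : ℝ) : ℝ :=
  (38969852 / 1000000) * (3 * y ^ 2 * (t ^ 2 - 1) + 5 * y ^ 4 * 1)
    + (-20264154 / 1000000) * (3 * y ^ 2 * (t ^ 3 - t) + 5 * y ^ 4 * t)
    + (28969789 / 1000000) * (3 * y ^ 2 * (t ^ 4 - t ^ 2) + 5 * y ^ 4 * t ^ 2)
    + (-16796612 / 1000000) * (3 * y ^ 2 * (t ^ 5 - t ^ 3) + 5 * y ^ 4 * t ^ 3)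
    + (7451180 / 1000000) * (3 * y ^ 2 * (t ^ 6 - t ^ 4) + 5 * y ^ 4 * t ^ 4)
    + (-2266032 / 1000000) * (3 * y ^ 2 * (t ^ 7 - t ^ 5) + 5 * y ^ 4 * t ^ 5)
    + (-136908723 / 1000000) * (4 * y ^ 3 * (t ^ 2 - 1) + 6 * y ^ 5 * 1)
    + (32453925 / 1000000) * (4 * y ^ 3 * (t ^ 3 - t) + 6 * y ^ 5 * t)
    + (-43063251 / 1000000) * (4 * y ^ 3 * (t ^ 4 - t ^ 2) + 6 * y ^ 5 * t ^ 2)
    + (12547984 / 1000000) * (4 * y ^ 3 * (t ^ 5 - t ^ 3) + 6 * y ^ 5 * t ^ 3)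
    + (-527057 / 1000000) * (4 * y ^ 3 * (t ^ 6 - t ^ 4) + 6 * y ^ 5 * t ^ 4)
    + (191963414 / 1000000) * (5 * y ^ 4 * (t ^ 2 - 1) + 7 * y ^ 6 * 1)
    + (-11972310 / 1000000) * (5 * y ^ 4 * (t ^ 3 - t) + 7 * y ^ 6 * t)
    + (21673738 / 1000000) * (5 * y ^ 4 * (t ^ 4 - t ^ 2) + 7 * y ^ 6 * t ^ 2)
    + (-3768508 / 1000000) * (5 * y ^ 4 * (t ^ 5 - t ^ 3) + 7 * y ^ 6 * t ^ 3)
    + (-134195381 / 1000000) * (6 * y ^ 5 * (t ^ 2 - 1) + 8 * y ^ 7 * 1)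
    + (-2829524 / 1000000) * (6 * y ^ 5 * (t ^ 3 - t) + 8 * y ^ 7 * t)
    + (-3291983 / 1000000) * (6 * y ^ 5 * (t ^ 4 - t ^ 2) + 8 * y ^ 7 * t ^ 2)
    + (46739471 / 1000000) * (7 * y ^ 6 * (t ^ 2 - 1) + 9 * y ^ 8 * 1)
    + (1607821 / 1000000) * (7 * y ^ 6 * (t ^ 3 - t) + 9 * y ^ 8 * t)
    + (-6482746 / 1000000) * (8 * y ^ 7 * (t ^ 2 - 1) + 10 * y ^ 9 * 1)

/-- Its primitive in the width. -/
noncomputable def PhiH4 (t y : ℝ) : ℝ :=
  (38969852 / 1000000) * (3 * y ^ 2 * (t ^ 3 / 3 - t ^ 1 / 1) + 5 * y ^ 4 * (t ^ 1 / 1))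
    + (-20264154 / 1000000) * (3 * y ^ 2 * (t ^ 4 / 4 - t ^ 2 / 2) + 5 * y ^ 4 * (t ^ 2 / 2))
    + (28969789 / 1000000) * (3 * y ^ 2 * (t ^ 5 / 5 - t ^ 3 / 3) + 5 * y ^ 4 * (t ^ 3 / 3))
    + (-16796612 / 1000000) * (3 * y ^ 2 * (t ^ 6 / 6 - t ^ 4 / 4) + 5 * y ^ 4 * (t ^ 4 / 4))
    + (7451180 / 1000000) * (3 * y ^ 2 * (t ^ 7 / 7 - t ^ 5 / 5) + 5 * y ^ 4 * (t ^ 5 / 5))
    + (-2266032 / 1000000) * (3 * y ^ 2 * (t ^ 8 / 8 - t ^ 6 / 6) + 5 * y ^ 4 * (t ^ 6 / 6))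
    + (-136908723 / 1000000) * (4 * y ^ 3 * (t ^ 3 / 3 - t ^ 1 / 1) + 6 * y ^ 5 * (t ^ 1 / 1))
    + (32453925 / 1000000) * (4 * y ^ 3 * (t ^ 4 / 4 - t ^ 2 / 2) + 6 * y ^ 5 * (t ^ 2 / 2))
    + (-43063251 / 1000000) * (4 * y ^ 3 * (t ^ 5 / 5 - t ^ 3 / 3) + 6 * y ^ 5 * (t ^ 3 / 3))
    + (12547984 / 1000000) * (4 * y ^ 3 * (t ^ 6 / 6 - t ^ 4 / 4) + 6 * y ^ 5 * (t ^ 4 / 4))
    + (-527057 / 1000000) * (4 * y ^ 3 * (t ^ 7 / 7 - t ^ 5 / 5) + 6 * y ^ 5 * (t ^ 5 / 5))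
    + (191963414 / 1000000) * (5 * y ^ 4 * (t ^ 3 / 3 - t ^ 1 / 1) + 7 * y ^ 6 * (t ^ 1 / 1))
    + (-11972310 / 1000000) * (5 * y ^ 4 * (t ^ 4 / 4 - t ^ 2 / 2) + 7 * y ^ 6 * (t ^ 2 / 2))
    + (21673738 / 1000000) * (5 * y ^ 4 * (t ^ 5 / 5 - t ^ 3 / 3) + 7 * y ^ 6 * (t ^ 3 / 3))
    + (-3768508 / 1000000) * (5 * y ^ 4 * (t ^ 6 / 6 - t ^ 4 / 4) + 7 * y ^ 6 * (t ^ 4 / 4))
    + (-134195381 / 1000000) * (6 * y ^ 5 * (t ^ 3 / 3 - t ^ 1 / 1) + 8 * y ^ 7 * (t ^ 1 / 1))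
    + (-2829524 / 1000000) * (6 * y ^ 5 * (t ^ 4 / 4 - t ^ 2 / 2) + 8 * y ^ 7 * (t ^ 2 / 2))
    + (-3291983 / 1000000) * (6 * y ^ 5 * (t ^ 5 / 5 - t ^ 3 / 3) + 8 * y ^ 7 * (t ^ 3 / 3))
    + (46739471 / 1000000) * (7 * y ^ 6 * (t ^ 3 / 3 - t ^ 1 / 1) + 9 * y ^ 8 * (t ^ 1 / 1))
    + (1607821 / 1000000) * (7 * y ^ 6 * (t ^ 4 / 4 - t ^ 2 / 2) + 9 * y ^ 8 * (t ^ 2 / 2))
    + (-6482746 / 1000000) * (8 * y ^ 7 * (t ^ 3 / 3 - t ^ 1 / 1) + 10 * y ^ 9 * (t ^ 1 / 1))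

/-- A coefficient of the test polynomial. -/
noncomputable def a4_0 (t : ℝ) : ℝ := (38969852 / 1000000) + (-20264154 / 1000000) * t + (28969789 / 1000000) * t ^ 2 + (-16796612 / 1000000) * t ^ 3 + (7451180 / 1000000) * t ^ 4 + (-2266032 / 1000000) * t ^ 5

/-- A coefficient of the test polynomial. -/
noncomputable def a4_1 (t : ℝ) : ℝ := (-136908723 / 1000000) + (32453925 / 1000000) * t + (-43063251 / 1000000) * t ^ 2 + (12547984 / 1000000) * t ^ 3 + (-527057 / 1000000) * t ^ 4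

/-- A coefficient of the test polynomial. -/
noncomputable def a4_2 (t : ℝ) : ℝ := (191963414 / 1000000) + (-11972310 / 1000000) * t + (21673738 / 1000000) * t ^ 2 + (-3768508 / 1000000) * t ^ 3

/-- A coefficient of the test polynomial. -/
noncomputable def a4_3 (t : ℝ) : ℝ := (-134195381 / 1000000) + (-2829524 / 1000000) * t + (-3291983 / 1000000) * t ^ 2

/-- A coefficient of the test polynomial. -/
noncomputable def a4_4 (t : ℝ) : ℝ := (46739471 / 1000000) + (1607821 / 1000000) * t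

/-- A coefficient of the test polynomial. -/
noncomputable def a4_5 (t : ℝ) : ℝ := (-6482746 / 1000000)

lemma P4_expand (t y : ℝ) : y ^ 3 * (t ^ 2 + y ^ 2 - 1) * P4 t y =
    a4_0 t * (t ^ 2 - 1) * y ^ 3
    + a4_1 t * (t ^ 2 - 1) * y ^ 4
    + a4_2 t * (t ^ 2 - 1) * y ^ 5
    + a4_3 t * (t ^ 2 - 1) * y ^ 6
    + a4_4 t * (t ^ 2 - 1) * y ^ 7
    + a4_5 t * (t ^ 2 - 1) * y ^ 8
    + a4_0 t * y ^ 5
    + a4_1 t * y ^ 6
    + a4_2 t * y ^ 7
    + a4_3 t * y ^ 8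
    + a4_4 t * y ^ 9
    + a4_5 t * y ^ 10 := by
  simp only [P4, a4_0, a4_1, a4_2, a4_3, a4_4, a4_5]
  ring

lemma hasDerivAt_H4 (t y : ℝ) :
    HasDerivAt (fun u => u ^ 3 * (t ^ 2 + u ^ 2 - 1) * P4 t u) (psiH4 t y) y := by
  simp only [P4_expand]
  refine ((((((((((((((hasDerivAt_pow 3 y).const_mul _).fun_add
    ((hasDerivAt_pow 4 y).const_mul _)).fun_add
    ((hasDerivAt_pow 5 y).const_mul _)).fun_add
    ((hasDerivAt_pow 6 y).const_mul _)).fun_add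
    ((hasDerivAt_pow 7 y).const_mul _)).fun_add
    ((hasDerivAt_pow 8 y).const_mul _)).fun_add
    ((hasDerivAt_pow 5 y).const_mul _)).fun_add
    ((hasDerivAt_pow 6 y).const_mul _)).fun_add
    ((hasDerivAt_pow 7 y).const_mul _)).fun_add
    ((hasDerivAt_pow 8 y).const_mul _)).fun_add
    ((hasDerivAt_pow 9 y).const_mul _)).fun_add
    ((hasDerivAt_pow 10 y).const_mul _))).congr_deriv ?_
  simp only [psiH4, a4_0, a4_1, a4_2, a4_3, a4_4, a4_5]
  norm_num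
  ring

lemma hasDerivAt_PhiH4 (t y : ℝ) : HasDerivAt (fun u => PhiH4 u y) (psiH4 t y) t := by
  unfold PhiH4
  refine (((((((((((((((((((((((((((hasDerivAt_pow 3 t).div_const _).fun_sub ((hasDerivAt_pow 1 t).div_const _)).const_mul _).fun_add (((hasDerivAt_pow 1 t).div_const _).const_mul _)).const_mul _).fun_add
    ((((((hasDerivAt_pow 4 t).div_const _).fun_sub ((hasDerivAt_pow 2 t).div_const _)).const_mul _).fun_add (((hasDerivAt_pow 2 t).div_const _).const_mul _)).const_mul _)).fun_add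
    ((((((hasDerivAt_pow 5 t).div_const _).fun_sub ((hasDerivAt_pow 3 t).div_const _)).const_mul _).fun_add (((hasDerivAt_pow 3 t).div_const _).const_mul _)).const_mul _)).fun_add
    ((((((hasDerivAt_pow 6 t).div_const _).fun_sub ((hasDerivAt_pow 4 t).div_const _)).const_mul _).fun_add (((hasDerivAt_pow 4 t).div_const _).const_mul _)).const_mul _)).fun_add
    ((((((hasDerivAt_pow 7 t).div_const _).fun_sub ((hasDerivAt_pow 5 t).div_const _)).const_mul _).fun_add (((hasDerivAt_pow 5 t).div_const _).const_mul _)).const_mul _)).fun_add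
    ((((((hasDerivAt_pow 8 t).div_const _).fun_sub ((hasDerivAt_pow 6 t).div_const _)).const_mul _).fun_add (((hasDerivAt_pow 6 t).div_const _).const_mul _)).const_mul _)).fun_add
    ((((((hasDerivAt_pow 3 t).div_const _).fun_sub ((hasDerivAt_pow 1 t).div_const _)).const_mul _).fun_add (((hasDerivAt_pow 1 t).div_const _).const_mul _)).const_mul _)).fun_add
    ((((((hasDerivAt_pow 4 t).div_const _).fun_sub ((hasDerivAt_pow 2 t).div_const _)).const_mul _).fun_add (((hasDerivAt_pow 2 t).div_const _).const_mul _)).const_mul _)).fun_add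
    ((((((hasDerivAt_pow 5 t).div_const _).fun_sub ((hasDerivAt_pow 3 t).div_const _)).const_mul _).fun_add (((hasDerivAt_pow 3 t).div_const _).const_mul _)).const_mul _)).fun_add
    ((((((hasDerivAt_pow 6 t).div_const _).fun_sub ((hasDerivAt_pow 4 t).div_const _)).const_mul _).fun_add (((hasDerivAt_pow 4 t).div_const _).const_mul _)).const_mul _)).fun_add
    ((((((hasDerivAt_pow 7 t).div_const _).fun_sub ((hasDerivAt_pow 5 t).div_const _)).const_mul _).fun_add (((hasDerivAt_pow 5 t).div_const _).const_mul _)).const_mul _)).fun_add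
    ((((((hasDerivAt_pow 3 t).div_const _).fun_sub ((hasDerivAt_pow 1 t).div_const _)).const_mul _).fun_add (((hasDerivAt_pow 1 t).div_const _).const_mul _)).const_mul _)).fun_add
    ((((((hasDerivAt_pow 4 t).div_const _).fun_sub ((hasDerivAt_pow 2 t).div_const _)).const_mul _).fun_add (((hasDerivAt_pow 2 t).div_const _).const_mul _)).const_mul _)).fun_add
    ((((((hasDerivAt_pow 5 t).div_const _).fun_sub ((hasDerivAt_pow 3 t).div_const _)).const_mul _).fun_add (((hasDerivAt_pow 3 t).div_const _).const_mul _)).const_mul _)).fun_add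
    ((((((hasDerivAt_pow 6 t).div_const _).fun_sub ((hasDerivAt_pow 4 t).div_const _)).const_mul _).fun_add (((hasDerivAt_pow 4 t).div_const _).const_mul _)).const_mul _)).fun_add
    ((((((hasDerivAt_pow 3 t).div_const _).fun_sub ((hasDerivAt_pow 1 t).div_const _)).const_mul _).fun_add (((hasDerivAt_pow 1 t).div_const _).const_mul _)).const_mul _)).fun_add
    ((((((hasDerivAt_pow 4 t).div_const _).fun_sub ((hasDerivAt_pow 2 t).div_const _)).const_mul _).fun_add (((hasDerivAt_pow 2 t).div_const _).const_mul _)).const_mul _)).fun_add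
    ((((((hasDerivAt_pow 5 t).div_const _).fun_sub ((hasDerivAt_pow 3 t).div_const _)).const_mul _).fun_add (((hasDerivAt_pow 3 t).div_const _).const_mul _)).const_mul _)).fun_add
    ((((((hasDerivAt_pow 3 t).div_const _).fun_sub ((hasDerivAt_pow 1 t).div_const _)).const_mul _).fun_add (((hasDerivAt_pow 1 t).div_const _).const_mul _)).const_mul _)).fun_add
    ((((((hasDerivAt_pow 4 t).div_const _).fun_sub ((hasDerivAt_pow 2 t).div_const _)).const_mul _).fun_add (((hasDerivAt_pow 2 t).div_const _).const_mul _)).const_mul _)).fun_add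
    ((((((hasDerivAt_pow 3 t).div_const _).fun_sub ((hasDerivAt_pow 1 t).div_const _)).const_mul _).fun_add (((hasDerivAt_pow 1 t).div_const _).const_mul _)).const_mul _))).congr_deriv ?_
  simp [psiH4]

lemma PhiH4_sub (T l y : ℝ) : PhiH4 T y - PhiH4 l y = (T - l) * y * hq4 T l y := by
  simp only [PhiH4, hq4, hS0, hS1, hS2, hS3, hS4, hS5, hS6, hS7]
  ring

lemma continuous_psiH4 : Continuous (Function.uncurry psiH4) := by
  unfold psiH4 Function.uncurry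
  fun_prop

end Vale.Agent.P237N
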