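import Vale.Agent.P237N.Data5I

/-!
# Derivatives of the test integrand in dimension five
-/

namespace Vale.Agent.P237N.Iso5

open MeasureTheory

lemma hN_mul (n : ℕ) (x z : ℝ) : (x - z) * hN n x z = x ^ (n + 1) - z ^ (n + 1) := by
  induction n with
  | zero => simp [hN]
  | succ n ih =>
    simp only [hN]
    linear_combination x * ih

lemma hS_mul (n : ℕ) (x z : ℝ) :
    (x - z) * hS n x z = (x ^ (n + 1) - z ^ (n + 1)) / ((n : ℝ) + 1) := by
  rw [hS, ← mul_div_assoc, hN_mul]

/-- The derivative in the height of the test function of a list of coefficients. -/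
noncomputable def psv : List (ℕ × ℕ × ℤ) → ℝ → ℝ → ℝ
  | [], _, _ => 0
  | (i, j, c) :: L, t, y => (c : ℝ) / 100000000 * ((3 + i) * y ^ (2 + i) * (t ^ (j + 2) - t ^ j)
      + (5 + i) * y ^ (4 + i) * t ^ j) + psv L t y

/-- Its primitive in the width. -/
noncomputable def Phv : List (ℕ × ℕ × ℤ) → ℝ → ℝ → ℝ
  | [], _, _ => 0
  | (i, j, c) :: L, t, y => (c : ℝ) / 100000000 * ((3 + i) * y ^ (2 + i) *
      (t ^ (j + 2 + 1) / ((j : ℝ) + 2 + 1) - t ^ (j + 1) / ((j : ℝ) + 1))
      + (5 + i) * y ^ (4 + i) * (t ^ (j + 1) / ((j : ℝ) + 1))) + Phv L t y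

lemma hasDerivAt_pv (L : List (ℕ × ℕ × ℤ)) (t y : ℝ) :
    HasDerivAt (fun u => u ^ 3 * (t ^ 2 + u ^ 2 - 1) * pv L t u) (psv L t y) y := by
  induction L with
  | nil => simpa [pv, psv] using hasDerivAt_const y (0 : ℝ)
  | cons a L ih =>
    obtain ⟨i, j, c⟩ := a
    simp only [pv, psv]
    have e : (fun u => u ^ 3 * (t ^ 2 + u ^ 2 - 1) * ((c : ℝ) / 100000000 * u ^ i * t ^ j + pv L t u))
        = fun u => (c : ℝ) / 100000000 * ((t ^ (j + 2) - t ^ j) * u ^ (3 + i) + t ^ j * u ^ (5 + i))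
          + u ^ 3 * (t ^ 2 + u ^ 2 - 1) * pv L t u := funext fun u => by ring
    rw [e]
    refine (((((hasDerivAt_pow (3 + i) y).const_mul _).fun_add
      ((hasDerivAt_pow (5 + i) y).const_mul _)).const_mul _).fun_add ih).congr_deriv ?_
    rw [show 3 + i - 1 = 2 + i by omega, show 5 + i - 1 = 4 + i by omega]
    push_cast
    ring

lemma hasDerivAt_Phv (L : List (ℕ × ℕ × ℤ)) (t y : ℝ) :
    HasDerivAt (fun u => Phv L u y) (psv L t y) t := by
  induction L with
  | nil => simpa [Phv, psv] using hasDerivAt_const t (0 : ℝ)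
  | cons a L ih =>
    obtain ⟨i, j, c⟩ := a
    simp only [Phv, psv]
    refine (((((((hasDerivAt_pow (j + 2 + 1) t).div_const _).fun_sub
      ((hasDerivAt_pow (j + 1) t).div_const _)).const_mul _).fun_add
      (((hasDerivAt_pow (j + 1) t).div_const _).const_mul _)).const_mul _).fun_add ih).congr_deriv ?_
    push_cast
    field_simp

lemma Phv_sub (L : List (ℕ × ℕ × ℤ)) (T l y : ℝ) :
    Phv L T y - Phv L l y = (T - l) * y ^ 2 * hv L T l y := by
  induction L with
  | nil => simp [Phv, hv]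
  | cons a L ih =>
    obtain ⟨i, j, c⟩ := a
    simp only [Phv, hv]
    have h1 := hS_mul (j + 2) T l
    push_cast at h1
    linear_combination ih - (c : ℝ) / 100000000 * y ^ (2 + i) * (3 + i) * h1
      + (c : ℝ) / 100000000 * (y ^ (2 + i) * (3 + i) - y ^ (4 + i) * (5 + i)) * hS_mul j T l

lemma continuous_pv (L : List (ℕ × ℕ × ℤ)) : Continuous fun p : ℝ × ℝ => pv L p.1 p.2 := by
  induction L with
  | nil => simpa [pv] using continuous_const
  | cons a L ih =>
    obtain ⟨i, j, c⟩ := a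
    simp only [pv]
    exact (by fun_prop : Continuous fun p : ℝ × ℝ => (c : ℝ) / 100000000 * p.2 ^ i * p.1 ^ j).add ih

lemma continuous_psv (L : List (ℕ × ℕ × ℤ)) : Continuous fun p : ℝ × ℝ => psv L p.1 p.2 := by
  induction L with
  | nil => simpa [psv] using continuous_const
  | cons a L ih =>
    obtain ⟨i, j, c⟩ := a
    simp only [psv]
    exact (by fun_prop : Continuous fun p : ℝ × ℝ => (c : ℝ) / 100000000 *
      ((3 + i) * p.2 ^ (2 + i) * (p.1 ^ (j + 2) - p.1 ^ j) + (5 + i) * p.2 ^ (4 + i) * p.1 ^ j)).add ih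

lemma continuous_hN (n : ℕ) : Continuous fun p : ℝ × ℝ => hN n p.1 p.2 := by
  induction n with
  | zero => simpa [hN] using continuous_const
  | succ n ih =>
    simp only [hN]
    exact (continuous_fst.mul ih).add (continuous_snd.pow _)

lemma continuous_hS (n : ℕ) : Continuous fun p : ℝ × ℝ => hS n p.1 p.2 :=
  (continuous_hN n).div_const _

lemma continuous_hv (L : List (ℕ × ℕ × ℤ)) :
    Continuous fun p : ℝ × ℝ × ℝ => hv L p.1 p.2.1 p.2.2 := by
  induction L with
  | nil => simpa [hv] using continuous_const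
  | cons a L ih =>
    obtain ⟨i, j, c⟩ := a
    simp only [hv]
    have h1 : Continuous fun p : ℝ × ℝ × ℝ => hS (j + 2) p.1 p.2.1 :=
      (continuous_hS (j + 2)).comp (continuous_fst.prodMk continuous_snd.fst)
    have h2 : Continuous fun p : ℝ × ℝ × ℝ => hS j p.1 p.2.1 :=
      (continuous_hS j).comp (continuous_fst.prodMk continuous_snd.fst)
    exact (by fun_prop : Continuous fun p : ℝ × ℝ × ℝ => (c : ℝ) / 100000000 *
      ((3 + i) * p.2.2 ^ i * (hS (j + 2) p.1 p.2.1 - hS j p.1 p.2.1)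
        + (5 + i) * p.2.2 ^ (i + 2) * hS j p.1 p.2.1)).add ih

end Vale.Agent.P237N.Iso5
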