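import Vale.Agent.P237N.Equality

/-!
# The equality case from a stable slice inequality for positioned polytopes

A position available only for polytopes suffices: the inner polytopes of a body with equality give
inscribed ellipsoids whose volumes tend to the volume of the body.
-/

namespace Vale.Agent.P237N

open MeasureTheory Set Metric Filter Topology Vale.Agent.P237 Vale.Agent.P237R
open Vale.Agent.P237U hiding eq_closedBall eq_of_le map_equality sliceInt_le_shadow exists_inradius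
  symmetric_equality eq_ball_of_mid projBody_ball_subset
open scoped RealInnerProductSpace ENNReal Pointwise

/-- Positioned polytopes with almost no slack in the slice inequality are almost balls. -/
def PolyStable (P Pp : ℝ) (j : ℕ) : Prop :=
  ∀ δ : ℝ, 0 < δ → ∃ η : ℝ, 0 < η ∧ ∀ (N : ℕ) [NeZero N]
    (u : Fin N → EuclideanSpace ℝ (Fin (j + 1 + 1))) (b : Fin N → ℝ),
    (∀ i, 0 < b i) → IsCompact (polyH u b) → (∀ x ∈ polyH u b, -x ∈ polyH u b) →
    ∃ (w : Fin N → EuclideanSpace ℝ (Fin (j + 1 + 1))) (r : ℝ)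
      (T : EuclideanSpace ℝ (Fin (j + 1 + 1)) →ₗ[ℝ] EuclideanSpace ℝ (Fin (j + 1 + 1))),
      0 < r ∧ |LinearMap.det T| = 1 ∧ polyH w b = T '' polyH u b ∧ closedBall 0 r ⊆ polyH w b ∧
      (∀ x ∈ polyH w b, |x 0| ≤ r) ∧
      (Pp * sliceInt (polyH w b) ^ (j + 1) ≤ (1 + η) * P * r * (volume (polyH w b)).toReal ^ j →
        (volume (polyH w b)).toReal
          ≤ (1 + δ) * (volume (closedBall (0 : EuclideanSpace ℝ (Fin (j + 1 + 1))) r)).toReal)

variable {j : ℕ}

/-- Inner symmetric polytopes. -/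
lemma exists_inner_sym {K : Set (EuclideanSpace ℝ (Fin (j + 1 + 1)))} (hK : IsCompact K)
    (hc : Convex ℝ K) (h0 : (0 : EuclideanSpace ℝ (Fin (j + 1 + 1))) ∈ interior K)
    (hs : ∀ x ∈ K, -x ∈ K) {l : ℝ} (hl0 : 0 ≤ l) (hl1 : l < 1) :
    ∃ (N : ℕ) (_ : NeZero N) (u : Fin N → EuclideanSpace ℝ (Fin (j + 1 + 1))) (b : Fin N → ℝ),
      (∀ i, 0 < b i) ∧ IsCompact (polyH u b) ∧ (∀ x ∈ polyH u b, -x ∈ polyH u b) ∧
      l • K ⊆ polyH u b ∧ polyH u b ⊆ K := by
  obtain ⟨M, hM, u, b, hb, -, hlow, hsub⟩ := exists_polyH hK hc h0 hl0 hl1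
  set u' := Fin.append u (-u) with hu'
  set b' := Fin.append b b with hb'
  have hmem : ∀ x, x ∈ polyH u' b' ↔ x ∈ polyH u b ∧ -x ∈ polyH u b := fun x => by
    simp only [polyH, Set.mem_ofPred_eq]
    rw [Fin.forall_fin_add]
    simp only [hu', hb', Fin.append_left, Fin.append_right, Pi.neg_apply, inner_neg_left,
      inner_neg_right]
  have hbp : ∀ i, 0 < b' i := fun i => by
    refine Fin.addCases (fun i => ?_) (fun i => ?_) i
    · rw [hb', Fin.append_left]; exact hb i
    · rw [hb', Fin.append_right]; exact hb i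
  refine ⟨M + M, ⟨by have := hM.ne; omega⟩, u', b', hbp,
    hK.of_isClosed_subset (isClosed_polyH _ _) fun x hx => hsub ((hmem x).1 hx).1, fun x hx => ?_,
    fun x hx => (hmem x).2 ⟨hlow hx, hlow ?_⟩, fun x hx => hsub ((hmem x).1 hx).1⟩
  · rw [hmem] at hx ⊢
    exact ⟨hx.2, by rw [neg_neg]; exact hx.1⟩
  · obtain ⟨y, hy, rfl⟩ := hx
    exact ⟨-y, hs y hy, smul_neg _ _⟩

lemma sliceInt_mono {A K : Set (EuclideanSpace ℝ (Fin (j + 1 + 1)))} (hA : IsCompact A)
    (hAne : A.Nonempty) (hK : IsCompact K) (hAK : A ⊆ K) : sliceInt A ≤ sliceInt K := by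
  obtain ⟨p, hp, hp0⟩ := exists_lo hA hAne
  obtain ⟨q, hq, hq0⟩ := exists_hi hA hAne
  have hlh : sLo A ≤ sHi A := (height_mem hA hp).1.trans (height_mem hA hp).2
  have h1 : sLo K ≤ sLo A := hp0 ▸ (height_mem hK (hAK hp)).1
  have h2 : sHi A ≤ sHi K := hq0 ▸ (height_mem hK (hAK hq)).2
  calc sliceInt A = ∫ t in (sLo A)..(sHi A), gfun A t := rfl
    _ ≤ ∫ t in (sLo A)..(sHi A), gfun K t :=
        intervalIntegral.integral_mono_on hlh (intervalIntegrable_gfun hA _ _)
          (intervalIntegrable_gfun hK _ _) fun t _ => Real.rpow_le_rpow (sv_nonneg t)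
            (ENNReal.toReal_mono (isCompact_slice hK t).measure_lt_top.ne
              (measure_mono fun y hy => hAK hy)) gexp_nonneg
    _ ≤ _ := intervalIntegral.integral_mono_interval h1 hlh h2
        (Eventually.of_forall fun t => gfun_nonneg t) (intervalIntegrable_gfun hK _ _)

/-- A body with equality contains an ellipsoid of almost its volume. -/
lemma exists_almost_ellipsoid {P Pp : ℝ} (hP : 0 < P) (hPp : 0 ≤ Pp)
    (hLBp : LowerBound (j + 1) Pp) (hLB : LowerBound (j + 1 + 1) P) (hstab : PolyStable P Pp j)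
    {K : Set (EuclideanSpace ℝ (Fin (j + 1 + 1)))} (hK : IsCompact K) (hc : Convex ℝ K)
    (h0 : (0 : EuclideanSpace ℝ (Fin (j + 1 + 1))) ∈ interior K) (hs : ∀ x ∈ K, -x ∈ K)
    (heq : (volume (projBody K)).toReal = P * (volume K).toReal ^ (j + 1)) {δ : ℝ} (hδ : 0 < δ) :
    ∃ A : EuclideanSpace ℝ (Fin (j + 1 + 1)) →L[ℝ] EuclideanSpace ℝ (Fin (j + 1 + 1)),
      A '' closedBall 0 1 ⊆ K ∧
      (volume K).toReal ≤ (1 + δ) * (unitBallVol (j + 1 + 1) * |LinearMap.det A.toLinearMap|) := by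
  obtain ⟨η, hη, hstab⟩ := hstab (δ / 3) (by linarith)
  set V := (volume K).toReal with hVdef
  obtain ⟨l, ⟨hle, hld⟩, hl1, hl0⟩ : ∃ l : ℝ,
      (1 < (1 + η) * (l * (l ^ (j + 1 + 1)) ^ j) ∧ 1 + δ / 3 < (1 + δ) * l ^ (j + 1 + 1)) ∧
        l < 1 ∧ 0 < l := by
    have t1 := (by fun_prop : Continuous fun l : ℝ => (1 + η) * (l * (l ^ (j + 1 + 1)) ^ j)).tendsto 1
    have t2 := (by fun_prop : Continuous fun l : ℝ => (1 + δ) * l ^ (j + 1 + 1)).tendsto 1
    simp only [one_pow, mul_one] at t1 t2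
    exact (((t1.mono_left (nhdsWithin_le_nhds (s := Iio 1))).eventually
      (eventually_gt_nhds (by linarith : (1 : ℝ) < 1 + η))).and
      ((t2.mono_left nhdsWithin_le_nhds).eventually
      (eventually_gt_nhds (by linarith : 1 + δ / 3 < 1 + δ)))).and
      (Filter.Eventually.and self_mem_nhdsWithin (nhdsWithin_le_nhds (eventually_gt_nhds zero_lt_one))) |>.exists
  obtain ⟨N, hN, u, b, hb, hP', hPs, hlow, hsub⟩ := exists_inner_sym hK hc h0 hs hl0.le hl1
  obtain ⟨w, r, T, hr, hT, himg, hball, hslab, hst⟩ := hstab N u b hb hP' hPs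
  set K' := T '' K with hK'
  have hWK : polyH w b ⊆ K' := himg ▸ image_mono hsub
  have hK'c : IsCompact K' := hK.image T.continuous_of_finiteDimensional
  have hK'v : Convex ℝ K' := hc.linear_image T
  obtain ⟨h0', hv', heq'⟩ := map_equality hLB hK hc h0 heq T hT
  rw [← hK'] at h0' hv' heq'
  have hs' : ∀ x ∈ K', -x ∈ K' := by
    rintro _ ⟨y, hy, rfl⟩; exact ⟨-y, hs y hy, map_neg T y⟩
  obtain ⟨hZc, hZv, hZ0, hZs, -, hLv, hmid⟩ := equality_step hP hLB hK'c hK'v h0' heq'
  have hV'p : 0 < (volume K').toReal := toReal_pos_of_interior (n := j + 1) hK'c ⟨0, h0'⟩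
  set lam := 1 / (P * (volume K').toReal ^ j) with hlam
  set L := projBody (projBody K') with hL
  have hLc : IsCompact L := isCompact_projBody hZc
  have hLx : Convex ℝ (lam • L) := (convex_projBody hZc).smul lam
  have hLi : (interior (lam • L)).Nonempty :=
    interior_nonempty_of_volume_pos hLx (by rw [hLv]; exact hV'p)
  obtain ⟨d, hd1, hd2, -⟩ := heights_of_mid_le (n := j + 1) hK'c hK'v ⟨0, h0'⟩ (hLc.smul lam) hLx hLi
    hLv hmid
  have hLs : ∀ x ∈ lam • L, -x ∈ lam • L := by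
    rintro _ ⟨y, hy, rfl⟩
    exact ⟨-y, neg_mem_projBody hZc hy, smul_neg _ _⟩
  rw [sLo_eq_neg (hLc.smul lam) (hLi.mono interior_subset) hLs,
    sLo_eq_neg hK'c ⟨0, interior_subset h0'⟩ hs'] at hd2
  have hhi : sHi K' ≤ r / l := by
    obtain ⟨p, ⟨q, hq, hqp⟩, hp0⟩ := exists_hi hK'c ⟨0, interior_subset h0'⟩
    have hmem : l • p ∈ polyH w b := himg ▸ ⟨l • q, hlow (smul_mem_smul_set hq), by rw [map_smul, hqp]⟩
    have h := (abs_le.1 (hslab _ hmem)).2
    rw [PiLp.smul_apply, smul_eq_mul, hp0] at h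
    rw [le_div_iff₀ hl0]
    linarith
  have hLne : L.Nonempty := by
    obtain ⟨x, y, hy, -⟩ := hLi.mono interior_subset
    exact ⟨y, hy⟩
  obtain ⟨p, hp, hp0⟩ := exists_hi hLc hLne
  have hup : lam * sHi L ≤ r / l := by
    have h := (height_mem (hLc.smul lam) (smul_mem_smul_set hp : lam • p ∈ lam • L)).2
    rw [PiLp.smul_apply, smul_eq_mul, hp0] at h
    linarith
  set VW := (volume (polyH w b)).toReal with hVW
  have hWc : IsCompact (polyH w b) := himg ▸ hP'.image T.continuous_of_finiteDimensional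
  have hVle : l ^ (j + 1 + 1) * V ≤ VW := by
    have h := ENNReal.toReal_mono hP'.measure_lt_top.ne (measure_mono (μ := volume) hlow)
    rw [Measure.addHaar_smul_of_nonneg _ hl0.le, finrank_euclideanSpace_fin, ENNReal.toReal_mul,
      ENNReal.toReal_ofReal (by positivity)] at h
    rwa [hVW, himg, Measure.addHaar_image_linearMap, hT, ENNReal.ofReal_one, one_mul]
  have hslice : Pp * sliceInt (polyH w b) ^ (j + 1) ≤ (1 + η) * P * r * VW ^ j := by
    have hne : (polyH w b).Nonempty := ⟨0, hball (mem_closedBall_self hr.le)⟩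
    obtain ⟨q, hq, hq0⟩ := exists_lo hWc hne
    have h0s : 0 ≤ sliceInt (polyH w b) :=
      sliceInt_nonneg ((height_mem hWc hq).1.trans (height_mem hWc hq).2)
    have h1 : Pp * sliceInt (polyH w b) ^ (j + 1) ≤ sHi L :=
      (mul_le_mul_of_nonneg_left (pow_le_pow_left₀ h0s
        (sliceInt_mono hWc hne hK'c hWK) _) hPp).trans ((sliceInt_le_shadow hPp hLBp hK'c hK'v h0').trans
        (shadow_le_sHi_projBody hZc hZv ⟨0, hZ0⟩ hZs))
    rw [hlam, hv', div_mul_eq_mul_div, one_mul] at hup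
    have hVp : 0 < V := by linarith [hv', hV'p, hVdef]
    rw [div_le_iff₀ (mul_pos hP (pow_pos hVp j)), div_mul_eq_mul_div, le_div_iff₀ hl0] at hup
    have hA : (l ^ (j + 1 + 1) * V) ^ j ≤ VW ^ j := pow_le_pow_left₀ (by positivity) hVle j
    rw [mul_pow] at hA
    have hPV : 0 ≤ P * r * V ^ j := by positivity
    refine le_of_mul_le_mul_right ?_ hl0
    calc Pp * sliceInt (polyH w b) ^ (j + 1) * l ≤ sHi L * l := mul_le_mul_of_nonneg_right h1 hl0.le
      _ ≤ P * r * V ^ j * 1 := by linarith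
      _ ≤ P * r * V ^ j * ((1 + η) * (l * (l ^ (j + 1 + 1)) ^ j)) :=
          mul_le_mul_of_nonneg_left hle.le hPV
      _ = (1 + η) * P * r * ((l ^ (j + 1 + 1)) ^ j * V ^ j) * l := by ring
      _ ≤ (1 + η) * P * r * VW ^ j * l := by gcongr
  have hres := hst hslice
  rw [volume_ball_toReal hr.le] at hres
  have hne : LinearMap.det T ≠ 0 := fun h => by simp [h] at hT
  set Te := LinearMap.equivOfDetNeZero T hne
  refine ⟨LinearMap.toContinuousLinearMap (r • Te.symm.toLinearMap), ?_, ?_⟩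
  · rintro _ ⟨x, hx, rfl⟩
    have hx' : r • x ∈ closedBall (0 : EuclideanSpace ℝ (Fin (j + 1 + 1))) r := by
      rw [mem_closedBall_zero_iff] at hx ⊢
      rw [norm_smul, Real.norm_of_nonneg hr.le]
      exact mul_le_of_le_one_right hr.le hx
    obtain ⟨y, hy, hye⟩ := hWK (hball hx')
    show r • Te.symm x ∈ K
    rw [← map_smul, ← hye, show Te.symm (T y) = y from Te.symm_apply_apply y]
    exact hy
  · have hdet : |LinearMap.det (LinearMap.toContinuousLinearMap (r • Te.symm.toLinearMap)).toLinearMap|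
        = r ^ (j + 1 + 1) := by
      rw [show (LinearMap.toContinuousLinearMap (r • Te.symm.toLinearMap)).toLinearMap
        = r • Te.symm.toLinearMap from rfl, LinearMap.det_smul, finrank_euclideanSpace_fin, abs_mul,
        abs_pow, abs_of_pos hr, LinearEquiv.det_coe_symm, abs_inv,
        show LinearMap.det Te.toLinearMap = LinearMap.det T from rfl, hT, inv_one, mul_one]
    rw [hdet]
    have hk := unitBallVol_pos (n := j + 1 + 1) (Nat.succ_pos _)
    refine le_of_mul_le_mul_left ?_ (pow_pos hl0 (j + 1 + 1))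
    calc l ^ (j + 1 + 1) * V ≤ VW := hVle
      _ ≤ (1 + δ / 3) * (unitBallVol (j + 1 + 1) * r ^ (j + 1 + 1)) := hres
      _ ≤ (1 + δ) * l ^ (j + 1 + 1) * (unitBallVol (j + 1 + 1) * r ^ (j + 1 + 1)) :=
          mul_le_mul_of_nonneg_right hld.le (by positivity)
      _ = _ := by ring

/-- Symmetric bodies with equality are ellipsoids. -/
theorem symmetric_equality_poly {P Pp : ℝ} (hP : 0 < P) (hPp : 0 ≤ Pp)
    (hLBp : LowerBound (j + 1) Pp) (hLB : LowerBound (j + 1 + 1) P) (hstab : PolyStable P Pp j)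
    {K : Set (EuclideanSpace ℝ (Fin (j + 1 + 1)))} (hK : IsCompact K) (hc : Convex ℝ K)
    (h0 : (0 : EuclideanSpace ℝ (Fin (j + 1 + 1))) ∈ interior K) (hs : ∀ x ∈ K, -x ∈ K)
    (heq : (volume (projBody K)).toReal = P * (volume K).toReal ^ (j + 1)) :
    ∃ A : EuclideanSpace ℝ (Fin (j + 1 + 1)) ≃ₗ[ℝ] EuclideanSpace ℝ (Fin (j + 1 + 1)),
      K = A '' closedBall 0 1 := by
  have hV : 0 < (volume K).toReal := toReal_pos_of_interior (n := j + 1) hK ⟨0, h0⟩
  have hk := unitBallVol_pos (n := j + 1 + 1) (Nat.succ_pos _)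
  have hex : ∀ k : ℕ, ∃ A : EuclideanSpace ℝ (Fin (j + 1 + 1)) →L[ℝ] EuclideanSpace ℝ (Fin (j + 1 + 1)),
      A '' closedBall 0 1 ⊆ K ∧ (volume K).toReal
        ≤ (1 + 1 / ((k : ℝ) + 1)) * (unitBallVol (j + 1 + 1) * |LinearMap.det A.toLinearMap|) :=
    fun k => exists_almost_ellipsoid hP hPp hLBp hLB hstab hK hc h0 hs heq (by positivity)
  choose A hAK hAv using hex
  obtain ⟨R, hR⟩ := hK.isBounded.subset_closedBall 0
  have hR0 : 0 ≤ R := by simpa using hR (interior_subset h0)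
  have hA : ∀ k, A k ∈ closedBall (0 : EuclideanSpace ℝ (Fin (j + 1 + 1)) →L[ℝ] EuclideanSpace ℝ (Fin (j + 1 + 1))) R := by
    intro k
    rw [mem_closedBall_zero_iff]
    refine (A k).opNorm_le_bound hR0 fun x => ?_
    rcases eq_or_ne x 0 with rfl | hx
    · simp
    have hn : 0 < ‖x‖ := norm_pos_iff.2 hx
    have h := mem_closedBall_zero_iff.1 (hR (hAK k ⟨‖x‖⁻¹ • x, by simp [norm_smul, hx], rfl⟩))
    rw [map_smul, norm_smul, norm_inv, norm_norm, inv_mul_le_iff₀ hn] at h
    linarith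
  obtain ⟨A0, -, φ, hφ, hlim⟩ := (isCompact_closedBall
    (0 : EuclideanSpace ℝ (Fin (j + 1 + 1)) →L[ℝ] EuclideanSpace ℝ (Fin (j + 1 + 1))) R).tendsto_subseq hA
  have hsub : A0 '' closedBall 0 1 ⊆ K := by
    rintro _ ⟨x, hx, rfl⟩
    refine hK.isClosed.mem_of_tendsto ((ContinuousLinearMap.apply ℝ _ x).continuous.tendsto A0 |>.comp hlim)
      (Eventually.of_forall fun k => hAK (φ k) ⟨x, hx, rfl⟩)
  have hvol : (volume K).toReal ≤ unitBallVol (j + 1 + 1) * |LinearMap.det A0.toLinearMap| := by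
    have t1 : Tendsto (fun k : ℕ => 1 + 1 / ((φ k : ℕ) + 1 : ℝ)) atTop (𝓝 1) := by
      simpa [Function.comp_def] using
        (tendsto_one_div_add_atTop_nhds_zero_nat.comp hφ.tendsto_atTop).const_add (1 : ℝ)
    have t2 := (ContinuousLinearMap.continuous_det.tendsto A0).comp hlim
    have t3 := t1.mul ((t2.abs).const_mul (unitBallVol (j + 1 + 1)))
    rw [one_mul] at t3
    exact ge_of_tendsto t3 (Eventually.of_forall fun k => hAv (φ k))
  have hne : LinearMap.det A0.toLinearMap ≠ 0 := fun h => by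
    rw [h, abs_zero, mul_zero] at hvol
    linarith
  set Ae := LinearMap.equivOfDetNeZero A0.toLinearMap hne
  refine ⟨Ae, ?_⟩
  set K1 := Ae.symm.toLinearMap '' K with hK1
  have hK1c : IsCompact K1 := hK.image Ae.symm.toLinearMap.continuous_of_finiteDimensional
  have hK1i : (interior K1).Nonempty := by
    rw [show interior K1 = Ae.symm.toLinearMap '' interior K from
      (Ae.symm.toContinuousLinearEquiv.toHomeomorph.image_interior K).symm]
    exact ⟨_, mem_image_of_mem _ h0⟩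
  have hB : closedBall (0 : EuclideanSpace ℝ (Fin (j + 1 + 1))) 1 ⊆ K1 := fun x hx =>
    ⟨A0 x, hsub ⟨x, hx, rfl⟩, Ae.symm_apply_apply x⟩
  have hv1 : (volume K1).toReal
      = (volume (closedBall (0 : EuclideanSpace ℝ (Fin (j + 1 + 1))) 1)).toReal := by
    refine le_antisymm ?_ (ENNReal.toReal_mono hK1c.measure_lt_top.ne (measure_mono hB))
    rw [hK1, Measure.addHaar_image_linearMap, ENNReal.toReal_mul, ENNReal.toReal_ofReal (abs_nonneg _),
      LinearEquiv.det_coe_symm, abs_inv, show LinearMap.det Ae.toLinearMap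
        = LinearMap.det A0.toLinearMap from rfl, inv_mul_le_iff₀ (abs_pos.2 hne),
      volume_ball_toReal zero_le_one]
    simpa [mul_comm] using hvol
  have h := eq_closedBall hK1c one_pos (Or.inr hB)
    (subset_closure_interior (hc.linear_image Ae.symm.toLinearMap) hK1i) hv1
  rw [← h, hK1, Set.image_image]
  simp

/-- Bodies with equality are ellipsoids. -/
theorem ellipsoid_of_equality_poly {P Pp : ℝ} (hP : 0 < P) (hPp : 0 ≤ Pp) (hLBp : LowerBound (j + 1) Pp)
    (hLB : LowerBound (j + 1 + 1) P)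
    (hstab : PolyStable P Pp j)
    {K : Set (EuclideanSpace ℝ (Fin (j + 1 + 1)))} (hK : IsCompact K)
    (hc : Convex ℝ K) (hi : (interior K).Nonempty)
    (heq : (volume (projBody K)).toReal = P * (volume K).toReal ^ (j + 1)) :
    ∃ (a : EuclideanSpace ℝ (Fin (j + 1 + 1)))
      (T : EuclideanSpace ℝ (Fin (j + 1 + 1)) ≃ₗ[ℝ] EuclideanSpace ℝ (Fin (j + 1 + 1))),
      K = (fun x => a + T x) '' closedBall 0 1 := by
  obtain ⟨x₀, hx₀⟩ := hi
  set K₀ := (fun x => x + x₀) ⁻¹' K with hK₀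
  have hK₀c : IsCompact K₀ := (Homeomorph.addRight x₀).isCompact_preimage.2 hK
  have hK₀v : Convex ℝ K₀ := hc.translate_preimage_left x₀
  have h0 : (0 : EuclideanSpace ℝ (Fin (j + 1 + 1))) ∈ interior K₀ := by
    have he : interior K₀ = (fun x => x + x₀) ⁻¹' interior K :=
      ((Homeomorph.addRight x₀).preimage_interior K).symm
    rw [he]
    simpa using hx₀
  have hv0 : (volume K₀).toReal = (volume K).toReal := by rw [hK₀, measure_preimage_add_right]
  obtain ⟨hZc, hZv, hZ0, hZs, hZe, hLv, hmid⟩ := equality_step hP hLB hK₀c hK₀v h0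
    (by rw [hK₀, projBody_shift, ← hK₀, hv0]; exact heq)
  obtain ⟨hLc, hLx, hL0, hLs, hLe, -, -⟩ := equality_step hP hLB hZc hZv hZ0 hZe
  obtain ⟨A, hA⟩ := symmetric_equality_poly hP hPp hLBp hLB hstab hLc hLx hL0 hLs hLe
  set lam := 1 / (P * (volume K₀).toReal ^ j) with hlam
  have hlam0 : lam ≠ 0 := by
    have := toReal_pos_of_interior (n := j + 1) hK₀c ⟨0, h0⟩
    positivity
  set A' := A.trans (LinearEquiv.smulOfNeZero ℝ _ lam hlam0) with hA'
  set B := closedBall (0 : EuclideanSpace ℝ (Fin (j + 1 + 1))) 1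
  have hLam : lam • projBody (projBody K₀) = A'.toLinearMap '' B := by
    rw [hA, ← Set.image_smul, Set.image_image]
    rfl
  rw [hLam] at hLv hmid
  set M := A'.symm.toLinearMap with hM
  set K' := M '' K₀ with hK'
  have hMB : M '' (A'.toLinearMap '' B) = B := by
    rw [Set.image_image]
    simp [hM]
  have hdM : 0 ≤ |LinearMap.det M| := abs_nonneg _
  have hi' : (interior K').Nonempty := by
    rw [hK', show interior (M '' K₀) = M '' interior K₀ from
      (A'.symm.toContinuousLinearEquiv.toHomeomorph.image_interior K₀).symm]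
    exact ⟨_, mem_image_of_mem M h0⟩
  obtain ⟨g, hg⟩ := eq_ball_of_mid (hK₀c.image M.continuous_of_finiteDimensional)
    (hK₀v.linear_image M) hi' (by
      change (volume B).toReal = _
      rw [← hMB, Measure.addHaar_image_linearMap volume M, Measure.addHaar_image_linearMap volume M K₀,
        ENNReal.toReal_mul, ENNReal.toReal_mul, hLv]) (by
      change (volume (midSet (M '' K₀) B)).toReal ≤ _
      rw [← hMB, show midSet (M '' K₀) (M '' (A'.toLinearMap '' B))
        = M '' midSet K₀ (A'.toLinearMap '' B) by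
          rw [midSet, midSet, image_smul_set, Set.image_add],
        Measure.addHaar_image_linearMap, Measure.addHaar_image_linearMap volume M K₀,
        ENNReal.toReal_mul, ENNReal.toReal_mul]
      exact mul_le_mul_of_nonneg_left hmid ENNReal.toReal_nonneg)
  refine ⟨x₀ + A' g, A', ?_⟩
  ext x
  constructor
  · intro hx
    have h : M (x - x₀) ∈ M '' K₀ := mem_image_of_mem M (by simpa [hK₀] using hx)
    rw [hg, mem_closedBall_iff_norm] at h
    refine ⟨M (x - x₀) - g, by simpa [B] using h, ?_⟩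
    simp only [hM, map_sub, LinearEquiv.coe_coe, LinearEquiv.apply_symm_apply]
    abel
  · rintro ⟨y, hy, rfl⟩
    have h : g + y ∈ M '' K₀ := by
      rw [hg, mem_closedBall_iff_norm]; simpa [B] using hy
    obtain ⟨z, hz, hze⟩ := h
    have hz' : z = A' (g + y) := by rw [← hze]; simp [hM]
    rw [hz'] at hz
    simp only [hK₀, mem_preimage, map_add] at hz
    convert hz using 1
    abel

end Vale.Agent.P237N
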