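import Vale.Agent.P237N.FisherPosition

/-!
# A lower bound for the boundary Fisher form of a polytope by one-dimensional test functions

The facets never appear: a translation of the polytope is compared with radial dilations of its
cone pieces, and the derivative of the resulting inequality at zero is an identity.
-/

namespace Vale.Agent.P237N

open MeasureTheory Set Metric Filter Topology Vale.Agent.P237 Vale.Agent.P237R Vale.Agent.P237U
open scoped RealInnerProductSpace ENNReal Pointwise

variable {N n j : ℕ}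

lemma hasDerivAt_setIntegral {X : Type} [TopologicalSpace X] [MeasurableSpace X]
    [OpensMeasurableSpace X] {μ : Measure X} [IsFiniteMeasureOnCompacts μ] {K S : Set X}
    (hK : IsCompact K) (hKm : MeasurableSet K) (hSK : S ⊆ K) (hS : MeasurableSet S) (hSt : μ S ≠ ⊤) {φ φ' : ℝ → X → ℝ} (s₀ : ℝ)
    (hφ : Continuous fun p : ℝ × X => φ p.1 p.2) (hφ' : Continuous fun p : ℝ × X => φ' p.1 p.2)
    (hd : ∀ s x, HasDerivAt (fun t => φ t x) (φ' s x) s) :
    HasDerivAt (fun s => ∫ x in S, φ s x ∂μ) (∫ x in S, φ' s₀ x ∂μ) s₀ := by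
  obtain ⟨C, hC⟩ := ((isCompact_closedBall s₀ 1).prod hK).exists_bound_of_continuousOn hφ'.continuousOn
  refine (hasDerivAt_integral_of_dominated_loc_of_deriv_le (μ := μ.restrict S)
    (F := fun s x => φ s x) (F' := fun s x => φ' s x) (bound := fun _ => C)
    (closedBall_mem_nhds s₀ one_pos) ?_ ?_ ?_ ?_ ?_ ?_).2
  · exact Eventually.of_forall fun s =>
      (hφ.comp (by fun_prop : Continuous fun x : X => (s, x))).aestronglyMeasurable
  · refine (ContinuousOn.integrableOn_compact' hK hKm ?_).mono_set hSK
    exact (hφ.comp (by fun_prop : Continuous fun x : X => (s₀, x))).continuousOn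
  · exact (hφ'.comp (by fun_prop : Continuous fun x : X => (s₀, x))).aestronglyMeasurable
  · filter_upwards [ae_restrict_mem hS] with x hx s hs using hC (s, x) ⟨hs, hSK hx⟩
  · exact integrableOn_const hSt
  · exact Eventually.of_forall fun x s _ => hd s x

lemma smul_conePiece_subset (u : Fin N → EuclideanSpace ℝ (Fin n)) (b : Fin N → ℝ)
    (hb : ∀ i, 0 < b i) (i : Fin N) {l : ℝ} (hl : 0 < l) (hl1 : l ≤ 1) :
    l • conePiece u b i ⊆ conePiece u b i := by
  rintro _ ⟨x, hx, rfl⟩
  refine ⟨fun k => ?_, fun k => ?_⟩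
  · rw [real_inner_smul_right]
    rcases le_or_gt 0 ⟪u k, x⟫ with h | h
    · exact (mul_le_of_le_one_left h hl1).trans (hx.1 k)
    · exact (mul_nonpos_of_nonneg_of_nonpos hl.le h.le).trans (hb k).le
  · simp only [real_inner_smul_right, mul_div_assoc]
    exact ⟨mul_le_mul_of_nonneg_left (hx.2 k).1 hl.le,
      fun hk => mul_lt_mul_of_pos_left ((hx.2 k).2 hk) hl⟩

variable (u : Fin N → EuclideanSpace ℝ (Fin (j + 1 + 1))) (b : Fin N → ℝ)

/-- The homogeneous average of `g` over the facet `i`. -/
noncomputable def facetAvg (g : ℝ → ℝ) (i : Fin N) : ℝ :=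
  ∫ x in conePiece u b i, (((j + 1 + 1 : ℕ) : ℝ) * g (x 0) + x 0 * deriv g (x 0))

variable {u b}

lemma integrableOn_conePiece (hK : IsCompact (polyH u b)) (i : Fin N)
    {f : EuclideanSpace ℝ (Fin (j + 1 + 1)) → ℝ} (hf : Continuous f) :
    IntegrableOn f (conePiece u b i) :=
  (hf.continuousOn.integrableOn_compact hK).mono_set fun _ hx => hx.1

lemma hasDerivAt_dilate (hK : IsCompact (polyH u b)) (i : Fin N) {g : ℝ → ℝ} (hg : ContDiff ℝ 1 g)
    (q s : ℝ) :
    HasDerivAt (fun t => ∫ x in conePiece u b i, (1 + t * q) ^ (j + 1 + 1) * g ((1 + t * q) * x 0))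
      (∫ x in conePiece u b i,
        (((j + 1 + 1 : ℕ) : ℝ) * (1 + s * q) ^ (j + 1) * q * g ((1 + s * q) * x 0)
          + (1 + s * q) ^ (j + 1 + 1) * (deriv g ((1 + s * q) * x 0) * (q * x 0)))) s := by
  have hc := hg.continuous
  have hc' := hg.continuous_deriv_one
  refine hasDerivAt_setIntegral hK hK.measurableSet (fun _ hx => hx.1) (measurableSet_conePiece u b i)
    ((measure_mono fun _ hx => hx.1).trans_lt hK.measure_lt_top).ne
    (φ := fun t x => (1 + t * q) ^ (j + 1 + 1) * g ((1 + t * q) * x 0))
    (φ' := fun t x => ((j + 1 + 1 : ℕ) : ℝ) * (1 + t * q) ^ (j + 1) * q * g ((1 + t * q) * x 0)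
          + (1 + t * q) ^ (j + 1 + 1) * (deriv g ((1 + t * q) * x 0) * (q * x 0)))
    s (by fun_prop) (by fun_prop) fun t x => ?_
  have h1 : HasDerivAt (fun t : ℝ => 1 + t * q) q t := by
    simpa using ((hasDerivAt_id t).mul_const q).const_add 1
  have h2 : HasDerivAt (fun t : ℝ => g ((1 + t * q) * x 0))
      (deriv g ((1 + t * q) * x 0) * (q * x 0)) t :=
    ((hg.differentiable one_ne_zero) _).hasDerivAt.comp t (h1.mul_const (x 0))
  exact ((h1.fun_pow (j + 1 + 1)).fun_mul h2).congr_deriv (by simp only [Nat.add_sub_cancel])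

lemma facetAvg_nonneg (hb : ∀ i, 0 < b i) (hK : IsCompact (polyH u b)) (i : Fin N) {g : ℝ → ℝ}
    (hg : ContDiff ℝ 1 g) (hg0 : ∀ t, 0 ≤ g t) : 0 ≤ facetAvg u b g i := by
  set F : ℝ → ℝ := fun t =>
    ∫ x in conePiece u b i, (1 + t * 1) ^ (j + 1 + 1) * g ((1 + t * 1) * x 0) with hF
  have hd : HasDerivAt F (facetAvg u b g i) 0 := by
    refine (hasDerivAt_dilate hK i hg 1 0).congr_deriv ?_
    simp only [facetAvg, add_zero, one_pow, mul_one, one_mul]
    exact setIntegral_congr_fun (measurableSet_conePiece u b i) fun x _ => by ring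
  have hmono : ∀ t ∈ Ioo (-1 : ℝ) 0, F t ≤ F 0 := by
    intro t ht
    have hl : 0 < 1 + t := by linarith [ht.1]
    have hcont : Continuous fun x : EuclideanSpace ℝ (Fin (j + 1 + 1)) => g (x 0) :=
      hg.continuous.comp continuous_height
    calc F t = (1 + t) ^ (j + 1 + 1) * ∫ x in conePiece u b i, g ((((1 + t) • x : _)) 0) := by
          rw [hF, ← integral_const_mul]
          simp only [mul_one, PiLp.smul_apply, smul_eq_mul]
      _ = ∫ x in (1 + t) • conePiece u b i, g (x 0) := by
          rw [Measure.setIntegral_comp_smul_of_pos volume (fun x => g (x 0)) (conePiece u b i) hl,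
            finrank_euclideanSpace_fin, smul_eq_mul, ← mul_assoc,
            mul_inv_cancel₀ (pow_ne_zero _ hl.ne'), one_mul]
      _ ≤ ∫ x in conePiece u b i, g (x 0) :=
          setIntegral_mono_set (integrableOn_conePiece hK i hcont)
            (Eventually.of_forall fun x => hg0 _)
            (Eventually.of_forall (smul_conePiece_subset u b hb i hl (by linarith [ht.2])))
      _ = F 0 := by simp [hF]
  refine ge_of_tendsto (hd.tendsto_slope.mono_left
    (nhdsWithin_mono 0 (fun t ht => ne_of_lt ht : Iio (0 : ℝ) ⊆ {0}ᶜ))) ?_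
  filter_upwards [self_mem_nhdsWithin, nhdsWithin_le_nhds (eventually_gt_nhds (by norm_num : (-1 : ℝ) < 0))]
    with t ht ht'
  rw [slope_def_field, div_nonneg_iff]
  exact Or.inr ⟨by linarith [hmono t ⟨ht', ht⟩], by linarith [mem_Iio.1 ht]⟩

/-- A translation of the polytope is no larger than the dilated cone pieces. -/
lemma translate_le [NeZero N] (hb : ∀ i, 0 < b i) (hK : IsCompact (polyH u b)) {g : ℝ → ℝ}
    (hg : Continuous g) (hg0 : ∀ t, 0 ≤ g t) {s : ℝ} (hs : ∀ i, 0 < 1 + s * (u i 0 / b i)) :
    ∫ x in polyH u b, g (x 0 + s) ≤ ∑ i, ∫ x in conePiece u b i,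
      (1 + s * (u i 0 / b i)) ^ (j + 1 + 1) * g ((1 + s * (u i 0 / b i)) * x 0) := by
  classical
  set c : Fin N → ℝ := fun i => 1 + s * (u i 0 / b i) with hc
  have hcont : Continuous fun x : EuclideanSpace ℝ (Fin (j + 1 + 1)) => g (x 0) :=
    hg.comp continuous_height
  have hint : ∀ i, IntegrableOn (fun x : EuclideanSpace ℝ (Fin (j + 1 + 1)) => g (x 0))
      (c i • conePiece u b i) := fun i =>
    (hcont.continuousOn.integrableOn_compact (hK.smul (c i))).mono_set
      (smul_set_mono fun _ hx => hx.1)
  have hms : ∀ i, MeasurableSet (c i • conePiece u b i) := fun i =>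
    (measurableSet_conePiece u b i).const_smul₀ _
  set v := s • e0 (j + 1) with hv
  have him : (fun x => x + v) '' polyH u b ⊆ ⋃ i, c i • conePiece u b i := by
    rintro _ ⟨x, hx, rfl⟩
    set y := x + v with hy
    have hyb : ∀ k, ⟪u k, y⟫ ≤ c k * b k := fun k => by
      have h0 : ⟪u k, v⟫ = s * u k 0 := by
        rw [hv, real_inner_smul_right, real_inner_comm]
        simp [e0, EuclideanSpace.inner_single_left]
      have := (hb k).ne'
      rw [hy, inner_add_right, h0, hc]
      have e : (1 + s * (u k 0 / b k)) * b k = b k + s * u k 0 := by field_simp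
      linarith [hx k]
    obtain ⟨i, hi⟩ := exists_firstMax (fun k => ⟪u k, y⟫ / b k)
    have hfi : ⟪u i, y⟫ / b i ≤ c i := (div_le_iff₀ (hb i)).2 (hyb i)
    refine mem_iUnion.2 ⟨i, (c i)⁻¹ • y, ⟨fun k => ?_, fun k => ?_⟩, ?_⟩
    · have h1 : ⟪u k, y⟫ / b k ≤ c i := ((hi k).1).trans hfi
      rw [div_le_iff₀ (hb k)] at h1
      rw [real_inner_smul_right, inv_mul_le_iff₀ (hs i)]
      exact h1
    · simp only [real_inner_smul_right, mul_div_assoc]
      exact ⟨mul_le_mul_of_nonneg_left (hi k).1 (inv_nonneg.2 (hs i).le),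
        fun hk => mul_lt_mul_of_pos_left ((hi k).2 hk) (inv_pos.2 (hs i))⟩
    · change c i • (c i)⁻¹ • y = y
      rw [smul_smul, mul_inv_cancel₀ (show c i ≠ 0 from (hs i).ne'), one_smul]
  have hmi : MeasurableSet ((fun x => x + v) '' polyH u b) :=
    (hK.image (continuous_add_const v)).measurableSet
  calc ∫ x in polyH u b, g (x 0 + s)
      = ∫ x in (fun x => x + v) '' polyH u b, g (x 0) := by
        rw [(measurePreserving_add_right volume v).setIntegral_image_emb
          (Homeomorph.addRight v).measurableEmbedding]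
        refine setIntegral_congr_fun hK.measurableSet fun x _ => ?_
        simp [hv, e0]
    _ = ∫ x, ((fun x => x + v) '' polyH u b).indicator (fun x => g (x 0)) x :=
        (integral_indicator hmi).symm
    _ ≤ ∫ x, ∑ i, (c i • conePiece u b i).indicator (fun x => g (x 0)) x := by
        refine integral_mono_of_nonneg (Eventually.of_forall fun x => indicator_nonneg (fun y _ => hg0 _) x)
          (integrable_finsetSum _ fun i _ => (integrable_indicator_iff (hms i)).2 (hint i))
          (Eventually.of_forall fun x => ?_)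
        by_cases hx : x ∈ (fun x => x + v) '' polyH u b
        · obtain ⟨i, hi⟩ := mem_iUnion.1 (him hx)
          show _ ≤ ∑ k, _
          rw [indicator_of_mem hx]
          refine le_trans (le_of_eq (indicator_of_mem hi (fun x : EuclideanSpace ℝ (Fin (j + 1 + 1)) => g (x 0))).symm) (Finset.single_le_sum
            (f := fun k => (c k • conePiece u b k).indicator (fun x => g (x 0)) x)
            (fun k _ => indicator_nonneg (fun y _ => hg0 _) x) (Finset.mem_univ i))
        · show _ ≤ ∑ k, _
          rw [indicator_of_notMem hx]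
          exact Finset.sum_nonneg fun k _ => indicator_nonneg (fun y _ => hg0 _) x
    _ = ∑ i, ∫ x in c i • conePiece u b i, g (x 0) := by
        rw [integral_finsetSum _ fun i _ => (integrable_indicator_iff (hms i)).2 (hint i)]
        exact Finset.sum_congr rfl fun i _ => integral_indicator (hms i)
    _ = _ := by
        refine Finset.sum_congr rfl fun i _ => ?_
        have h := Measure.setIntegral_comp_smul_of_pos volume (fun x : EuclideanSpace ℝ (Fin (j + 1 + 1)) => g (x 0))
          (conePiece u b i) (hs i)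
        simp only [PiLp.smul_apply, smul_eq_mul, finrank_euclideanSpace_fin] at h
        rw [integral_const_mul, h, ← mul_assoc, mul_inv_cancel₀ (pow_ne_zero _ (hs i).ne'), one_mul]

lemma sum_setIntegral_conePiece [NeZero N] (hK : IsCompact (polyH u b))
    {f : EuclideanSpace ℝ (Fin (j + 1 + 1)) → ℝ} (hf : Continuous f) :
    ∑ i, ∫ x in conePiece u b i, f x = ∫ x in polyH u b, f x := by
  have hU : polyH u b = ⋃ i, conePiece u b i := by
    refine subset_antisymm (fun x hx => ?_) (iUnion_subset fun i x hx => hx.1)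
    obtain ⟨i, hi⟩ := exists_firstMax (fun k => ⟪u k, x⟫ / b k)
    exact mem_iUnion.2 ⟨i, hx, hi⟩
  rw [hU]
  refine (integral_iUnion_fintype (fun i => measurableSet_conePiece u b i) ?_
    fun i => integrableOn_conePiece hK i hf).symm
  intro i k hik
  rw [Function.onFun, Set.disjoint_left]
  intro x hi hk
  rcases lt_or_gt_of_ne hik with h | h
  · exact lt_irrefl _ (((hk.2 i).2 h).trans_le (hi.2 k).1)
  · exact lt_irrefl _ (((hi.2 k).2 h).trans_le (hk.2 i).1)

/-- The divergence identity for a field parallel to the first axis. -/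
lemma facetAvg_identity [NeZero N] (hb : ∀ i, 0 < b i) (hK : IsCompact (polyH u b)) {g : ℝ → ℝ}
    (hg : ContDiff ℝ 1 g) (hg0 : ∀ t, 0 ≤ g t) :
    ∑ i, u i 0 / b i * facetAvg u b g i = ∫ x in polyH u b, deriv g (x 0) := by
  have hc := hg.continuous
  have hc' := hg.continuous_deriv_one
  set h : ℝ → ℝ := fun s => (∑ i, ∫ x in conePiece u b i,
      (1 + s * (u i 0 / b i)) ^ (j + 1 + 1) * g ((1 + s * (u i 0 / b i)) * x 0))
      - ∫ x in polyH u b, g (x 0 + s) with hh
  have hd1 : HasDerivAt (fun s => ∫ x in polyH u b, g (x 0 + s))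
      (∫ x in polyH u b, deriv g (x 0 + 0)) 0 :=
    hasDerivAt_setIntegral hK hK.measurableSet subset_rfl hK.measurableSet hK.measure_lt_top.ne
      (φ := fun s x => g (x 0 + s)) (φ' := fun s x => deriv g (x 0 + s)) 0 (by fun_prop) (by fun_prop)
      fun s x => (((hg.differentiable one_ne_zero) _).hasDerivAt.comp s
        ((hasDerivAt_id s).const_add (x 0))).congr_deriv (mul_one _)
  have hd : HasDerivAt h ((∑ i, u i 0 / b i * facetAvg u b g i)
      - ∫ x in polyH u b, deriv g (x 0)) 0 := by
    simp only [add_zero] at hd1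
    refine (HasDerivAt.fun_sum fun i _ => ?_).fun_sub hd1
    refine (hasDerivAt_dilate hK i hg (u i 0 / b i) 0).congr_deriv ?_
    rw [facetAvg, ← integral_const_mul]
    refine setIntegral_congr_fun (measurableSet_conePiece u b i) fun x _ => ?_
    simp only [zero_mul, add_zero, one_pow, mul_one, one_mul]
    ring
  have h0 : h 0 = 0 := by
    simp only [hh, zero_mul, add_zero, one_pow, one_mul]
    rw [sum_setIntegral_conePiece hK (f := fun x => g (x 0)) (hc.comp continuous_height), sub_self]
  have hmin : IsLocalMin h 0 := by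
    have hev : ∀ᶠ s in 𝓝 (0 : ℝ), ∀ i, 0 < 1 + s * (u i 0 / b i) := by
      refine eventually_all.2 fun i => ?_
      have := (by fun_prop : Continuous fun s : ℝ => 1 + s * (u i 0 / b i)).tendsto 0
      simp only [zero_mul, add_zero] at this
      exact this.eventually (eventually_gt_nhds one_pos)
    filter_upwards [hev] with s hs
    rw [h0]
    exact sub_nonneg.2 (translate_le hb hK hc hg0 hs)
  linarith [hmin.hasDerivAt_eq_zero hd]

/-- The boundary Fisher form in the first direction dominates every one-dimensional test. -/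
theorem fisher_ge [NeZero N] (hb : ∀ i, 0 < b i) (hK : IsCompact (polyH u b)) {a : ℝ → ℝ}
    (ha : ContDiff ℝ 1 a) :
    ∫ x in polyH u b, (2 * deriv a (x 0) - ((j + 1 + 1 : ℕ) : ℝ) * a (x 0) ^ 2
        - 2 * x 0 * a (x 0) * deriv a (x 0))
      ≤ ∑ i, fisherWt u b i * u i 0 ^ 2 := by
  have hc := ha.continuous
  have hc' := ha.continuous_deriv_one
  set q : Fin N → ℝ := fun i => u i 0 / b i with hq
  set J : Fin N → ℝ := fun i => facetAvg u b a i with hJ
  set D : Fin N → ℝ := fun i => facetAvg u b (fun t => a t ^ 2) i with hD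
  have hd : ∀ (k c : ℝ) (t : ℝ), deriv (fun t => (k * a t + c) ^ 2) t
      = 2 * (k * a t + c) * (k * deriv a t) := fun k c t => by
    have h := ((((ha.differentiable one_ne_zero) t).hasDerivAt.const_mul k).add_const c).fun_pow 2
    rw [h.deriv]
    simp
  have hexp : ∀ (k c : ℝ) (i : Fin N), facetAvg u b (fun t => (k * a t + c) ^ 2) i
      = k ^ 2 * D i + 2 * k * c * J i + ((j + 1 + 1 : ℕ) : ℝ) * c ^ 2 * coneVol u b i := by
    intro k c i
    simp only [hD, hJ, facetAvg, hd]
    have e : ∀ x : EuclideanSpace ℝ (Fin (j + 1 + 1)),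
        deriv (fun t => a t ^ 2) (x 0) = 2 * a (x 0) * deriv a (x 0) := fun x => by
      have := hd 1 0 (x 0)
      simpa using this
    simp only [e]
    rw [coneVol, ← integral_const_mul, ← integral_const_mul, ← measureReal_def, mul_comm _ (volume.real _),
      ← smul_eq_mul (volume.real _), ← setIntegral_const,
      ← integral_add (integrableOn_conePiece hK i (by fun_prop)) (integrableOn_conePiece hK i (by fun_prop)),
      ← integral_add (integrableOn_conePiece hK i (by fun_prop))
        (integrableOn_const ((measure_mono fun _ hx => hx.1).trans_lt hK.measure_lt_top).ne)]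
    exact setIntegral_congr_fun (measurableSet_conePiece u b i) fun x _ => by ring
  have hsq : ∀ c : ℝ, ContDiff ℝ 1 fun t => (1 * a t + c) ^ 2 := fun c => by fun_prop
  have hpos : ∀ i, 2 * q i * J i - D i ≤ fisherWt u b i * u i 0 ^ 2 := by
    intro i
    have h := facetAvg_nonneg hb hK i (hsq (-q i)) fun t => sq_nonneg _
    rw [hexp] at h
    have e : fisherWt u b i * u i 0 ^ 2 = ((j + 1 + 1 : ℕ) : ℝ) * (-q i) ^ 2 * coneVol u b i := by
      rw [fisherWt, hq]; ring
    linarith
  have hderiv : ∀ c : ℝ, ∫ x in polyH u b, deriv (fun t => (1 * a t + c) ^ 2) (x 0)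
      = ∫ x in polyH u b, 2 * (a (x 0) + c) * deriv a (x 0) :=
    fun c => setIntegral_congr_fun hK.measurableSet fun x _ => by rw [hd]; ring
  have hid : ∑ i, q i * J i = ∫ x in polyH u b, deriv a (x 0) := by
    have h1 := facetAvg_identity hb hK (hsq 1) fun t => sq_nonneg _
    have h2 := facetAvg_identity hb hK (hsq (-1)) fun t => sq_nonneg _
    rw [hderiv] at h1 h2
    simp only [hexp] at h1 h2
    have h3 := congrArg₂ (· - ·) h1 h2
    rw [← Finset.sum_sub_distrib, ← integral_sub
      ((Continuous.continuousOn (by fun_prop)).integrableOn_compact hK)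
      ((Continuous.continuousOn (by fun_prop)).integrableOn_compact hK)] at h3
    have e1 : ∀ i : Fin N, u i 0 / b i * (1 ^ 2 * D i + 2 * 1 * 1 * J i
        + ((j + 1 + 1 : ℕ) : ℝ) * 1 ^ 2 * coneVol u b i)
        - u i 0 / b i * (1 ^ 2 * D i + 2 * 1 * (-1) * J i
        + ((j + 1 + 1 : ℕ) : ℝ) * (-1) ^ 2 * coneVol u b i) = 4 * (q i * J i) := fun i => by
      simp only [hq]; ring
    have e2 : ∀ x : EuclideanSpace ℝ (Fin (j + 1 + 1)),
        2 * (a (x 0) + 1) * deriv a (x 0) - 2 * (a (x 0) + -1) * deriv a (x 0)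
          = 4 * deriv a (x 0) := fun x => by ring
    simp only [e1, e2, ← Finset.mul_sum, integral_const_mul] at h3
    linarith
  have hDsum : ∑ i, D i = ∫ x in polyH u b,
      (((j + 1 + 1 : ℕ) : ℝ) * a (x 0) ^ 2 + 2 * x 0 * a (x 0) * deriv a (x 0)) := by
    rw [← sum_setIntegral_conePiece hK (by fun_prop)]
    refine Finset.sum_congr rfl fun i _ => ?_
    simp only [hD, facetAvg]
    refine setIntegral_congr_fun (measurableSet_conePiece u b i) fun x _ => ?_
    have := hd 1 0 (x 0)
    simp only [one_mul, add_zero] at this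
    rw [this]; ring
  calc _ = 2 * ∑ i, q i * J i - ∑ i, D i := by
        rw [hid, hDsum, ← integral_const_mul, ← integral_sub
          ((Continuous.continuousOn (by fun_prop)).integrableOn_compact hK)
          ((Continuous.continuousOn (by fun_prop)).integrableOn_compact hK)]
        exact setIntegral_congr_fun hK.measurableSet fun x _ => by ring
    _ = ∑ i, (2 * q i * J i - D i) := by
        rw [Finset.sum_sub_distrib, Finset.mul_sum]
        simp [mul_assoc]
    _ ≤ _ := Finset.sum_le_sum fun i _ => hpos i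

/-- Integrals of functions of the height as integrals over the heights. -/
lemma setIntegral_height_fun {m : ℕ} {K : Set (EuclideanSpace ℝ (Fin (m + 1)))} (hK : IsCompact K)
    (hne : K.Nonempty) {G : ℝ → ℝ} (hG : Continuous G) :
    ∫ x in K, G (x 0) = ∫ t in (sLo K)..(sHi K), G t * sv K t := by
  have hf : IntegrableOn (fun x : EuclideanSpace ℝ (Fin (m + 1)) => G (x 0)) K :=
    (hG.comp continuous_height).continuousOn.integrableOn_compact hK
  have hI : Integrable (K.indicator fun x => G (x 0)) volume :=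
    (integrable_indicator_iff hK.measurableSet).2 hf
  obtain ⟨p, hp, hp0⟩ := exists_lo hK hne
  have hle : sLo K ≤ sHi K := by
    have := height_mem hK hp
    linarith [this.1, this.2]
  rw [← integral_indicator hK.measurableSet]
  have hmp := measurePreserving_econs m
  rw [← hmp.map_eq, integral_map hmp.measurable.aemeasurable (by rw [hmp.map_eq]; exact hI.aestronglyMeasurable)]
  rw [integral_prod (fun z : ℝ × EuclideanSpace ℝ (Fin m) => K.indicator (fun x => G (x 0)) (econs z.1 z.2))
    (hmp.integrable_comp_of_integrable hI), intervalIntegral.integral_of_le hle,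
    ← integral_Icc_eq_integral_Ioc, ← integral_indicator measurableSet_Icc]
  refine integral_congr_ae (Eventually.of_forall fun t => ?_)
  have e : (fun y : EuclideanSpace ℝ (Fin m) => K.indicator (fun x => G (x 0)) (econs t y))
      = (slice K t).indicator fun _ => G t := by
    funext y
    by_cases hy : econs t y ∈ K
    · rw [indicator_of_mem hy, indicator_of_mem (show y ∈ slice K t from hy), econs_apply_zero]
    · rw [indicator_of_notMem hy, indicator_of_notMem (show y ∉ slice K t from hy)]
  show ∫ y, K.indicator (fun x => G (x 0)) (econs t y) = _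
  rw [e, integral_indicator (isCompact_slice hK t).measurableSet, setIntegral_const, smul_eq_mul,
    measureReal_def]
  by_cases ht : t ∈ Icc (sLo K) (sHi K)
  · rw [indicator_of_mem ht, sv, mul_comm]
  · rw [indicator_of_notMem ht, slice_empty hK ht]
    simp

/-- The test bound in slice form. -/
theorem fisher_ge_slices [NeZero N] (hb : ∀ i, 0 < b i) (hK : IsCompact (polyH u b)) {a : ℝ → ℝ}
    (ha : ContDiff ℝ 1 a) :
    ∫ t in (sLo (polyH u b))..(sHi (polyH u b)), (2 * deriv a t
        - ((j + 1 + 1 : ℕ) : ℝ) * a t ^ 2 - 2 * t * a t * deriv a t) * sv (polyH u b) t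
      ≤ ∑ i, fisherWt u b i * u i 0 ^ 2 := by
  have hc := ha.continuous
  have hc' := ha.continuous_deriv_one
  rw [← setIntegral_height_fun (G := fun t => 2 * deriv a t - ((j + 1 + 1 : ℕ) : ℝ) * a t ^ 2
      - 2 * t * a t * deriv a t) hK ⟨0, fun i => by simpa using (hb i).le⟩ (by fun_prop)]
  exact fisher_ge hb hK ha

end Vale.Agent.P237N
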