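import Vale.Agent.P237N.Step

/-!
# The position balancing second moments against the boundary Fisher information
-/

namespace Vale.Agent.P237N

open MeasureTheory Set Metric Filter Topology Vale.Agent.P237 Vale.Agent.P237R Vale.Agent.P237U
open scoped RealInnerProductSpace ENNReal Pointwise Matrix

variable {N n : ℕ}

lemma trace_transvection (X : Matrix (Fin n) (Fin n) ℝ) (j k : Fin n) (s : ℝ) :
    ((1 + Matrix.single j k s) * X * (1 + Matrix.single j k s)ᵀ).trace
      = X.trace + s * (X k j + X j k) + s ^ 2 * X k k := by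
  have h1 : ∀ Y : Matrix (Fin n) (Fin n) ℝ, (Matrix.single j k s * Y).trace = s * Y k j := fun Y => by
    rw [Matrix.trace]
    rw [Finset.sum_eq_single j (fun a _ ha => by simp [Matrix.diag, ha])
      (fun h => absurd (Finset.mem_univ j) h)]
    simp [Matrix.diag]
  have h2 : ∀ Y : Matrix (Fin n) (Fin n) ℝ, (Y * Matrix.single k j s).trace = s * Y j k := fun Y => by
    rw [Matrix.trace_mul_comm]
    rw [Matrix.trace]
    rw [Finset.sum_eq_single k (fun a _ ha => by simp [Matrix.diag, ha])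
      (fun h => absurd (Finset.mem_univ k) h)]
    simp [Matrix.diag]
  rw [Matrix.transpose_add, Matrix.transpose_one, Matrix.transpose_single]
  simp only [add_mul, mul_add, one_mul, mul_one, Matrix.trace_add, h1, h2,
    Matrix.single_mul_apply_same]
  ring

lemma trace_diag_conj (X : Matrix (Fin n) (Fin n) ℝ) (d : Fin n → ℝ) :
    (Matrix.diagonal d * X * Matrix.diagonal d).trace = ∑ a, d a ^ 2 * X a a := by
  refine Finset.sum_congr rfl fun a _ => ?_
  rw [Matrix.diag, Matrix.mul_diagonal, Matrix.diagonal_mul]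
  ring

lemma adjugate_eq {A B : Matrix (Fin n) (Fin n) ℝ} (hA : A.det = 1) (h : A * B = 1) :
    A.adjugate = B :=
  left_inv_eq_right_inv (by rw [Matrix.adjugate_mul, hA, one_smul]) h

/-- The linearised trace minimisation of a positive form against a nonnegative one. -/
theorem exists_stationary (hn : 0 < n) (M Q : Matrix (Fin n) (Fin n) ℝ) (hMs : Mᵀ = M)
    (hQs : Qᵀ = Q) (hM : ∀ v : Fin n → ℝ, v ≠ 0 → 0 < v ⬝ᵥ M *ᵥ v)
    (hQ : ∀ v : Fin n → ℝ, 0 ≤ v ⬝ᵥ Q *ᵥ v) {β : ℝ} (hβ : 0 ≤ β) :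
    ∃ (T : Matrix (Fin n) (Fin n) ℝ) (c : ℝ), T.det = 1 ∧
      T * M * Tᵀ - β • (T.adjugateᵀ * Q * T.adjugate) = c • 1 := by
  classical
  let φ : Matrix (Fin n) (Fin n) ℝ → ℝ := fun T =>
    (T * M * Tᵀ).trace + β * (T.adjugateᵀ * Q * T.adjugate).trace
  have hφc : Continuous φ := by fun_prop
  obtain ⟨m, hm, hmle⟩ : ∃ m > 0, ∀ v : Fin n → ℝ, m * ‖v‖ ^ 2 ≤ v ⬝ᵥ M *ᵥ v := by
    have hc : Continuous fun v : Fin n → ℝ => v ⬝ᵥ M *ᵥ v := by fun_prop
    have hne : (sphere (0 : Fin n → ℝ) 1).Nonempty := by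
      refine ⟨Pi.single ⟨0, hn⟩ 1, ?_⟩
      simp [Pi.norm_single]
    obtain ⟨v0, hv0, hmin⟩ := (isCompact_sphere (0 : Fin n → ℝ) 1).exists_isMinOn hne hc.continuousOn
    refine ⟨_, hM v0 (fun h => by simp [h] at hv0), fun v => ?_⟩
    rcases eq_or_ne v 0 with rfl | hv
    · simp
    have h := hmin (show ‖v‖⁻¹ • v ∈ sphere (0 : Fin n → ℝ) 1 by simp [norm_smul, hv])
    simp only [mem_ofPred_eq, smul_dotProduct, Matrix.mulVec_smul, dotProduct_smul, smul_eq_mul] at h
    have hp : 0 < ‖v‖ := norm_pos_iff.2 hv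
    field_simp at h
    linarith
  have hrow : ∀ T : Matrix (Fin n) (Fin n) ℝ, ∀ a, (T * M * Tᵀ) a a = T a ⬝ᵥ M *ᵥ T a := by
    intro T a
    rw [Matrix.mul_assoc, Matrix.mul_apply]
    refine Finset.sum_congr rfl fun k _ => ?_
    rw [Matrix.mul_apply]
    rfl
  have hQnn : ∀ A : Matrix (Fin n) (Fin n) ℝ, 0 ≤ (Aᵀ * Q * A).trace := fun A =>
    Finset.sum_nonneg fun a _ => by
      refine le_of_le_of_eq (hQ (fun k => A k a)) ?_
      rw [Matrix.diag, Matrix.mul_assoc, Matrix.mul_apply]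
      rfl
  set R := Real.sqrt (φ 1 / m) with hR
  set S := {T : Matrix (Fin n) (Fin n) ℝ | T.det = 1 ∧ φ T ≤ φ 1} with hS
  have hbox : S ⊆ Set.pi Set.univ fun _ : Fin n => Set.pi Set.univ fun _ : Fin n => Icc (-R) R := by
    rintro T ⟨-, hT⟩ a - b -
    have h1 : m * ‖T a‖ ^ 2 ≤ φ 1 := by
      refine (hmle (T a)).trans (le_trans ?_ hT)
      rw [← hrow]
      refine le_add_of_le_of_nonneg (Finset.single_le_sum (f := fun i => (T * M * Tᵀ) i i)
        (fun i _ => ?_) (Finset.mem_univ a)) (mul_nonneg hβ (hQnn _))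
      rw [hrow]
      exact (mul_nonneg hm.le (sq_nonneg _)).trans (hmle _)
    refine abs_le.1 ((norm_le_pi_norm (T a) b).trans ?_)
    rw [hR]
    refine Real.le_sqrt_of_sq_le ?_
    rw [le_div_iff₀ hm]
    linarith
  have hScpt : IsCompact S :=
    (isCompact_univ_pi fun _ => isCompact_univ_pi fun _ => isCompact_Icc).of_isClosed_subset
      ((isClosed_eq (by fun_prop) continuous_const).inter (isClosed_le hφc continuous_const)) hbox
  obtain ⟨T, hTS, hTmin⟩ := hScpt.exists_isMinOn ⟨1, Matrix.det_one, le_rfl⟩ hφc.continuousOn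
  set X := T * M * Tᵀ with hX
  set Y := T.adjugateᵀ * Q * T.adjugate with hY
  have key : ∀ A B : Matrix (Fin n) (Fin n) ℝ, A.det = 1 → A * B = 1 →
      X.trace + β * Y.trace ≤ (A * X * Aᵀ).trace + β * (Bᵀ * Y * B).trace := by
    intro A B hA hAB
    have h1 : φ (A * T) = (A * X * Aᵀ).trace + β * (Bᵀ * Y * B).trace := by
      simp only [φ, hX, hY, Matrix.transpose_mul, Matrix.adjugate_mul_distrib,
        adjugate_eq hA hAB, Matrix.mul_assoc]
    rw [← h1]
    by_cases h : φ (A * T) ≤ φ 1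
    · exact hTmin ⟨by rw [Matrix.det_mul, hA, hTS.1, one_mul], h⟩
    · exact hTS.2.trans (not_le.1 h).le
  have hXs : ∀ a b, X a b = X b a := fun a b => by
    have : Xᵀ = X := by rw [hX]; simp [Matrix.transpose_mul, hMs, Matrix.mul_assoc]
    exact (congrFun (congrFun this a) b).symm
  have hYs : ∀ a b, Y a b = Y b a := fun a b => by
    have : Yᵀ = Y := by rw [hY]; simp [Matrix.transpose_mul, hQs, Matrix.mul_assoc]
    exact (congrFun (congrFun this a) b).symm
  have hoff : ∀ a b, a ≠ b → X a b - β * Y a b = 0 := by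
    intro a b hab
    have hs : ∀ s : ℝ, 0 ≤ 2 * s * (X a b - β * Y a b) + s ^ 2 * (X b b + β * Y a a) := by
      intro s
      have hdet : (1 + Matrix.single a b s).det = 1 := Matrix.det_transvection_of_ne a b hab s
      have hinv : (1 + Matrix.single a b s) * (1 + Matrix.single a b (-s)) = 1 := by
        have h := Matrix.transvection_mul_transvection_same (h := hab) (c := s) (d := -s)
        simp only [Matrix.transvection, add_neg_cancel, Matrix.single_zero, add_zero] at h
        exact h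
      have h := key _ _ hdet hinv
      have e : ((1 + Matrix.single a b (-s))ᵀ * Y * (1 + Matrix.single a b (-s))).trace
          = Y.trace + -s * (Y a b + Y b a) + (-s) ^ 2 * Y a a := by
        rw [← trace_transvection Y b a (-s)]
        simp [Matrix.transpose_add]
      rw [trace_transvection, e, hXs b a, hYs b a] at h
      linarith
    by_contra hne
    set p := X a b - β * Y a b
    set q := X b b + β * Y a a
    have hq : 0 ≤ q := by
      have h1 := hs 1
      have h2 := hs (-1)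
      linarith
    have := hs (-p / (q + 1))
    field_simp at this
    nlinarith [sq_pos_of_ne_zero hne]
  have hdia : ∀ a b, a ≠ b → X a a - β * Y a a ≤ X b b - β * Y b b := by
    intro a b hab
    have hs : ∀ t : ℝ, 0 < t → 0 ≤ (t - 1) * (X a a + β * Y b b) + (t⁻¹ - 1) * (X b b + β * Y a a) := by
      intro t ht
      set d : Fin n → ℝ := fun i => if i = a then √t else if i = b then (√t)⁻¹ else 1 with hd
      have ht' : √t ≠ 0 := (Real.sqrt_pos.2 ht).ne'
      have hda : d a = √t := by simp [hd]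
      have hdb : d b = (√t)⁻¹ := by simp [hd, hab.symm]
      have hdo : ∀ i, i ≠ a ∧ i ≠ b → d i = 1 := fun i hi => by simp [hd, hi.1, hi.2]
      have hsum : ∀ (g : Fin n → ℝ), (∀ i, i ≠ a ∧ i ≠ b → g i = 0) → ∑ i, g i = g a + g b :=
        fun g hg => Finset.sum_eq_add_of_mem a b (Finset.mem_univ _) (Finset.mem_univ _) hab
          (fun i _ hi => hg i hi)
      have hdet : (Matrix.diagonal d).det = 1 := by
        rw [Matrix.det_diagonal, Finset.prod_eq_mul_of_mem a b (Finset.mem_univ _)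
          (Finset.mem_univ _) hab (fun i _ hi => hdo i hi), hda, hdb, mul_inv_cancel₀ ht']
      have hd0 : ∀ i, d i ≠ 0 := fun i => by
        simp only [hd]; split_ifs
        · exact ht'
        · exact inv_ne_zero ht'
        · exact one_ne_zero
      have hinv : Matrix.diagonal d * Matrix.diagonal (fun i => (d i)⁻¹) = 1 := by
        rw [Matrix.diagonal_mul_diagonal, ← Matrix.diagonal_one]
        congr 1
        funext i
        exact mul_inv_cancel₀ (hd0 i)
      have h := key _ _ hdet hinv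
      rw [Matrix.diagonal_transpose, Matrix.diagonal_transpose, trace_diag_conj, trace_diag_conj,
        ← sub_nonneg] at h
      refine h.trans (le_of_eq ?_)
      have e1 : ∑ i, d i ^ 2 * X i i - X.trace = (t - 1) * X a a + (t⁻¹ - 1) * X b b := by
        rw [Matrix.trace, ← Finset.sum_sub_distrib, hsum _ (fun i hi => by simp [hdo i hi]), hda, hdb,
          inv_pow, Real.sq_sqrt ht.le]
        simp only [Matrix.diag]; ring
      have e2 : ∑ i, (d i)⁻¹ ^ 2 * Y i i - Y.trace = (t⁻¹ - 1) * Y a a + (t - 1) * Y b b := by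
        rw [Matrix.trace, ← Finset.sum_sub_distrib, hsum _ (fun i hi => by simp [hdo i hi]), hda, hdb,
          inv_inv, inv_pow, Real.sq_sqrt ht.le]
        simp only [Matrix.diag]; ring
      linear_combination e1 + β * e2
    set p := X a a + β * Y b b
    set q := X b b + β * Y a a
    suffices p ≤ q by simp only [p, q] at this; linarith
    by_contra hpq
    push Not at hpq
    rcases le_or_gt q 0 with hq | hq
    · have := hs (1 / 2) (by norm_num)
      norm_num at this
      linarith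
    · have hp : 0 < p := hq.trans hpq
      have ht1 : 0 < 1 - (p - q) / (2 * p) := by
        have : (p - q) / (2 * p) < 1 := by rw [div_lt_one (by positivity)]; linarith
        linarith
      set t := 1 - (p - q) / (2 * p) with ht
      have h := mul_nonneg ht1.le (hs t ht1)
      have e : t * ((t - 1) * p + (t⁻¹ - 1) * q) = (t - 1) * (t * p - q) := by
        field_simp; ring
      rw [e] at h
      have e2 : t * p - q = (p - q) / 2 := by rw [ht]; field_simp; ring
      have e3 : t - 1 < 0 := by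
        have : 0 < (p - q) / (2 * p) := div_pos (by linarith) (by positivity)
        rw [ht]; linarith
      rw [e2] at h
      nlinarith
  refine ⟨T, X ⟨0, hn⟩ ⟨0, hn⟩ - β * Y ⟨0, hn⟩ ⟨0, hn⟩, hTS.1, ?_⟩
  ext a b
  rcases eq_or_ne a b with rfl | hab
  · rcases eq_or_ne a ⟨0, hn⟩ with rfl | h0
    · simp [hX, hY]
    · have h := le_antisymm (hdia a _ h0) (hdia _ a h0.symm)
      simpa using h
  · simpa [hab] using hoff a b hab

/-- The second moment matrix of a set. -/
noncomputable def momMat (K : Set (EuclideanSpace ℝ (Fin n))) : Matrix (Fin n) (Fin n) ℝ :=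
  fun k l => ∫ x in K, x k * x l

lemma momMat_quad {K : Set (EuclideanSpace ℝ (Fin n))} (hK : IsCompact K) (v : Fin n → ℝ) :
    v ⬝ᵥ momMat K *ᵥ v = ∫ x in K, ⟪WithLp.toLp 2 v, x⟫ ^ 2 := by
  have e : ∀ x : EuclideanSpace ℝ (Fin n), ⟪WithLp.toLp 2 v, x⟫ ^ 2
      = ∑ k, ∑ l, v k * v l * (x k * x l) := fun x => by
    rw [sq, PiLp.inner_apply, Finset.sum_mul_sum]
    refine Finset.sum_congr rfl fun k _ => Finset.sum_congr rfl fun l _ => ?_
    simp only [RCLike.inner_apply, conj_trivial]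
    ring
  have hint : ∀ k l, IntegrableOn (fun x : EuclideanSpace ℝ (Fin n) => v k * v l * (x k * x l)) K :=
    fun k l => (Continuous.continuousOn (by fun_prop)).integrableOn_compact hK
  simp only [e]
  rw [integral_finset_sum _ fun k _ => integrable_finset_sum _ fun l _ => hint k l]
  refine Finset.sum_congr rfl fun k _ => ?_
  rw [integral_finset_sum _ fun l _ => hint k l, Matrix.mulVec, dotProduct, Finset.mul_sum]
  refine Finset.sum_congr rfl fun l _ => ?_
  rw [integral_const_mul, momMat]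
  ring

lemma momMat_symm (K : Set (EuclideanSpace ℝ (Fin n))) : (momMat K)ᵀ = momMat K := by
  ext k l; simp [momMat, mul_comm]

lemma momMat_pos {K : Set (EuclideanSpace ℝ (Fin n))} (hK : IsCompact K)
    (hi : (interior K).Nonempty) (v : Fin n → ℝ) (hv : v ≠ 0) : 0 < v ⬝ᵥ momMat K *ᵥ v := by
  rw [momMat_quad hK]
  exact quad_pos hK hi (by simpa using hv)

variable {j : ℕ}

/-- The weight of a facet in the boundary Fisher form. -/
noncomputable def fisherWt (u : Fin N → EuclideanSpace ℝ (Fin (j + 1 + 1))) (b : Fin N → ℝ)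
    (i : Fin N) : ℝ :=
  ((j + 1 + 1 : ℕ) : ℝ) * coneVol u b i / b i ^ 2

/-- The Fisher matrix of a polytope. -/
noncomputable def fisherMat (u : Fin N → EuclideanSpace ℝ (Fin (j + 1 + 1))) (b : Fin N → ℝ) :
    Matrix (Fin (j + 1 + 1)) (Fin (j + 1 + 1)) ℝ :=
  fun k l => ∑ i, fisherWt u b i * (u i k * u i l)

lemma fisherMat_quad (u : Fin N → EuclideanSpace ℝ (Fin (j + 1 + 1))) (b : Fin N → ℝ)
    (v : Fin (j + 1 + 1) → ℝ) :
    v ⬝ᵥ fisherMat u b *ᵥ v = ∑ i, fisherWt u b i * ⟪u i, WithLp.toLp 2 v⟫ ^ 2 := by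
  simp only [dotProduct, Matrix.mulVec, fisherMat, Finset.mul_sum, Finset.sum_mul]
  rw [Finset.sum_congr rfl fun k _ => Finset.sum_comm, Finset.sum_comm]
  refine Finset.sum_congr rfl fun i _ => ?_
  rw [sq, PiLp.inner_apply, Finset.sum_mul_sum, Finset.mul_sum]
  refine Finset.sum_congr rfl fun k _ => ?_
  rw [Finset.mul_sum]
  refine Finset.sum_congr rfl fun l _ => ?_
  simp only [RCLike.inner_apply, conj_trivial]
  ring

lemma fisherMat_nonneg (u : Fin N → EuclideanSpace ℝ (Fin (j + 1 + 1))) (b : Fin N → ℝ)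
    (v : Fin (j + 1 + 1) → ℝ) : 0 ≤ v ⬝ᵥ fisherMat u b *ᵥ v := by
  rw [fisherMat_quad]
  exact Finset.sum_nonneg fun i _ => mul_nonneg
    (div_nonneg (mul_nonneg (Nat.cast_nonneg _) ENNReal.toReal_nonneg) (sq_nonneg _)) (sq_nonneg _)

lemma fisherMat_symm (u : Fin N → EuclideanSpace ℝ (Fin (j + 1 + 1))) (b : Fin N → ℝ) :
    (fisherMat u b)ᵀ = fisherMat u b := by
  ext k l
  show ∑ i, fisherWt u b i * (u i l * u i k) = ∑ i, fisherWt u b i * (u i k * u i l)
  simp_rw [mul_comm (u _ l)]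

/-- The normals of the image of a polytope under a matrix of determinant one. -/
noncomputable def imgNormals (u : Fin N → EuclideanSpace ℝ (Fin (j + 1 + 1)))
    (T : Matrix (Fin (j + 1 + 1)) (Fin (j + 1 + 1)) ℝ) : Fin N → EuclideanSpace ℝ (Fin (j + 1 + 1)) :=
  fun i => Matrix.toEuclideanLin T.adjugateᵀ (u i)

/-- The image under a stationary matrix has balanced moments. -/
lemma fisher_image [NeZero N] (u : Fin N → EuclideanSpace ℝ (Fin (j + 1 + 1))) (b : Fin N → ℝ)
    (hK : IsCompact (polyH u b)) (hs : ∀ x ∈ polyH u b, -x ∈ polyH u b) {β c : ℝ}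
    {T : Matrix (Fin (j + 1 + 1)) (Fin (j + 1 + 1)) ℝ} (hT : T.det = 1)
    (heq : T * momMat (polyH u b) * Tᵀ - β • (T.adjugateᵀ * fisherMat u b * T.adjugate) = c • 1) :
    IsCompact (polyH (imgNormals u T) b) ∧
      (∀ x ∈ polyH (imgNormals u T) b, -x ∈ polyH (imgNormals u T) b) ∧
      volume (polyH (imgNormals u T) b) = volume (polyH u b) ∧
      volume (zono (gens (imgNormals u T) b)) = volume (zono (gens u b)) ∧
      (∀ v, (∫ x in polyH (imgNormals u T) b, ⟪v, x⟫ ^ 2)
          - β * ∑ i, fisherWt (imgNormals u T) b i * ⟪imgNormals u T i, v⟫ ^ 2 = c * ‖v‖ ^ 2) ∧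
      ∃ T' : EuclideanSpace ℝ (Fin (j + 1 + 1)) →ₗ[ℝ] EuclideanSpace ℝ (Fin (j + 1 + 1)),
        |LinearMap.det T'| = 1 ∧ polyH (imgNormals u T) b = T' '' polyH u b := by
  classical
  set K := polyH u b with hKdef
  set Q := fisherMat u b
  have hQquad := fisherMat_quad u b
  set A := Matrix.toEuclideanLin T.adjugate with hA
  set B := Matrix.toEuclideanLin T with hB
  have hTA : T * T.adjugate = 1 := by rw [Matrix.mul_adjugate, hT, one_smul]
  have hAT : T.adjugate * T = 1 := by rw [Matrix.adjugate_mul, hT, one_smul]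
  have hBA : ∀ x, B (A x) = x := fun x => by
    simp [hA, hB, Matrix.toLpLin_apply, Matrix.mulVec_mulVec, hTA]
  have hAB : ∀ x, A (B x) = x := fun x => by
    simp [hA, hB, Matrix.toLpLin_apply, Matrix.mulVec_mulVec, hAT]
  have hdA : |LinearMap.det A| = 1 := by
    rw [hA, Matrix.toEuclideanLin_eq_toLin_orthonormal, LinearMap.det_toLin, Matrix.det_adjugate, hT,
      one_pow, abs_one]
  set w : Fin N → EuclideanSpace ℝ (Fin (j + 1 + 1)) := imgNormals u T with hw
  have hin : ∀ (S : Matrix (Fin (j + 1 + 1)) (Fin (j + 1 + 1)) ℝ) x y,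
      ⟪Matrix.toEuclideanLin Sᵀ x, y⟫ = ⟪x, Matrix.toEuclideanLin S y⟫ := fun S x y => by
    rw [← LinearMap.adjoint_inner_left, ← Matrix.toEuclideanLin_conjTranspose_eq_adjoint,
      Matrix.conjTranspose_eq_transpose_of_trivial]
  have h : ∀ i x, ⟪w i, x⟫ = ⟪u i, A x⟫ := fun i x => hin _ _ _
  have hwt : ∀ i, fisherWt w b i = fisherWt u b i := fun i => by
    rw [fisherWt, fisherWt, coneVol_map u w b A hdA h i]
  have himg : polyH w b = A ⁻¹' K := polyH_map u _ b A h
  have hwc : IsCompact (polyH w b) := isCompact_polyH_map u _ b A hdA h hK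
  refine ⟨hwc, ?_, volume_polyH_map u _ b A hdA h, ?_, fun v => ?_, B, ?_, ?_⟩
  rotate_right 2
  · rw [hB, Matrix.toEuclideanLin_eq_toLin_orthonormal, LinearMap.det_toLin, hT, abs_one]
  · rw [himg]
    ext x
    exact ⟨fun hx => ⟨A x, hx, hBA x⟩, by rintro ⟨y, hy, rfl⟩; simpa [hAB] using hy⟩
  · rw [himg]; intro x hx
    simpa [map_neg] using hs _ hx
  · have e : zono (gens w b) = LinearMap.adjoint A '' zono (gens u b) := by
      rw [image_zono]
      congr 1
      funext i
      simp only [gens, map_smul]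
      rw [coneVol_map u w b A hdA h i]
      congr 1
      refine ext_inner_right ℝ fun x => ?_
      rw [h, LinearMap.adjoint_inner_left]
    rw [e, Measure.addHaar_image_linearMap, det_adjoint_eq, hdA, ENNReal.ofReal_one, one_mul]
  · have hdB : |LinearMap.det B| = 1 := by
      rw [hB, Matrix.toEuclideanLin_eq_toLin_orthonormal, LinearMap.det_toLin, hT, abs_one]
    have hne : LinearMap.det B ≠ 0 := fun h => by simp [h] at hdB
    have hmom : ∫ y in polyH w b, ⟪v, y⟫ ^ 2
        = ∫ x in K, ⟪Matrix.toEuclideanLin Tᵀ v, x⟫ ^ 2 := by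
      have hBi : polyH w b = B '' K := by
        rw [himg]
        ext x
        exact ⟨fun hx => ⟨A x, hx, hBA x⟩, by rintro ⟨y, hy, rfl⟩; simpa [hAB] using hy⟩
      rw [hBi]
      set Te := (LinearMap.equivOfDetNeZero B hne).toContinuousLinearEquiv with hTe
      have hme : MeasurableEmbedding
          (Te : EuclideanSpace ℝ (Fin (j + 1 + 1)) → EuclideanSpace ℝ (Fin (j + 1 + 1))) :=
        Te.toHomeomorph.measurableEmbedding
      have hmap : Measure.map Te volume
          = (volume : Measure (EuclideanSpace ℝ (Fin (j + 1 + 1)))) := by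
        change Measure.map B volume = _
        rw [Measure.map_linearMap_addHaar_eq_smul_addHaar _ hne, abs_inv, hdB, inv_one,
          ENNReal.ofReal_one, one_smul]
      change ∫ y in Te '' K, ⟪v, y⟫ ^ 2 = _
      conv_lhs => rw [← hmap]
      rw [hme.setIntegral_map, hme.injective.preimage_image]
      exact setIntegral_congr_fun hK.measurableSet fun x _ => by
        change ⟪v, B x⟫ ^ 2 = _
        rw [hin]
    have hq : ∀ i, ⟪w i, v⟫ ^ 2 = ⟪u i, A v⟫ ^ 2 := fun i => by rw [h]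
    have hMq : ∫ x in K, ⟪Matrix.toEuclideanLin Tᵀ v, x⟫ ^ 2
        = v.ofLp ⬝ᵥ (T * momMat K * Tᵀ) *ᵥ v.ofLp := by
      rw [Matrix.toLpLin_apply, ← momMat_quad hK, ← Matrix.mulVec_mulVec, ← Matrix.mulVec_mulVec,
        Matrix.dotProduct_mulVec v.ofLp T, Matrix.mulVec_transpose]
    have hQq : ∑ i, fisherWt w b i * ⟪w i, v⟫ ^ 2
        = v.ofLp ⬝ᵥ (T.adjugateᵀ * Q * T.adjugate) *ᵥ v.ofLp := by
      simp only [hwt, hq]
      rw [show A v = WithLp.toLp 2 (T.adjugate *ᵥ v.ofLp) from Matrix.toLpLin_apply ..,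
        ← hQquad, ← Matrix.mulVec_mulVec, ← Matrix.mulVec_mulVec,
        Matrix.dotProduct_mulVec v.ofLp T.adjugateᵀ, Matrix.vecMul_transpose]
    rw [hmom, hMq, hQq]
    conv_lhs => arg 2; rw [← smul_eq_mul, ← dotProduct_smul]
    rw [← dotProduct_sub, ← Matrix.smul_mulVec,
      ← Matrix.sub_mulVec, heq, Matrix.smul_mulVec, Matrix.one_mulVec, dotProduct_smul,
      EuclideanSpace.norm_sq_eq]
    simp [dotProduct, sq]

/-- A volume preserving image with balanced moments. -/
lemma exists_fisher [NeZero N] (u : Fin N → EuclideanSpace ℝ (Fin (j + 1 + 1))) (b : Fin N → ℝ)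
    (hb : ∀ i, 0 < b i) (hK : IsCompact (polyH u b)) (hs : ∀ x ∈ polyH u b, -x ∈ polyH u b)
    {β : ℝ} (hβ : 0 ≤ β) :
    ∃ (w : Fin N → EuclideanSpace ℝ (Fin (j + 1 + 1))) (c : ℝ), IsCompact (polyH w b) ∧
      (∀ x ∈ polyH w b, -x ∈ polyH w b) ∧ volume (polyH w b) = volume (polyH u b) ∧
      volume (zono (gens w b)) = volume (zono (gens u b)) ∧
      (∀ v, (∫ x in polyH w b, ⟪v, x⟫ ^ 2) - β * ∑ i, fisherWt w b i * ⟪w i, v⟫ ^ 2
        = c * ‖v‖ ^ 2) ∧
      ∃ T : EuclideanSpace ℝ (Fin (j + 1 + 1)) →ₗ[ℝ] EuclideanSpace ℝ (Fin (j + 1 + 1)),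
        |LinearMap.det T| = 1 ∧ polyH w b = T '' polyH u b := by
  obtain ⟨T, c, hT, heq⟩ := exists_stationary (Nat.succ_pos _) (momMat (polyH u b)) (fisherMat u b)
    (momMat_symm _) (fisherMat_symm u b) (momMat_pos hK (interior_polyH_nonempty u b hb))
    (fisherMat_nonneg u b) hβ
  exact ⟨imgNormals u T, c, fisher_image u b hK hs hT heq⟩

/-- The inradius of a polytope. -/
noncomputable def inRad [NeZero N] (u : Fin N → EuclideanSpace ℝ (Fin (j + 1 + 1))) (b : Fin N → ℝ) : ℝ :=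
  (Finset.univ.sup' Finset.univ_nonempty fun i => ‖u i‖ / b i)⁻¹

/-- A rotation moves a contact point to the first axis. -/
lemma align_position [NeZero N] (u1 : Fin N → EuclideanSpace ℝ (Fin (j + 1 + 1))) (b : Fin N → ℝ)
    (hb : ∀ i, 0 < b i) (hc1 : IsCompact (polyH u1 b)) (hs1 : ∀ x ∈ polyH u1 b, -x ∈ polyH u1 b)
    {β c : ℝ} (hbal : ∀ v, (∫ x in polyH u1 b, ⟪v, x⟫ ^ 2)
      - β * ∑ i, fisherWt u1 b i * ⟪u1 i, v⟫ ^ 2 = c * ‖v‖ ^ 2) :
    ∃ (w : Fin N → EuclideanSpace ℝ (Fin (j + 1 + 1))) (r : ℝ), 0 < r ∧ r = inRad u1 b ∧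
      closedBall 0 r ⊆ polyH u1 b ∧ IsCompact (polyH w b) ∧
      (∀ x ∈ polyH w b, -x ∈ polyH w b) ∧ closedBall 0 r ⊆ polyH w b ∧
      (∀ x ∈ polyH w b, |x 0| ≤ r) ∧
      (∀ v, (∫ x in polyH w b, ⟪v, x⟫ ^ 2) - β * ∑ i, fisherWt w b i * ⟪w i, v⟫ ^ 2
        = c * ‖v‖ ^ 2) ∧
      (∑ i, fisherWt w b i * ‖w i‖ ^ 2)
        ≤ ((j + 1 + 1 : ℕ) : ℝ) * (volume (polyH w b)).toReal / r ^ 2 ∧
      volume (polyH w b) = volume (polyH u1 b) ∧
      volume (zono (gens w b)) = volume (zono (gens u1 b)) ∧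
      ∃ T : EuclideanSpace ℝ (Fin (j + 1 + 1)) →ₗ[ℝ] EuclideanSpace ℝ (Fin (j + 1 + 1)),
        |LinearMap.det T| = 1 ∧ polyH w b = T '' polyH u1 b := by
  classical
  have hS : (Finset.univ.filter fun i => u1 i ≠ 0).Nonempty := by
    obtain ⟨i, hi⟩ := span_of_compact u1 b hb hc1 (EuclideanSpace.single 0 1)
      (by rw [ne_eq, PiLp.single_eq_zero_iff]; exact one_ne_zero)
    refine ⟨i, Finset.mem_filter.2 ⟨Finset.mem_univ _, fun h => hi ?_⟩⟩
    rw [h, inner_zero_left, mul_zero]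
  obtain ⟨i0, hi0, hmin⟩ := Finset.exists_min_image _ (fun i => b i / ‖u1 i‖) hS
  have hu0 : 0 < ‖u1 i0‖ := norm_pos_iff.2 (Finset.mem_filter.1 hi0).2
  set r := b i0 / ‖u1 i0‖ with hr
  have hr0 : 0 < r := div_pos (hb i0) hu0
  have hru : ∀ l, r * ‖u1 l‖ ≤ b l := fun l => by
    rcases eq_or_ne (u1 l) 0 with h | h
    · simp [h, (hb l).le]
    · have h2 := hmin l (Finset.mem_filter.2 ⟨Finset.mem_univ _, h⟩)
      rwa [le_div_iff₀ (norm_pos_iff.2 h)] at h2
  have hball : closedBall 0 r ⊆ polyH u1 b := by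
    intro x hx l
    rw [mem_closedBall_zero_iff] at hx
    refine (real_inner_le_norm _ _).trans ?_
    nlinarith [hru l, norm_nonneg (u1 l)]
  obtain ⟨R, hR⟩ := exists_align (u1 i0)
  have hre : r = inRad u1 b := by
    rw [inRad, hr, ← inv_div]
    refine congrArg (·⁻¹) (le_antisymm
      (Finset.le_sup' (fun i => ‖u1 i‖ / b i) (Finset.mem_univ i0)) (Finset.sup'_le _ _ fun l _ => ?_))
    rcases eq_or_ne (u1 l) 0 with h | h
    · rw [h, norm_zero, zero_div]; exact div_nonneg hu0.le (hb i0).le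
    · rw [← inv_div (b l), ← inv_div (b i0)]
      exact inv_anti₀ hr0 (hmin l (Finset.mem_filter.2 ⟨Finset.mem_univ _, h⟩))
  set w : Fin N → EuclideanSpace ℝ (Fin (j + 1 + 1)) := fun l => R (u1 l) with hw
  have hwimg : polyH w b = R '' polyH u1 b := polyH_image_isometry u1 b R
  have hwt : ∀ i, fisherWt w b i = fisherWt u1 b i := fun i => by
    simp only [fisherWt, hw, coneVol_isometry]
  have hwc : IsCompact (polyH w b) := hwimg ▸ hc1.image R.continuous
  refine ⟨w, r, hr0, hre, hball, hwc, ?_, ?_, ?_, fun v => ?_, ?_, ?_, ?_,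
    R.toLinearEquiv.toLinearMap, abs_det_isometry R, hwimg⟩
  · rw [hwimg]; rintro _ ⟨y, hy, rfl⟩; exact ⟨-y, hs1 y hy, map_neg R y⟩
  · rw [hwimg]
    intro x hx
    exact ⟨R.symm x, hball (by simpa using hx), R.apply_symm_apply x⟩
  · have key : ∀ y ∈ polyH u1 b, R y 0 ≤ r := fun y hy => by
      have h := hy i0
      rw [← R.inner_map_map, hR, real_inner_smul_left] at h
      simp only [e0, EuclideanSpace.inner_single_left, map_one, one_mul] at h
      rw [hr, le_div_iff₀ hu0]
      linarith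
    rw [hwimg]
    rintro _ ⟨y, hy, rfl⟩
    refine abs_le.2 ⟨?_, key y hy⟩
    have := key (-y) (hs1 y hy)
    rw [map_neg, PiLp.neg_apply] at this
    linarith
  · have h := hbal (R.symm v)
    rw [LinearIsometryEquiv.norm_map] at h
    rw [← h, hwimg, R.measurePreserving.setIntegral_image_emb R.toHomeomorph.measurableEmbedding]
    congr 1
    · refine setIntegral_congr_fun hc1.measurableSet fun y _ => ?_
      conv_lhs => rw [← R.apply_symm_apply v, R.inner_map_map]
    · congr 1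
      refine Finset.sum_congr rfl fun i _ => ?_
      rw [hwt, hw]
      conv_lhs => rw [← R.apply_symm_apply v, R.inner_map_map]
  · rw [le_div_iff₀ (pow_pos hr0 2), ← sum_coneVol w b hwc, Finset.mul_sum, Finset.sum_mul]
    refine Finset.sum_le_sum fun i _ => ?_
    have h1 : (r * ‖w i‖) ^ 2 ≤ b i ^ 2 := by
      refine pow_le_pow_left₀ (by positivity) ?_ 2
      simpa [hw] using hru i
    have hc0 : 0 ≤ coneVol w b i := ENNReal.toReal_nonneg
    rw [fisherWt, div_mul_eq_mul_div, div_mul_eq_mul_div, div_le_iff₀ (pow_pos (hb i) 2)]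
    calc _ = ((j + 1 + 1 : ℕ) : ℝ) * coneVol w b i * (r * ‖w i‖) ^ 2 := by ring
      _ ≤ _ := mul_le_mul_of_nonneg_left h1 (by positivity)
  · rw [hwimg, volume_image_isometry]
  · have e : zono (gens w b) = R '' zono (gens u1 b) := by
      change _ = R.toLinearEquiv.toLinearMap '' zono (gens u1 b)
      rw [image_zono]
      congr 1
      funext l
      simp [gens, hw, coneVol_isometry, map_smul]
    rw [e, volume_image_isometry]

/-- Every symmetric polytope has a balanced position with a contact point on the first axis. -/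
theorem exists_fisher_position [NeZero N] (u : Fin N → EuclideanSpace ℝ (Fin (j + 1 + 1)))
    (b : Fin N → ℝ) (hb : ∀ i, 0 < b i) (hK : IsCompact (polyH u b))
    (hs : ∀ x ∈ polyH u b, -x ∈ polyH u b) {β : ℝ} (hβ : 0 ≤ β) :
    ∃ (w : Fin N → EuclideanSpace ℝ (Fin (j + 1 + 1))) (r c : ℝ), 0 < r ∧ IsCompact (polyH w b) ∧
      (∀ x ∈ polyH w b, -x ∈ polyH w b) ∧ closedBall 0 r ⊆ polyH w b ∧
      (∀ x ∈ polyH w b, |x 0| ≤ r) ∧
      (∀ v, (∫ x in polyH w b, ⟪v, x⟫ ^ 2) - β * ∑ i, fisherWt w b i * ⟪w i, v⟫ ^ 2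
        = c * ‖v‖ ^ 2) ∧
      (∑ i, fisherWt w b i * ‖w i‖ ^ 2)
        ≤ ((j + 1 + 1 : ℕ) : ℝ) * (volume (polyH w b)).toReal / r ^ 2 ∧
      volume (polyH w b) = volume (polyH u b) ∧
      volume (zono (gens w b)) = volume (zono (gens u b)) ∧
      ∃ T : EuclideanSpace ℝ (Fin (j + 1 + 1)) →ₗ[ℝ] EuclideanSpace ℝ (Fin (j + 1 + 1)),
        |LinearMap.det T| = 1 ∧ polyH w b = T '' polyH u b := by
  classical
  obtain ⟨u1, c, hc1, hs1, hv1, hz1, hbal, T0, hT0, hT0img⟩ := exists_fisher u b hb hK hs hβ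
  obtain ⟨w, r, hr0, -, -, hwc, hws, hball, hslab, hb2, htr, hv, hz, T, hT, himg⟩ :=
    align_position u1 b hb hc1 hs1 hbal
  refine ⟨w, r, c, hr0, hwc, hws, hball, hslab, hb2, htr, hv.trans hv1, hz.trans hz1, T ∘ₗ T0, ?_, ?_⟩
  · rw [LinearMap.det_comp, abs_mul, hT, hT0, mul_one]
  · rw [himg, hT0img, Set.image_image]
    rfl

end Vale.Agent.P237N
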