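import Vale.Agent.P237N.FisherBound

/-!
# The Fisher bound for test functions of the height and the profile

The test function is `t * β |t| (g |t|)`. The profile is smoothed by a moving average, the chain rule
is absorbed by a primitive `H` in the profile variable, and the limit needs no derivative of `g`.
-/

namespace Vale.Agent.P237N

open MeasureTheory Set Metric Filter Topology Vale.Agent.P237 Vale.Agent.P237R Vale.Agent.P237U
open scoped RealInnerProductSpace ENNReal

lemma hasDerivAt_pair {F : ℝ → ℝ → ℝ} (hF : ContDiff ℝ 1 fun p : ℝ × ℝ => F p.1 p.2) {g : ℝ → ℝ}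
    {t g' Ft Fy : ℝ} (hg : HasDerivAt g g' t) (ht : HasDerivAt (fun s => F s (g t)) Ft t)
    (hy : HasDerivAt (F t) Fy (g t)) : HasDerivAt (fun s => F s (g s)) (Ft + Fy * g') t := by
  have hd := ((hF.differentiable one_ne_zero) (t, g t)).hasFDerivAt
  set L := fderiv ℝ (fun p : ℝ × ℝ => F p.1 p.2) (t, g t)
  have h1 : HasDerivAt (fun s => F s (g t)) (L (1, 0)) t := by
    exact hd.comp_hasDerivAt (f := fun s : ℝ => ((s, g t) : ℝ × ℝ)) t
      ((hasDerivAt_id t).prodMk (hasDerivAt_const t (g t)))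
  have h2 : HasDerivAt (F t) (L (0, 1)) (g t) := by
    exact hd.comp_hasDerivAt (f := fun s : ℝ => ((t, s) : ℝ × ℝ)) (g t)
      ((hasDerivAt_const (g t) t).prodMk (hasDerivAt_id (g t)))
  have h3 : HasDerivAt (fun s => F s (g s)) (L (1, g')) t := by
    exact hd.comp_hasDerivAt (f := fun s : ℝ => ((s, g s) : ℝ × ℝ)) t ((hasDerivAt_id t).prodMk hg)
  refine h3.congr_deriv ?_
  have e : ((1 : ℝ), g') = (1, 0) + g' • ((0 : ℝ), (1 : ℝ)) := by simp
  rw [e, map_add, map_smul, ht.unique h1, hy.unique h2, smul_eq_mul, mul_comm]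

lemma hasDerivAt_odd {h h' : ℝ → ℝ} (hd : ∀ t, HasDerivAt h (h' t) t) (t : ℝ) :
    HasDerivAt (fun s => s * h |s|) (h |t| + |t| * h' |t|) t := by
  have hc : Continuous h := continuous_iff_continuousAt.2 fun s => (hd s).continuousAt
  rcases eq_or_ne t 0 with rfl | ht
  · rw [hasDerivAt_iff_tendsto_slope]
    have hlim : Tendsto (fun s => h |s|) (𝓝[≠] (0 : ℝ)) (𝓝 (h |0| + |(0 : ℝ)| * h' |0|)) := by
      have := ((hc.comp continuous_abs).tendsto 0).mono_left (nhdsWithin_le_nhds (s := {(0 : ℝ)}ᶜ))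
      simpa [Function.comp_def] using this
    refine hlim.congr' ?_
    filter_upwards [self_mem_nhdsWithin] with s hs
    have hs' : s ≠ 0 := hs
    rw [slope_def_field]
    field_simp
    simp
  · refine ((hasDerivAt_id t).fun_mul ((hd |t|).comp t (hasDerivAt_abs ht))).congr_deriv ?_
    rcases lt_or_gt_of_ne ht with hlt | hlt
    · simp [abs_of_neg hlt, hlt]
    · simp [abs_of_pos hlt, hlt]

/-- The moving average of length `ε`. -/
noncomputable def movAvg (g : ℝ → ℝ) (ε t : ℝ) : ℝ := ε⁻¹ * ∫ s in t..(t + ε), g s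

lemma hasDerivAt_movAvg {g : ℝ → ℝ} (hg : Continuous g) (ε t : ℝ) :
    HasDerivAt (movAvg g ε) (ε⁻¹ * (g (t + ε) - g t)) t := by
  have h : ∀ s, movAvg g ε s = ε⁻¹ * ((∫ x in (0 : ℝ)..(s + ε), g x) - ∫ x in (0 : ℝ)..s, g x) := by
    intro s
    rw [movAvg, intervalIntegral.integral_interval_sub_left (hg.intervalIntegrable _ _)
      (hg.intervalIntegrable _ _)]
  rw [show movAvg g ε = fun s => ε⁻¹ * ((∫ x in (0 : ℝ)..(s + ε), g x) - ∫ x in (0 : ℝ)..s, g x)
    from funext h]
  refine (HasDerivAt.fun_sub ?_ (hg.integral_hasStrictDerivAt 0 t).hasDerivAt).const_mul _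
  exact ((hg.integral_hasStrictDerivAt 0 (t + ε)).hasDerivAt.comp t
    ((hasDerivAt_id t).add_const ε)).congr_deriv (mul_one _)

lemma movAvg_mem {g : ℝ → ℝ} (hg : Continuous g) {ε t lo hi : ℝ} (hε : 0 < ε)
    (h : ∀ s ∈ Icc t (t + ε), g s ∈ Icc lo hi) : movAvg g ε t ∈ Icc lo hi := by
  have h1 := intervalIntegral.integral_mono_on (by linarith : t ≤ t + ε)
    (intervalIntegrable_const (μ := volume) (c := lo)) (hg.intervalIntegrable _ _) fun s hs => (h s hs).1
  have h2 := intervalIntegral.integral_mono_on (by linarith : t ≤ t + ε)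
    (hg.intervalIntegrable _ _) (intervalIntegrable_const (μ := volume) (c := hi)) fun s hs => (h s hs).2
  simp only [intervalIntegral.integral_const, add_sub_cancel_left, smul_eq_mul] at h1 h2
  rw [movAvg, mem_Icc, le_inv_mul_iff₀ hε, inv_mul_le_iff₀ hε]
  exact ⟨h1, h2⟩

/-- A continuous extension of the profile and smooth monotone approximations of it. -/
lemma exists_smoothing {g : ℝ → ℝ} {r : ℝ} (hr : 0 < r) (hgc : ContinuousOn g (Icc 0 r))
    (hga : AntitoneOn g (Icc 0 r)) :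
    ∃ (G : ℝ → ℝ) (S S' : ℕ → ℝ → ℝ), Continuous G ∧ (∀ t ∈ Icc 0 r, G t = g t) ∧
      (∀ t, G t ∈ Icc (g r) (g 0)) ∧ (∀ k t, HasDerivAt (S k) (S' k t) t) ∧
      (∀ k, Continuous (S k)) ∧ (∀ k, Continuous (S' k)) ∧ (∀ k t, S' k t ≤ 0) ∧
      (∀ k t, S k t ∈ Icc (g r) (g 0)) ∧
      (∀ δ > 0, ∀ᶠ k in atTop, ∀ t ∈ Icc 0 r, |S k t - g t| ≤ δ) ∧
      ∀ t ∈ Icc 0 r, Tendsto (fun k => S k t) atTop (𝓝 (g t)) := by
  set G : ℝ → ℝ := fun s => g (min (max s 0) r) with hGdef
  have hcl : ∀ s, min (max s 0) r ∈ Icc 0 r := fun s =>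
    ⟨le_min (le_max_right _ _) hr.le, min_le_right _ _⟩
  have hGc : Continuous G := hgc.comp_continuous (by fun_prop) hcl
  have hGa : Antitone G := fun s t hst =>
    hga (hcl s) (hcl t) (min_le_min_right r (max_le_max_right 0 hst))
  have hGeq : ∀ t ∈ Icc 0 r, G t = g t := fun t ht => by
    simp [G, max_eq_left ht.1, min_eq_left ht.2]
  have hGb : ∀ s, G s ∈ Icc (g r) (g 0) := fun s =>
    ⟨hga (hcl s) (right_mem_Icc.2 hr.le) (hcl s).2, hga (left_mem_Icc.2 hr.le) (hcl s) (hcl s).1⟩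
  set S : ℕ → ℝ → ℝ := fun k => movAvg G (r / ((k : ℝ) + 1)) with hS
  set S' : ℕ → ℝ → ℝ := fun k t => (r / ((k : ℝ) + 1))⁻¹ * (G (t + r / ((k : ℝ) + 1)) - G t) with hS'
  have hε : ∀ k : ℕ, 0 < r / ((k : ℝ) + 1) := fun k => by positivity
  have hSd : ∀ k t, HasDerivAt (S k) (S' k t) t := fun k t => hasDerivAt_movAvg hGc _ t
  have hSc : ∀ k, Continuous (S k) := fun k => continuous_iff_continuousAt.2 fun t => (hSd k t).continuousAt
  have hS'c : ∀ k, Continuous (S' k) := fun k => by fun_prop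
  have hS'0 : ∀ k t, S' k t ≤ 0 := fun k t =>
    mul_nonpos_of_nonneg_of_nonpos (inv_nonneg.2 (hε k).le)
      (sub_nonpos.2 (hGa (by linarith [hε k])))
  have hSb : ∀ k t, S k t ∈ Icc (g r) (g 0) := fun k t => movAvg_mem hGc (hε k) fun s _ => hGb s
  have hunif : ∀ δ > 0, ∀ᶠ k in atTop, ∀ t ∈ Icc 0 r, |S k t - g t| ≤ δ := by
    intro δ hδ
    obtain ⟨η, hη, hη'⟩ := Metric.uniformContinuousOn_iff.1
      ((isCompact_Icc (a := (0 : ℝ)) (b := 2 * r)).uniformContinuousOn_of_continuous hGc.continuousOn) δ hδ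
    have hlim : Tendsto (fun k : ℕ => r / ((k : ℝ) + 1)) atTop (𝓝 0) := by
      simpa [div_eq_mul_inv] using tendsto_one_div_add_atTop_nhds_zero_nat.const_mul r
    filter_upwards [hlim.eventually (eventually_lt_nhds hη)] with k hk t ht
    have hkr : r / ((k : ℝ) + 1) ≤ r := div_le_self hr.le (by linarith [Nat.cast_nonneg (α := ℝ) k])
    have h := movAvg_mem hGc (hε k) (t := t) (lo := g t - δ) (hi := g t + δ) fun s hs => by
      have hd : dist (G s) (G t) < δ := by
        refine hη' s ⟨ht.1.trans hs.1, by linarith [hs.2, ht.2]⟩ t ⟨ht.1, by linarith [ht.2]⟩ ?_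
        rw [Real.dist_eq, abs_of_nonneg (by linarith [hs.1])]
        linarith [hs.2]
      rw [Real.dist_eq, abs_lt, hGeq t ht] at hd
      exact ⟨by linarith, by linarith⟩
    rw [abs_le]
    exact ⟨by linarith [h.1], by linarith [h.2]⟩
  have hpt : ∀ t ∈ Icc 0 r, Tendsto (fun k => S k t) atTop (𝓝 (g t)) := fun t ht => by
    refine Metric.tendsto_nhds.2 fun δ hδ => ?_
    filter_upwards [hunif (δ / 2) (half_pos hδ)] with k hk
    rw [Real.dist_eq]
    linarith [hk t ht]
  exact ⟨G, S, S', hGc, hGeq, hGb, hSd, hSc, hS'c, hS'0, hSb, hunif, hpt⟩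

variable {j N : ℕ} {u : Fin N → EuclideanSpace ℝ (Fin (j + 1 + 1))} {b : Fin N → ℝ}

/-- The Fisher bound for the test function `t * β |t| (g |t|)`, free of derivatives of `g`. -/
theorem fisher_profile [NeZero N] (hb : ∀ i, 0 < b i) (hK : IsCompact (polyH u b)) {r κ : ℝ}
    (hr : 0 < r) (hhi : sHi (polyH u b) = r) (hlo : sLo (polyH u b) = -r) {g : ℝ → ℝ}
    (hgc : ContinuousOn g (Icc 0 r)) (hga : AntitoneOn g (Icc 0 r))
    (hsv : ∀ t ∈ Ioo (-r) r, sv (polyH u b) t = κ * g |t| ^ (j + 1))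
    {β βt βy H Ht : ℝ → ℝ → ℝ} (hβ : ContDiff ℝ 1 fun p : ℝ × ℝ => β p.1 p.2)
    (hH : ContDiff ℝ 1 fun p : ℝ × ℝ => H p.1 p.2)
    (hβt' : Continuous fun p : ℝ × ℝ => βt p.1 p.2) (hβy' : Continuous fun p : ℝ × ℝ => βy p.1 p.2)
    (hHt' : Continuous fun p : ℝ × ℝ => Ht p.1 p.2)
    (hβt : ∀ t y, HasDerivAt (fun s => β s y) (βt t y) t)
    (hβy : ∀ t y, HasDerivAt (β t) (βy t y) y)
    (hHt : ∀ t y, HasDerivAt (fun s => H s y) (Ht t y) t)
    (hHy : ∀ t y, HasDerivAt (H t) ((2 - 2 * t ^ 2 * β t y) * (t * βy t y) * y ^ (j + 1)) y) :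
    2 * κ * (H r (g r) - H 0 (g 0) + ∫ t in (0 : ℝ)..r,
        (((2 - 2 * t ^ 2 * β t (g t)) * (β t (g t) + t * βt t (g t))
          - ((j + 1 + 1 : ℕ) : ℝ) * t ^ 2 * β t (g t) ^ 2) * g t ^ (j + 1) - Ht t (g t)))
      ≤ ∑ i, fisherWt u b i * u i 0 ^ 2 := by
  classical
  set K := polyH u b

  set n : ℝ := ((j + 1 + 1 : ℕ) : ℝ)
  obtain ⟨G, S, S', hGc, hGeq, hGb, hSd, hSc, hS'c, hS'0, hSb, hunif, hpt⟩ :=
    exists_smoothing hr hgc hga
  set P : ℝ → ℝ → ℝ := fun t y => 2 - 2 * t ^ 2 * β t y with hP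
  set G1 : ℝ → ℝ → ℝ := fun t y => P t y * (β t y + t * βt t y) - n * t ^ 2 * β t y ^ 2 with hG1
  have hβc := hβ.continuous
  have hHc := hH.continuous
  have hPc : Continuous fun p : ℝ × ℝ => P p.1 p.2 := by fun_prop
  have hG1c : Continuous fun p : ℝ × ℝ => G1 p.1 p.2 := by fun_prop
  set B := Icc (0 : ℝ) r ×ˢ Icc (g r) (g 0) with hB
  have hBc : IsCompact B := isCompact_Icc.prod isCompact_Icc
  obtain ⟨C1, hC1⟩ := hBc.exists_bound_of_continuousOn
    (f := fun p : ℝ × ℝ => P p.1 p.2 * (p.1 * βy p.1 p.2)) (by fun_prop)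
  obtain ⟨C2, hC2⟩ := hBc.exists_bound_of_continuousOn (f := fun p : ℝ × ℝ => G1 p.1 p.2) (by fun_prop)
  obtain ⟨C3, hC3⟩ := hBc.exists_bound_of_continuousOn (f := fun p : ℝ × ℝ => Ht p.1 p.2) (by fun_prop)
  obtain ⟨C4, hC4⟩ := (isCompact_Icc (a := g r) (b := g 0)).exists_bound_of_continuousOn
    (f := fun y : ℝ => y ^ (j + 1)) (by fun_prop)
  set E : ℕ → ℝ := fun k => ∫ t in (0 : ℝ)..r,
    P t (S k t) * (t * βy t (S k t)) * S' k t * (G t ^ (j + 1) - S k t ^ (j + 1)) with hE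
  set I : ℕ → ℝ := fun k => ∫ t in (0 : ℝ)..r, (G1 t (S k t) * G t ^ (j + 1) - Ht t (S k t)) with hI
  -- the smooth bound
  have hmain : ∀ k, 2 * κ * (H r (S k r) - H 0 (S k 0) + I k + E k) ≤ ∑ i, fisherWt u b i * u i 0 ^ 2 := by
    intro k
    have := hSc k
    have := hS'c k
    set h : ℝ → ℝ := fun s => β s (S k s) with hh
    set h' : ℝ → ℝ := fun s => βt s (S k s) + βy s (S k s) * S' k s with hh'
    have hhd : ∀ s, HasDerivAt h (h' s) s := fun s => hasDerivAt_pair hβ (hSd k s) (hβt _ _) (hβy _ _)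
    have hhc : Continuous h := by fun_prop
    have hh'c : Continuous h' := by fun_prop
    set a : ℝ → ℝ := fun s => s * h |s| with ha
    have had : ∀ s, HasDerivAt a (h |s| + |s| * h' |s|) s := hasDerivAt_odd hhd
    have hade : deriv a = fun s => h |s| + |s| * h' |s| := funext fun s => (had s).deriv
    have hac : ContDiff ℝ 1 a := by
      rw [contDiff_one_iff_deriv]
      exact ⟨fun s => (had s).differentiableAt, by rw [hade]; fun_prop⟩
    have key := fisher_ge_slices (u := u) (b := b) hb hK hac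
    rw [hhi, hlo] at key
    refine le_trans (le_of_eq ?_) key
    set L : ℝ → ℝ := fun t => (2 * (h |t| + |t| * h' |t|) - n * (t * h |t|) ^ 2
      - 2 * t * (t * h |t|) * (h |t| + |t| * h' |t|)) * (κ * G |t| ^ (j + 1)) with hL
    have hLc : Continuous L := by fun_prop
    have e1 : ∫ t in -r..r, (2 * deriv a t - n * a t ^ 2 - 2 * t * a t * deriv a t) * sv K t
        = ∫ t in -r..r, L t := by
      refine intervalIntegral.integral_congr_ae ?_
      filter_upwards [compl_mem_ae_iff.2 (Real.volume_singleton (a := r))] with t hne ht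
      rw [uIoc_of_le (by linarith)] at ht
      have htr : t ∈ Ioo (-r) r := ⟨ht.1, lt_of_le_of_ne ht.2 hne⟩
      rw [hade, hsv t htr]
      simp only [hL, ha]
      rw [hGeq |t| ⟨abs_nonneg t, (abs_lt.2 htr).le⟩]
    rw [e1, integral_even (F := L) (fun t => by simp [hL]) (hLc.intervalIntegrable _ _) hr.le]
    have e2 : ∫ t in (0 : ℝ)..r, L t = κ * (I k + E k + ∫ t in (0 : ℝ)..r,
        (Ht t (S k t) + P t (S k t) * (t * βy t (S k t)) * S k t ^ (j + 1) * S' k t)) := by
      rw [hI, hE, ← intervalIntegral.integral_add, ← intervalIntegral.integral_add,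
        ← intervalIntegral.integral_const_mul]
      · refine intervalIntegral.integral_congr fun t ht => ?_
        rw [uIcc_of_le hr.le] at ht
        simp only [hL, hh, hh', hG1, hP, abs_of_nonneg ht.1]
        ring
      all_goals exact Continuous.intervalIntegrable (by fun_prop) _ _
    have e3 : ∫ t in (0 : ℝ)..r, (Ht t (S k t) + P t (S k t) * (t * βy t (S k t)) * S k t ^ (j + 1) * S' k t)
        = H r (S k r) - H 0 (S k 0) :=
      intervalIntegral.integral_eq_sub_of_hasDerivAt (f := fun t => H t (S k t))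
        (fun t _ => hasDerivAt_pair hH (hSd k t) (hHt _ _) (hHy _ _))
        (Continuous.intervalIntegrable (by fun_prop) _ _)
    rw [e2, e3]
    ring
  -- the limit
  clear_value P G1 I E B
  have hI' : Tendsto I atTop (𝓝 (∫ t in (0 : ℝ)..r, (G1 t (g t) * g t ^ (j + 1) - Ht t (g t)))) := by
    rw [hI]
    refine intervalIntegral.tendsto_integral_filter_of_dominated_convergence
      (fun _ => C2 * C4 + C3) (Eventually.of_forall fun k => ?_) (Eventually.of_forall fun k =>
        Eventually.of_forall fun t ht => ?_) intervalIntegrable_const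
      (Eventually.of_forall fun t ht => ?_)
    · have := hSc k
      exact (by fun_prop : Continuous fun t => G1 t (S k t) * G t ^ (j + 1) - Ht t (S k t)).aestronglyMeasurable
    · rw [uIoc_of_le hr.le] at ht
      have hp : (t, S k t) ∈ B := by rw [hB]; exact ⟨Ioc_subset_Icc_self ht, hSb k t⟩
      refine (norm_sub_le _ _).trans (add_le_add ?_ (hC3 (t, S k t) hp))
      rw [norm_mul]
      exact mul_le_mul (hC2 (t, S k t) hp) (hC4 (G t) (hGb t)) (norm_nonneg _)
        ((norm_nonneg _).trans (hC2 (t, S k t) hp))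
    · rw [uIoc_of_le hr.le] at ht
      have ht' := Ioc_subset_Icc_self ht
      rw [← hGeq t ht']
      have h1 : Tendsto (fun k => (t, S k t)) atTop (𝓝 (t, G t)) := by
        rw [hGeq t ht']; exact tendsto_const_nhds.prodMk_nhds (hpt t ht')
      exact (((hG1c.tendsto _).comp h1).mul_const _).sub ((hHt'.tendsto _).comp h1)
  have hE' : Tendsto E atTop (𝓝 0) := by
    refine Metric.tendsto_nhds.2 fun δ hδ => ?_
    set M := |C1| * (g 0 - g r) + 1
    have hg0 : 0 ≤ g 0 - g r := sub_nonneg.2 (hga (left_mem_Icc.2 hr.le) (right_mem_Icc.2 hr.le) hr.le)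
    have hM : 0 < M := by positivity
    obtain ⟨η, hη, hη'⟩ := Metric.uniformContinuousOn_iff.1
      ((isCompact_Icc (a := g r) (b := g 0)).uniformContinuousOn_of_continuous
        (f := fun y : ℝ => y ^ (j + 1)) (by fun_prop)) (δ / (2 * M)) (by positivity)
    filter_upwards [hunif (η / 2) (by positivity)] with k hk
    have := hSc k
    have := hS'c k
    rw [Real.dist_eq, sub_zero]
    have hb2 : |E k| ≤ ∫ t in (0 : ℝ)..r, |C1| * (δ / (2 * M)) * -S' k t := by
      rw [hE]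
      refine (intervalIntegral.abs_integral_le_integral_abs hr.le).trans
        (intervalIntegral.integral_mono_on hr.le (Continuous.intervalIntegrable (by fun_prop) _ _)
          (Continuous.intervalIntegrable (by fun_prop) _ _) fun t ht => ?_)
      rw [abs_mul, abs_mul, abs_of_nonpos (hS'0 k t)]
      have h1 : |P t (S k t) * (t * βy t (S k t))| ≤ |C1| :=
        (hC1 (t, S k t) (by rw [hB]; exact ⟨ht, hSb k t⟩)).trans (le_abs_self _)
      have h2 : |G t ^ (j + 1) - S k t ^ (j + 1)| ≤ δ / (2 * M) := by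
        refine le_of_lt (hη' (G t) (hGb t) (S k t) (hSb k t) ?_)
        rw [Real.dist_eq, abs_sub_comm, hGeq t ht]
        linarith [hk t ht]
      calc |P t (S k t) * (t * βy t (S k t))| * -S' k t * |G t ^ (j + 1) - S k t ^ (j + 1)|
          ≤ |C1| * -S' k t * (δ / (2 * M)) := by
            have h0 : 0 ≤ -S' k t := neg_nonneg.2 (hS'0 k t)
            exact mul_le_mul (mul_le_mul_of_nonneg_right h1 h0) h2 (abs_nonneg _)
              (mul_nonneg (abs_nonneg _) h0)
        _ = _ := by ring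
    have e : ∫ t in (0 : ℝ)..r, |C1| * (δ / (2 * M)) * -S' k t
        = |C1| * (δ / (2 * M)) * (S k 0 - S k r) := by
      rw [intervalIntegral.integral_const_mul, intervalIntegral.integral_neg,
        intervalIntegral.integral_eq_sub_of_hasDerivAt (fun t _ => hSd k t)
          ((hS'c k).intervalIntegrable _ _), neg_sub]
    rw [e] at hb2
    refine hb2.trans_lt ?_
    have hM1 : |C1| * (S k 0 - S k r) ≤ M := by
      refine le_trans (mul_le_mul_of_nonneg_left ?_ (abs_nonneg C1)) (le_add_of_nonneg_right zero_le_one)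
      linarith [(hSb k 0).2, (hSb k r).1]
    calc |C1| * (δ / (2 * M)) * (S k 0 - S k r) = δ / (2 * M) * (|C1| * (S k 0 - S k r)) := by ring
      _ ≤ δ / (2 * M) * M := mul_le_mul_of_nonneg_left hM1 (by positivity)
      _ = δ / 2 := by field_simp
      _ < δ := half_lt_self hδ
  have hHlim : ∀ t ∈ Icc 0 r, Tendsto (fun k => H t (S k t)) atTop (𝓝 (H t (g t))) := fun t ht =>
    (hHc.tendsto (t, g t)).comp (tendsto_const_nhds.prodMk_nhds (hpt t ht))
  have hlimit := ((((hHlim r (right_mem_Icc.2 hr.le)).sub (hHlim 0 (left_mem_Icc.2 hr.le))).add hI').add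
    hE').const_mul (2 * κ)
  simp only [add_zero] at hlimit
  simp only [hG1, hP] at hlimit
  exact le_of_tendsto' hlimit hmain

end Vale.Agent.P237N
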