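import Vale.Agent.P237N.Slice4
import Vale.Agent.P237N.Equality

/-!
# Petty's conjecture in dimension four, with the equality case
-/

namespace Vale.Agent.P237N

open MeasureTheory Set Metric Filter Topology Vale.Agent.P237 Vale.Agent.P237R Vale.Agent.P237U
open scoped RealInnerProductSpace ENNReal Pointwise

lemma petty4_pos : 0 < petty4 := by unfold petty4; norm_num

lemma petty4_eq : petty4 = unitBallVol (2 + 1) ^ (2 + 1 + 1) * (unitBallVol (2 + 1 + 1) ^ 2)⁻¹ := by
  have hπ := Real.pi_pos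
  have h3 : unitBallVol (2 + 1) = 4 * Real.pi / 3 := by
    rw [← kap_eq_unitBallVol (by norm_num : 0 < 2 + 1)]
    exact kap_three
  have h4 : unitBallVol (2 + 1 + 1) = Real.pi ^ 2 / 2 := by
    rw [unitBallVol_eq (by norm_num : 0 < 2 + 1 + 1),
      show ((2 + 1 + 1 : ℕ) : ℝ) / 2 + 1 = ((2 : ℕ) : ℝ) + 1 by norm_num, Real.Gamma_nat_eq_factorial,
      show (2 + 1 + 1 : ℕ) = 2 * 2 from rfl, pow_mul, Real.sq_sqrt hπ.le]
    norm_num [Nat.factorial]
  rw [h3, h4, petty4]
  field_simp
  ring

/-- Petty's inequality in dimension four with its equality case. -/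
theorem petty_four_full {K : Set (EuclideanSpace ℝ (Fin (2 + 1 + 1)))} (hK : IsCompact K)
    (hc : Convex ℝ K) (hi : (interior K).Nonempty) :
    ENNReal.ofReal (petty4 * (volume K).toReal ^ (2 + 1)) ≤ volume (projBody K) ∧
      (volume (projBody K) = ENNReal.ofReal (petty4 * (volume K).toReal ^ (2 + 1))
        ↔ ∃ (a : EuclideanSpace ℝ (Fin (2 + 1 + 1)))
            (T : EuclideanSpace ℝ (Fin (2 + 1 + 1)) ≃ₗ[ℝ] EuclideanSpace ℝ (Fin (2 + 1 + 1))),
            K = (fun x => a + T x) '' closedBall 0 1) := by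
  refine ⟨petty_four K hK hc hi, fun h => ?_, ?_⟩
  · refine ellipsoid_of_equality_gen petty4_pos (by unfold petty3; positivity) petty_three petty_four
      (fun _ hK' hc' hs' _ _ hr hball hslab hiso => (sliceInt_ge4 hK' hc' hs' hr hball hslab hiso).2)
      hK hc hi ?_
    rw [h, ENNReal.toReal_ofReal]
    exact mul_nonneg petty4_pos.le (pow_nonneg ENNReal.toReal_nonneg _)
  · rintro ⟨a, T, rfl⟩
    have h := equality_of_ellipsoid_gen petty4_eq petty_four a T
    rw [← ENNReal.ofReal_toReal (isCompact_projBody hK).measure_lt_top.ne]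
    exact congrArg ENNReal.ofReal h

end Vale.Agent.P237N
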