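import Vale.Agent.P237N.Profile5
import Vale.Agent.P237N.Cert5I

/-!
# The profile inequality in dimension five, unconditionally
-/

namespace Vale.Agent.P237N

/-- The profile inequality in dimension five. -/
theorem profile5 : Profile5 :=
  Iso5.profile5_of_cert Iso5.P5_nonneg Iso5.cert5

end Vale.Agent.P237N
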