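import Vale.Agent.P237N.Slice5
import Vale.Agent.P237N.Four
import Vale.Agent.P237N.Profile5Main

/-!
# Petty's conjecture in dimension five, with the equality case
-/

namespace Vale.Agent.P237N

open MeasureTheory Set Metric Filter Topology Vale.Agent.P237 Vale.Agent.P237R Vale.Agent.P237U
open scoped RealInnerProductSpace ENNReal Pointwise

lemma petty5_eq : petty5 = unitBallVol (3 + 1) ^ (3 + 1 + 1) * (unitBallVol (3 + 1 + 1) ^ 3)⁻¹ := by
  have hπ := Real.pi_pos
  rw [show 3 + 1 + 1 = 5 from rfl, show 3 + 1 = 4 from rfl, unitBallVol_four, unitBallVol_five, petty5]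
  field_simp
  ring

/-- Petty's inequality in dimension five. -/
theorem petty_five : LowerBound (3 + 1 + 1) petty5 := petty_five_of profile5

/-- Petty's inequality in dimension five with its equality case. -/
theorem petty_five_full {K : Set (EuclideanSpace ℝ (Fin (3 + 1 + 1)))}
    (hK : IsCompact K) (hc : Convex ℝ K) (hi : (interior K).Nonempty) :
    ENNReal.ofReal (petty5 * (volume K).toReal ^ (3 + 1)) ≤ volume (projBody K) ∧
      (volume (projBody K) = ENNReal.ofReal (petty5 * (volume K).toReal ^ (3 + 1))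
        ↔ ∃ (a : EuclideanSpace ℝ (Fin (3 + 1 + 1)))
            (T : EuclideanSpace ℝ (Fin (3 + 1 + 1)) ≃ₗ[ℝ] EuclideanSpace ℝ (Fin (3 + 1 + 1))),
            K = (fun x => a + T x) '' closedBall 0 1) := by
  refine ⟨petty_five K hK hc hi, fun h => ?_, ?_⟩
  · refine ellipsoid_of_equality_gen petty5_pos petty4_pos.le petty_four petty_five
      (fun _ hK' hc' hs' _ _ hr hball hslab hiso =>
        (sliceInt_ge5 profile5 hK' hc' hs' hr hball hslab hiso).2) hK hc hi ?_
    rw [h, ENNReal.toReal_ofReal]
    exact mul_nonneg petty5_pos.le (pow_nonneg ENNReal.toReal_nonneg _)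
  · rintro ⟨a, T, rfl⟩
    have h := equality_of_ellipsoid_gen petty5_eq petty_five a T
    rw [← ENNReal.ofReal_toReal (isCompact_projBody hK).measure_lt_top.ne]
    exact congrArg ENNReal.ofReal h

end Vale.Agent.P237N
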