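import Vale.Agent.P237N.Layer
import Vale.Agent.P237N.Deriv5

/-!
# The gain below a height, the root bound and the height bound in dimension five
-/

namespace Vale.Agent.P237N.Iso5

open MeasureTheory Set Real Vale.Agent.P237U

variable {g : ℝ → ℝ}

/-- A polynomial below `u²` on `[0, y]`, in odd powers of `u`. -/
noncomputable def wt5 (y u : ℝ) : ℝ :=
  (3051 * u ^ 3 / y - 3008 * u ^ 5 / y ^ 3 + 1280 * u ^ 7 / y ^ 5) / 1323

lemma wt5_le {y u : ℝ} (hy : 0 < y) (hu : 0 ≤ u) (huy : u ≤ y) : wt5 y u ≤ u ^ 2 := by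
  have e : u ^ 2 - wt5 y u
      = u ^ 2 * ((y - u) * ((4 * u - 3 * y) ^ 2 * (147 * y ^ 2 + 200 * y * u + 80 * u ^ 2)))
        / (1323 * y ^ 5) := by
    rw [wt5]
    field_simp
    ring
  have h : 0 ≤ u ^ 2 - wt5 y u := by
    rw [e]
    have : 0 ≤ y - u := by linarith
    positivity
  linarith

lemma wt5_nonneg {y u : ℝ} (hy : 0 < y) (hu : 0 ≤ u) : 0 ≤ wt5 y u := by
  have e : wt5 y u = u ^ 3 * (1280 * (u ^ 2 - 47 / 40 * y ^ 2) ^ 2
      + (3051 - 1280 * (47 / 40) ^ 2) * y ^ 4) / (1323 * y ^ 5) := by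
    rw [wt5]
    field_simp
    ring
  rw [e]
  norm_num
  positivity

/-- A primitive of `wt5 y u * √(1 - u²)` is minus this function of `√(1 - u²)`. -/
noncomputable def Gw (y v : ℝ) : ℝ :=
  (3051 * G3 v / y - 3008 * G5 v / y ^ 3 + 1280 * G7 v / y ^ 5) / 1323

lemma hasDerivAt_Gw (y v : ℝ) :
    HasDerivAt (Gw y) ((3051 * (v ^ 2 - v ^ 4) / y - 3008 * (v ^ 2 - 2 * v ^ 4 + v ^ 6) / y ^ 3
      + 1280 * (v ^ 2 - 3 * v ^ 4 + 3 * v ^ 6 - v ^ 8) / y ^ 5) / 1323) v := by
  unfold Gw G3 G5 G7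
  refine (((((((hasDerivAt_pow 3 v).div_const _).fun_sub ((hasDerivAt_pow 5 v).div_const _)).const_mul
    _).div_const _).fun_sub
    (((((hasDerivAt_pow 3 v).div_const _).fun_sub (((hasDerivAt_pow 5 v).const_mul _).div_const _)).fun_add
      ((hasDerivAt_pow 7 v).div_const _)).const_mul _ |>.div_const _)).fun_add
    ((((((hasDerivAt_pow 3 v).div_const _).fun_sub (((hasDerivAt_pow 5 v).const_mul _).div_const _)).fun_add
      (((hasDerivAt_pow 7 v).const_mul _).div_const _)).fun_sub ((hasDerivAt_pow 9 v).div_const _)).const_mul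
        _ |>.div_const _) |>.div_const _).congr_deriv ?_
  simp
  ring

lemma hasDerivAt_Gw_sqrt {y s : ℝ} (hy : y ≠ 0) (hs : s ^ 2 ≠ 1) :
    HasDerivAt (fun u : ℝ => -Gw y √(1 - u ^ 2)) (wt5 y s * √(1 - s ^ 2)) s := by
  have hne : 1 - s ^ 2 ≠ 0 := sub_ne_zero.2 (Ne.symm hs)
  rcases lt_or_gt_of_ne hne with h | h
  · have hev : (fun u : ℝ => -Gw y √(1 - u ^ 2)) =ᶠ[nhds s] fun _ => -Gw y 0 := by
      filter_upwards [(by fun_prop : Continuous fun u : ℝ => 1 - u ^ 2).continuousAt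
        (Iio_mem_nhds h)] with u hu
      rw [sqrt_eq_zero'.2 (le_of_lt hu)]
    rw [sqrt_eq_zero'.2 h.le, mul_zero]
    exact (hasDerivAt_const s (-Gw y 0)).congr_of_eventuallyEq hev
  · refine (((hasDerivAt_Gw y _).comp s (((hasDerivAt_pow 2 s).const_sub 1).sqrt hne)).neg).congr_deriv ?_
    have h0 := (sqrt_pos.2 h).ne'
    have hsq := sq_sqrt h.le
    set v := √(1 - s ^ 2) with hv
    have e2 : s ^ 2 = 1 - v ^ 2 := by linarith
    have e3 : s ^ 3 = s * (1 - v ^ 2) := by rw [← e2]; ring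
    have e5 : s ^ 5 = s * (1 - v ^ 2) ^ 2 := by rw [← e2]; ring
    have e7 : s ^ 7 = s * (1 - v ^ 2) ^ 3 := by rw [← e2]; ring
    simp only [wt5, e3, e5, e7]
    field_simp
    push_cast
    ring

lemma integral_wt5_sqrt {y p q : ℝ} (hy : y ≠ 0) (hp : 0 ≤ p) (hpq : p ≤ q) :
    ∫ s in p..q, wt5 y s * √(1 - s ^ 2) = Gw y √(1 - p ^ 2) - Gw y √(1 - q ^ 2) := by
  rw [integral_eq_of_hasDerivAt_off_countable_of_le (fun u : ℝ => -Gw y √(1 - u ^ 2)) _ hpq
    (Set.countable_singleton (1 : ℝ)) (by unfold Gw G3 G5 G7; fun_prop) (fun s hs => hasDerivAt_Gw_sqrt hy ?_)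
    ((by unfold wt5; fun_prop : Continuous fun s : ℝ => wt5 y s * √(1 - s ^ 2)).intervalIntegrable _ _)]
  · ring
  · intro h
    have h1 : s = 1 := by nlinarith [hs.1.1]
    exact hs.2 h1

lemma integral_pow_line (k : ℕ) {y s σ T : ℝ} (hsy : s < y) :
    ∫ u in s..y, u ^ k * (σ + (T - σ) / (y - s) * (u - s)) = LI k T y s σ := by
  have hd : y - s ≠ 0 := (sub_pos.2 hsy).ne'
  have e : (fun u => u ^ k * (σ + (T - σ) / (y - s) * (u - s)))
      = fun u => (σ - (T - σ) / (y - s) * s) * u ^ k + (T - σ) / (y - s) * u ^ (k + 1) :=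
    funext fun u => by ring
  rw [e, intervalIntegral.integral_add ((by fun_prop : Continuous _).intervalIntegrable _ _)
    ((by fun_prop : Continuous _).intervalIntegrable _ _), intervalIntegral.integral_const_mul,
    intervalIntegral.integral_const_mul, integral_pow, integral_pow, ← hS_mul, ← hS_mul, LI]
  field_simp
  ring

/-- The gain below a height exceeds the gain under a chord. -/
lemma chord5_le (hconc : ConcaveOn ℝ (Icc (0 : ℝ) 1) g) (hg : Antitone g)
    (hge : ∀ t ∈ Icc (0 : ℝ) 1, √(1 - t ^ 2) ≤ g t) {y s σ : ℝ} (hy0 : 0 < y) (hyY : y ≤ g 0)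
    (hs : 0 ≤ s) (hsy : s ≤ y) (hσ : 0 ≤ σ) (hσs : s ^ 2 + σ ^ 2 = 1) :
    chord5 (levelEnd g y) √(1 - y ^ 2) y s σ ≤ 16 / π * ∫ u in (0 : ℝ)..y, u ^ 2 * gain g u := by
  set T := levelEnd g y with hT
  have hI : ∀ a b, IntervalIntegrable (fun u => u ^ 2 * gain g u) volume a b := fun a b =>
    (intervalIntegrable_gain g a b).continuousOn_mul (by fun_prop)
  have hJ0 : 0 ≤ ∫ u in (0 : ℝ)..y, u ^ 2 * gain g u :=
    intervalIntegral.integral_nonneg hy0.le fun u hu => by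
      have := gain_nonneg hge hu.1
      positivity
  set J := ∫ u in (0 : ℝ)..y, u ^ 2 * gain g u with hJ
  have hσ' : √(1 - s ^ 2) = σ := by
    rw [← hσs, add_sub_cancel_left, sqrt_sq hσ]
  have hK : (5092957 / 1000000 : ℝ) ≤ 16 / π := by
    rw [le_div_iff₀ pi_pos]
    nlinarith [pi_lt_d6]
  rcases eq_or_lt_of_le hsy with rfl | hlt
  · have hz : ∀ k, LI k T s s σ = 0 := fun k => by
      have h : ∀ n : ℕ, s * hN n s s = hN (n + 1) s s - s ^ (n + 1) := fun n => by simp [hN]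
      have h2 : ∀ n : ℕ, hN n s s = ((n : ℝ) + 1) * s ^ n := fun n => by
        induction n with
        | zero => simp [hN]
        | succ n ih => simp only [hN, ih]; push_cast; ring
      simp only [LI, hS, h2]
      push_cast
      field_simp
      ring
    have : chord5 T √(1 - s ^ 2) s s σ = 0 := by
      rw [chord5, hz, hz, hz, hσ']
      simp
    rw [this]
    positivity
  set k := (T - σ) / (y - s) with hk
  have hw : Continuous (wt5 y) := by unfold wt5; fun_prop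
  have hle : ∫ u in s..y, (wt5 y u * (σ + k * (u - s)) - wt5 y u * √(1 - u ^ 2))
      ≤ ∫ u in s..y, u ^ 2 * gain g u := by
    refine intervalIntegral.integral_mono_on hsy
      ((by fun_prop : Continuous _).intervalIntegrable _ _) (hI s y) fun u hu => ?_
    have hd : 0 < y - s := sub_pos.2 hlt
    have h := levelEnd_combo hconc hg hge hyY hs hσ hσs (a := (y - u) / (y - s)) (b := (u - s) / (y - s))
      (div_nonneg (sub_nonneg.2 hu.2) hd.le) (div_nonneg (sub_nonneg.2 hu.1) hd.le)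
      (by field_simp; ring)
    have e1 : (y - u) / (y - s) * s + (u - s) / (y - s) * y = u := by field_simp; ring
    have e2 : (y - u) / (y - s) * σ + (u - s) / (y - s) * T = σ + k * (u - s) := by
      rw [hk]; field_simp; ring
    rw [e1, e2] at h
    have hu0 : 0 ≤ u := hs.trans hu.1
    rw [← mul_sub]
    calc wt5 y u * (σ + k * (u - s) - √(1 - u ^ 2)) ≤ wt5 y u * gain g u :=
          mul_le_mul_of_nonneg_left (sub_le_sub_right h _) (wt5_nonneg hy0 hu0)
      _ ≤ u ^ 2 * gain g u := mul_le_mul_of_nonneg_right (wt5_le hy0 hu0 hu.2) (gain_nonneg hge hu0)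
  rw [intervalIntegral.integral_sub ((by fun_prop : Continuous _).intervalIntegrable _ _)
    ((by fun_prop : Continuous _).intervalIntegrable _ _), integral_wt5_sqrt hy0.ne' hs hsy, hσ'] at hle
  have hline : ∫ u in s..y, wt5 y u * (σ + k * (u - s))
      = (3051 * LI 3 T y s σ / y - 3008 * LI 5 T y s σ / y ^ 3 + 1280 * LI 7 T y s σ / y ^ 5) / 1323 := by
    have e : (fun u => wt5 y u * (σ + k * (u - s))) = fun u =>
        3051 / y / 1323 * (u ^ 3 * (σ + k * (u - s))) - 3008 / y ^ 3 / 1323 * (u ^ 5 * (σ + k * (u - s)))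
          + 1280 / y ^ 5 / 1323 * (u ^ 7 * (σ + k * (u - s))) := funext fun u => by rw [wt5]; ring
    rw [e, intervalIntegral.integral_add ((by fun_prop : Continuous _).intervalIntegrable _ _)
        ((by fun_prop : Continuous _).intervalIntegrable _ _),
      intervalIntegral.integral_sub ((by fun_prop : Continuous _).intervalIntegrable _ _)
        ((by fun_prop : Continuous _).intervalIntegrable _ _),
      intervalIntegral.integral_const_mul, intervalIntegral.integral_const_mul,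
      intervalIntegral.integral_const_mul, hk, integral_pow_line 3 hlt, integral_pow_line 5 hlt,
      integral_pow_line 7 hlt]
    ring
  rw [hline] at hle
  have hsplit := intervalIntegral.integral_add_adjacent_intervals (hI 0 s) (hI s y)
  have h0 : 0 ≤ ∫ u in (0 : ℝ)..s, u ^ 2 * gain g u :=
    intervalIntegral.integral_nonneg hs fun u hu => by
      have := gain_nonneg hge hu.1
      positivity
  have e : chord5 T √(1 - y ^ 2) y s σ = 5092957 / 1000000 *
      ((3051 * LI 3 T y s σ / y - 3008 * LI 5 T y s σ / y ^ 3 + 1280 * LI 7 T y s σ / y ^ 5) / 1323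
        - (Gw y σ - Gw y √(1 - y ^ 2))) := by
    rw [chord5, Gw, Gw]
    ring
  rw [e]
  exact le_trans (mul_le_mul_of_nonneg_left (by linarith) (by norm_num))
    (mul_le_mul_of_nonneg_right hK hJ0)

lemma root5_le {B X : ℝ} (hB : 0 ≤ B) (hBX : B ≤ X) :
    (3 + 2 * B) / (3 + B) ≤ (1 + X) ^ ((1 : ℝ) / 3) := by
  have h3 : ((3 + 2 * B) / (3 + B)) ^ 3 ≤ 1 + X := by
    refine le_trans ?_ (by linarith : 1 + B ≤ 1 + X)
    rw [div_pow, div_le_iff₀ (by positivity)]
    nlinarith [pow_nonneg hB 3, pow_nonneg hB 4, pow_nonneg hB 2]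
  have h0 : 0 ≤ (3 + 2 * B) / (3 + B) := by positivity
  calc (3 + 2 * B) / (3 + B) = (((3 + 2 * B) / (3 + B)) ^ 3) ^ ((1 : ℝ) / 3) := by
        rw [show (1 : ℝ) / 3 = ((3 : ℕ) : ℝ)⁻¹ by norm_num, Real.pow_rpow_inv_natCast h0 (by norm_num)]
    _ ≤ _ := Real.rpow_le_rpow (pow_nonneg h0 3) h3 (by norm_num)

lemma height5_le (hg : Antitone g) (hnn : ∀ t ∈ Icc (0 : ℝ) 1, 0 ≤ g t)
    (hconc : ConcaveOn ℝ (Icc (0 : ℝ) 1) g)
    (hC : (∫ t in (0 : ℝ)..1, g t ^ 6) / 6 ≤ ∫ t in (0 : ℝ)..1, t ^ 2 * g t ^ 4) :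
    g 0 ≤ 196 / 100 := by
  have gp : ∀ p : ℕ, IntervalIntegrable (fun t => g t ^ p) volume 0 1 := fun p => by
    refine AntitoneOn.intervalIntegrable ?_
    rw [uIcc_of_le zero_le_one]
    exact fun a _ b hb hab => pow_le_pow_left₀ (hnn b hb) (hg hab) p
  set Y := g 0 with hY
  have hY0 : 0 ≤ Y := hnn 0 ⟨le_rfl, zero_le_one⟩
  have h4' : IntervalIntegrable (fun t => t ^ 2 * g t ^ 4) volume 0 1 :=
    (gp 4).continuousOn_mul (by fun_prop)
  set t0 : ℝ := √(1 / 3) with ht0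
  have ht00 : 0 ≤ t0 := sqrt_nonneg _
  have ht02 : t0 ^ 2 = 1 / 3 := sq_sqrt (by norm_num)
  have ht01 : t0 ≤ 1 := sqrt_le_one.2 (by norm_num)
  have hcheb : ∫ t in (0 : ℝ)..1, t ^ 2 * g t ^ 4 ≤ 1 / 3 * ∫ t in (0 : ℝ)..1, g t ^ 4 := by
    have hq : IntervalIntegrable (fun t => g t0 ^ 4 * (t ^ 2 - 1 / 3)) volume 0 1 :=
      (by fun_prop : Continuous fun t => g t0 ^ 4 * (t ^ 2 - 1 / 3)).intervalIntegrable _ _
    have hle : ∫ t in (0 : ℝ)..1, (t ^ 2 * g t ^ 4 - 1 / 3 * g t ^ 4)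
        ≤ ∫ t in (0 : ℝ)..1, g t0 ^ 4 * (t ^ 2 - 1 / 3) := by
      refine intervalIntegral.integral_mono_on zero_le_one (h4'.sub ((gp 4).const_mul _)) hq
        fun t ht => ?_
      rcases le_total t t0 with h | h
      · have h1 := pow_le_pow_left₀ (hnn t0 ⟨ht00, ht01⟩) (hg h) 4
        have h2 := pow_le_pow_left₀ ht.1 h 2
        nlinarith
      · have h1 := pow_le_pow_left₀ (hnn t ht) (hg h) 4
        have h2 := pow_le_pow_left₀ ht00 h 2
        nlinarith
    rw [intervalIntegral.integral_sub h4' ((gp 4).const_mul _),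
      intervalIntegral.integral_const_mul] at hle
    have he : ∫ t in (0 : ℝ)..1, g t0 ^ 4 * (t ^ 2 - 1 / 3) = 0 := by simp; norm_num
    linarith
  have hpt : ∫ t in (0 : ℝ)..1, g t ^ 4 ≤ 1 / 3 * (∫ t in (0 : ℝ)..1, g t ^ 6) + 4 / 3 := by
    have hle := intervalIntegral.integral_mono_on zero_le_one (gp 4)
      (((gp 6).const_mul (1 / 3)).add (intervalIntegrable_const (c := 4 / 3))) (fun t _ => by
        have := mul_nonneg (sq_nonneg (g t ^ 2 - 2)) (by positivity : 0 ≤ g t ^ 2 + 1)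
        nlinarith)
    rw [intervalIntegral.integral_add ((gp 6).const_mul _) intervalIntegrable_const,
      intervalIntegral.integral_const_mul, intervalIntegral.integral_const] at hle
    simpa using hle
  have htri : Y ^ 6 / 7 ≤ ∫ t in (0 : ℝ)..1, g t ^ 6 := by
    have e : ∫ t in (0 : ℝ)..1, Y ^ 6 * (1 - t) ^ 6 = Y ^ 6 / 7 := by
      rw [intervalIntegral.integral_const_mul,
        intervalIntegral.integral_comp_sub_left (fun u : ℝ => u ^ 6) 1]
      norm_num
      ring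
    rw [← e]
    refine intervalIntegral.integral_mono_on zero_le_one
      ((by fun_prop : Continuous fun t => Y ^ 6 * (1 - t) ^ 6).intervalIntegrable _ _) (gp 6)
      fun t ht => ?_
    rw [← mul_pow]
    refine pow_le_pow_left₀ (mul_nonneg hY0 (by linarith [ht.2])) ?_ 6
    have h := hconc.2 (⟨le_rfl, zero_le_one⟩ : (0 : ℝ) ∈ Icc (0 : ℝ) 1)
      (⟨zero_le_one, le_rfl⟩ : (1 : ℝ) ∈ Icc (0 : ℝ) 1) (sub_nonneg.2 ht.2) ht.1 (sub_add_cancel 1 t)
    simp only [smul_eq_mul, mul_zero, mul_one, zero_add] at h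
    have := mul_nonneg ht.1 (hnn 1 ⟨zero_le_one, le_rfl⟩)
    nlinarith
  have h6 : Y ^ 6 ≤ (196 / 100) ^ 6 := by linarith
  exact (pow_le_pow_iff_left₀ hY0 (by norm_num) (by norm_num)).1 h6

end Vale.Agent.P237N.Iso5
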