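import Vale.Agent.P237U.Profile3

/-!
# Layer-cake formula and gain bounds for concave profiles
-/

namespace Vale.Agent.P237N

open MeasureTheory Set Real Vale.Agent.P237U

variable {g : ℝ → ℝ}

/-- Layer-cake formula between the circle and a profile above it. -/
lemma layer_cake (hg : Antitone g) (hge : ∀ t ∈ Icc (0 : ℝ) 1, √(1 - t ^ 2) ≤ g t)
    {ψ Ψ : ℝ → ℝ → ℝ} (hψ : Continuous (Function.uncurry ψ))
    (hΨ : ∀ t y, HasDerivAt (Ψ t) (ψ t y) y) :
    ∫ t in (0 : ℝ)..1, (Ψ t (g t) - Ψ t √(1 - t ^ 2))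
      = ∫ y in (0 : ℝ)..(g 0), ∫ t in √(1 - y ^ 2)..levelEnd g y, ψ t y := by
  set c : ℝ → ℝ := fun t => √(1 - t ^ 2) with hc
  set Y := g 0 with hY
  have hY0 : 0 ≤ Y := (sqrt_nonneg _).trans (hge 0 ⟨le_rfl, zero_le_one⟩)
  have hcc : Continuous c := by fun_prop
  have hgm : Measurable g := hg.measurable
  set μ := volume.restrict (Ioc (0 : ℝ) 1) with hμ
  set ν := volume.restrict (Ioc (0 : ℝ) Y) with hν
  set K : ℝ → ℝ → ℝ := fun t y => if c t < y ∧ y ≤ g t then ψ t y else 0 with hK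
  have hKi : Integrable (Function.uncurry K) (μ.prod ν) := by
    obtain ⟨M, hM⟩ := (isCompact_Icc.prod isCompact_Icc).exists_bound_of_continuousOn
      (s := Icc (0 : ℝ) 1 ×ˢ Icc (0 : ℝ) Y) hψ.continuousOn
    refine Integrable.of_bound ?_ M ?_
    · refine Measurable.aestronglyMeasurable ?_
      refine Measurable.ite ?_ hψ.measurable measurable_const
      exact (measurableSet_lt (hcc.measurable.comp measurable_fst) measurable_snd).inter
        (measurableSet_le measurable_snd (hgm.comp measurable_fst))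
    · rw [hμ, hν, Measure.prod_restrict]
      filter_upwards [ae_restrict_mem (measurableSet_Ioc.prod measurableSet_Ioc)] with p hp
      simp only [Function.uncurry, hK]
      split_ifs
      · exact hM p ⟨Ioc_subset_Icc_self hp.1, Ioc_subset_Icc_self hp.2⟩
      · simpa using le_trans (norm_nonneg _) (hM (0, 0) ⟨⟨le_rfl, zero_le_one⟩, ⟨le_rfl, hY0⟩⟩)
  have e1 : ∀ t ∈ Ioc (0 : ℝ) 1, ∫ y, K t y ∂ν = Ψ t (g t) - Ψ t (c t) := by
    intro t ht
    have hct : c t ≤ g t := hge t (Ioc_subset_Icc_self ht)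
    rw [← intervalIntegral.integral_eq_sub_of_hasDerivAt (fun y _ => hΨ t y)
      ((by fun_prop : Continuous (ψ t)).intervalIntegrable _ _),
      intervalIntegral.integral_of_le hct, hν, ← integral_indicator measurableSet_Ioc,
      ← integral_indicator measurableSet_Ioc]
    refine integral_congr_ae (Filter.Eventually.of_forall fun y => ?_)
    by_cases hy : y ∈ Ioc (c t) (g t)
    · simp [hK, hy, hy.1, hy.2, show y ∈ Ioc (0 : ℝ) Y from
        ⟨(sqrt_nonneg _).trans_lt hy.1, hy.2.trans (hg ht.1.le)⟩]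
    · by_cases hy' : y ∈ Ioc (0 : ℝ) Y
      · have : ¬ (c t < y ∧ y ≤ g t) := fun h => hy ⟨h.1, h.2⟩
        simp [hK, hy, hy', this]
      · simp [hy, hy']
  have e2 : ∀ y ∈ Ioc (0 : ℝ) Y,
      ∫ t, K t y ∂μ = ∫ t in √(1 - y ^ 2)..levelEnd g y, ψ t y := by
    intro y hy
    have hle : √(1 - y ^ 2) ≤ levelEnd g y := sub_nonneg.1 (gain_nonneg hge hy.1.le)
    rw [intervalIntegral.integral_of_le hle, hμ, ← integral_indicator measurableSet_Ioc,
      ← integral_indicator measurableSet_Ioc]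
    refine integral_congr_ae ?_
    filter_upwards [compl_mem_ae_iff.2 (measure_singleton (levelEnd g y))] with t ht
    have ht' : t ≠ levelEnd g y := ht
    by_cases h1 : t ∈ Ioc (0 : ℝ) 1
    · have hiff : c t < y ↔ √(1 - y ^ 2) < t := by
        rw [hc]
        simp only
        rw [sqrt_lt' hy.1, sqrt_lt' h1.1]
        constructor <;> intro <;> linarith
      rw [indicator_of_mem h1]
      by_cases h2 : t ∈ Ioc √(1 - y ^ 2) (levelEnd g y)
      · rw [indicator_of_mem h2]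
        simp only [hK]
        rw [if_pos ⟨hiff.2 h2.1, le_of_lt_levelEnd hg h1.1.le (lt_of_le_of_ne h2.2 ht')⟩]
      · rw [indicator_of_notMem h2]
        simp only [hK]
        rw [if_neg fun h => h2 ⟨hiff.1 h.1, le_levelEnd (Ioc_subset_Icc_self h1) h.2⟩]
    · rw [indicator_of_notMem h1, indicator_of_notMem]
      exact fun h => h1 ⟨(sqrt_nonneg _).trans_lt h.1, h.2.trans (levelEnd_le_one g y)⟩
  rw [intervalIntegral.integral_of_le zero_le_one, intervalIntegral.integral_of_le hY0,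
    ← setIntegral_congr_fun measurableSet_Ioc e1, ← setIntegral_congr_fun measurableSet_Ioc e2]
  exact integral_integral_swap hKi

/-- The level function lies above the chord from a level point to a point of the circle. -/
lemma levelEnd_combo (hconc : ConcaveOn ℝ (Icc (0 : ℝ) 1) g) (hg : Antitone g)
    (hge : ∀ t ∈ Icc (0 : ℝ) 1, √(1 - t ^ 2) ≤ g t) {y s σ a b : ℝ} (hyY : y ≤ g 0) (hs : 0 ≤ s)
    (hσ : 0 ≤ σ) (hσs : s ^ 2 + σ ^ 2 = 1) (ha : 0 ≤ a) (hb : 0 ≤ b) (hab : a + b = 1) :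
    a * σ + b * levelEnd g y ≤ levelEnd g (a * s + b * y) := by
  have hσ1 : σ ≤ 1 := by nlinarith
  have hgσ : s ≤ g σ := by
    refine le_trans (le_of_eq ?_) (hge σ ⟨hσ, hσ1⟩)
    rw [← hσs, add_sub_cancel_right, sqrt_sq hs]
  have key : ∀ t, 0 ≤ t → t ≤ 1 → y ≤ g t → a * σ + b * t ≤ levelEnd g (a * s + b * y) := by
    intro t ht0 ht1 hgt
    have h := hconc.2 (⟨hσ, hσ1⟩ : σ ∈ Icc (0 : ℝ) 1) (⟨ht0, ht1⟩ : t ∈ Icc (0 : ℝ) 1) ha hb hab
    simp only [smul_eq_mul] at h
    refine le_levelEnd ⟨by positivity, ?_⟩ ?_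
    · calc a * σ + b * t ≤ a * 1 + b * 1 := by gcongr
        _ = 1 := by linarith
    · calc a * s + b * y ≤ a * g σ + b * g t := by gcongr
        _ ≤ _ := h
  set T := levelEnd g y with hT
  refine le_of_forall_pos_le_add fun ε hε => ?_
  rcases le_or_gt T ε with hTe | hTe
  · have h := key 0 le_rfl zero_le_one hyY
    have h2 : b * T ≤ ε := by nlinarith [levelEnd_nonneg g y]
    linarith
  · have h := key (T - ε) (by linarith) (by linarith [levelEnd_le_one g y])
      (le_of_lt_levelEnd hg (by linarith) (by linarith))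
    nlinarith

lemma hasDerivAt_sqrt_cube {s : ℝ} (hs : s ^ 2 ≠ 1) :
    HasDerivAt (fun u : ℝ => -(√(1 - u ^ 2)) ^ 3) (3 * s * √(1 - s ^ 2)) s := by
  have hne : 1 - s ^ 2 ≠ 0 := sub_ne_zero.2 (Ne.symm hs)
  rcases lt_or_gt_of_ne hne with h | h
  · have hev : (fun u : ℝ => -(√(1 - u ^ 2)) ^ 3) =ᶠ[nhds s] fun _ => (0 : ℝ) := by
      filter_upwards [(by fun_prop : Continuous fun u : ℝ => 1 - u ^ 2).continuousAt
        (Iio_mem_nhds h)] with u hu
      rw [sqrt_eq_zero'.2 (le_of_lt hu)]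
      ring
    rw [sqrt_eq_zero'.2 h.le, mul_zero]
    exact (hasDerivAt_const s (0 : ℝ)).congr_of_eventuallyEq hev
  · refine ((((hasDerivAt_pow 2 s).const_sub 1).sqrt hne).fun_pow 3).neg.congr_deriv ?_
    have h0 := (sqrt_pos.2 h).ne'
    field_simp
    push_cast
    ring

/-- The integral of `3 s √(1 - s²)`, valid across `s = 1`. -/
lemma integral_mul_sqrt {p q : ℝ} (hp : 0 ≤ p) (hpq : p ≤ q) :
    ∫ s in p..q, 3 * s * √(1 - s ^ 2) = √(1 - p ^ 2) ^ 3 - √(1 - q ^ 2) ^ 3 := by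
  rw [integral_eq_of_hasDerivAt_off_countable_of_le (fun u : ℝ => -(√(1 - u ^ 2)) ^ 3) _ hpq
    (Set.countable_singleton (1 : ℝ)) (by fun_prop) (fun s hs => hasDerivAt_sqrt_cube ?_)
    ((by fun_prop : Continuous fun s : ℝ => 3 * s * √(1 - s ^ 2)).intervalIntegrable _ _)]
  · ring
  · intro h
    have h1 : s = 1 := by nlinarith [hs.1.1]
    exact hs.2 h1

end Vale.Agent.P237N
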