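import Vale.Agent.P237N.Layer
import Vale.Agent.P237N.Deriv4

/-!
# The profile inequality in dimension four
-/

namespace Vale.Agent.P237N

open MeasureTheory Set Real Vale.Agent.P237U

/-- The antiderivative in the height of the test integrand. -/
noncomputable def Hfun4 (t y : ℝ) : ℝ :=
  16 / (3 * π) * y ^ 3 + 7748 / 10000 * (t ^ 2 * y ^ 3 - y ^ 5 / 5)
    + y ^ 3 * (t ^ 2 + y ^ 2 - 1) * P4 t y + 1 / 2000 * y ^ 2

/-- Positivity of the test polynomial on the domain. -/
def P4Nonneg : Prop :=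
  ∀ t y : ℝ, 0 ≤ t → t ≤ 1 → 0 ≤ y → y ≤ 185 / 100 → 1 ≤ t ^ 2 + y ^ 2 → 0 ≤ P4 t y

/-- The pointwise certificate. -/
def Cert4 : Prop :=
  ∀ T l y : ℝ, 0 < y → y ≤ 185 / 100 → 0 ≤ l → l ≤ T → T ≤ 1 →
    ((y ≤ 1 ∧ l ^ 2 + y ^ 2 = 1) ∨ (1 ≤ y ∧ l = 0)) →
    ∃ B, 0 ≤ B ∧ (B = 0 ∨ ∃ s σ, 0 ≤ s ∧ s ≤ y ∧ 0 ≤ σ ∧ s ^ 2 + σ ^ 2 = 1 ∧
      B ≤ chord4 T l y s σ) ∧ 1 / 1000 ≤ brk4 T l y B

variable {g : ℝ → ℝ}

lemma height_le (hg : Antitone g) (hnn : ∀ t ∈ Icc (0 : ℝ) 1, 0 ≤ g t)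
    (hconc : ConcaveOn ℝ (Icc (0 : ℝ) 1) g)
    (hC : (∫ t in (0 : ℝ)..1, g t ^ 5) / 5 ≤ ∫ t in (0 : ℝ)..1, t ^ 2 * g t ^ 3) :
    g 0 ≤ 185 / 100 := by
  have gp : ∀ p : ℕ, IntervalIntegrable (fun t => g t ^ p) volume 0 1 := fun p => by
    refine AntitoneOn.intervalIntegrable ?_
    rw [uIcc_of_le zero_le_one]
    exact fun a _ b hb hab => pow_le_pow_left₀ (hnn b hb) (hg hab) p
  set Y := g 0 with hY
  have hY0 : 0 ≤ Y := hnn 0 ⟨le_rfl, zero_le_one⟩
  have h3' : IntervalIntegrable (fun t => t ^ 2 * g t ^ 3) volume 0 1 :=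
    (gp 3).continuousOn_mul (by fun_prop)
  set t0 : ℝ := √(1 / 3) with ht0
  have ht00 : 0 ≤ t0 := sqrt_nonneg _
  have ht02 : t0 ^ 2 = 1 / 3 := sq_sqrt (by norm_num)
  have ht01 : t0 ≤ 1 := sqrt_le_one.2 (by norm_num)
  have hcheb : ∫ t in (0 : ℝ)..1, t ^ 2 * g t ^ 3 ≤ 1 / 3 * ∫ t in (0 : ℝ)..1, g t ^ 3 := by
    have hq : IntervalIntegrable (fun t => g t0 ^ 3 * (t ^ 2 - 1 / 3)) volume 0 1 :=
      (by fun_prop : Continuous fun t => g t0 ^ 3 * (t ^ 2 - 1 / 3)).intervalIntegrable _ _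
    have hle : ∫ t in (0 : ℝ)..1, (t ^ 2 * g t ^ 3 - 1 / 3 * g t ^ 3)
        ≤ ∫ t in (0 : ℝ)..1, g t0 ^ 3 * (t ^ 2 - 1 / 3) := by
      refine intervalIntegral.integral_mono_on zero_le_one (h3'.sub ((gp 3).const_mul _)) hq
        fun t ht => ?_
      rcases le_total t t0 with h | h
      · have h1 := pow_le_pow_left₀ (hnn t0 ⟨ht00, ht01⟩) (hg h) 3
        have h2 := pow_le_pow_left₀ ht.1 h 2
        nlinarith
      · have h1 := pow_le_pow_left₀ (hnn t ht) (hg h) 3
        have h2 := pow_le_pow_left₀ ht00 h 2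
        nlinarith
    rw [intervalIntegral.integral_sub h3' ((gp 3).const_mul _),
      intervalIntegral.integral_const_mul] at hle
    have he : ∫ t in (0 : ℝ)..1, g t0 ^ 3 * (t ^ 2 - 1 / 3) = 0 := by simp; norm_num
    linarith
  have hpt : ∫ t in (0 : ℝ)..1, g t ^ 3
      ≤ 3 / 5 / (1291 / 1000) ^ 2 * (∫ t in (0 : ℝ)..1, g t ^ 5) + 2 / 5 * (1291 / 1000) ^ 3 := by
    have hle := intervalIntegral.integral_mono_on zero_le_one (gp 3)
      (((gp 5).const_mul (3 / 5 / (1291 / 1000) ^ 2)).add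
        (intervalIntegrable_const (c := 2 / 5 * (1291 / 1000) ^ 3))) (fun t ht => by
        have hx := hnn t ht
        have := mul_nonneg (sq_nonneg (g t - 1291 / 1000))
          (by positivity : 0 ≤ 3 * g t ^ 3 + 6 * (1291 / 1000) * g t ^ 2
            + 4 * (1291 / 1000) ^ 2 * g t + 2 * (1291 / 1000) ^ 3)
        nlinarith)
    rw [intervalIntegral.integral_add ((gp 5).const_mul _) intervalIntegrable_const,
      intervalIntegral.integral_const_mul, intervalIntegral.integral_const] at hle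
    simpa using hle
  have htri : Y ^ 5 / 6 ≤ ∫ t in (0 : ℝ)..1, g t ^ 5 := by
    have e : ∫ t in (0 : ℝ)..1, Y ^ 5 * (1 - t) ^ 5 = Y ^ 5 / 6 := by
      rw [intervalIntegral.integral_const_mul,
        intervalIntegral.integral_comp_sub_left (fun u : ℝ => u ^ 5) 1]
      norm_num
      ring
    rw [← e]
    refine intervalIntegral.integral_mono_on zero_le_one
      ((by fun_prop : Continuous fun t => Y ^ 5 * (1 - t) ^ 5).intervalIntegrable _ _) (gp 5)
      fun t ht => ?_
    rw [← mul_pow]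
    refine pow_le_pow_left₀ (mul_nonneg hY0 (by linarith [ht.2])) ?_ 5
    have h := hconc.2 (⟨le_rfl, zero_le_one⟩ : (0 : ℝ) ∈ Icc (0 : ℝ) 1)
      (⟨zero_le_one, le_rfl⟩ : (1 : ℝ) ∈ Icc (0 : ℝ) 1) (sub_nonneg.2 ht.2) ht.1 (sub_add_cancel 1 t)
    simp only [smul_eq_mul, mul_zero, mul_one, zero_add] at h
    have := mul_nonneg ht.1 (hnn 1 ⟨zero_le_one, le_rfl⟩)
    nlinarith
  have h5 : Y ^ 5 ≤ (185 / 100) ^ 5 := by linarith
  exact (pow_le_pow_iff_left₀ hY0 (by norm_num) (by norm_num)).1 h5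

lemma pade_le_sqrt {B X : ℝ} (hB : 0 ≤ B) (hBX : B ≤ X) : (4 + 3 * B) / (4 + B) ≤ √(1 + X) := by
  refine le_trans (le_sqrt_of_sq_le ?_) (sqrt_le_sqrt (by linarith : 1 + B ≤ 1 + X))
  rw [div_pow, div_le_iff₀ (by positivity)]
  nlinarith [pow_nonneg hB 3]

/-- The gain below a height exceeds the gain under a chord. -/
lemma chord_le (hconc : ConcaveOn ℝ (Icc (0 : ℝ) 1) g) (hg : Antitone g)
    (hge : ∀ t ∈ Icc (0 : ℝ) 1, √(1 - t ^ 2) ≤ g t) {y s σ : ℝ} (hyY : y ≤ g 0) (hs : 0 ≤ s)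
    (hsy : s ≤ y) (hσ : 0 ≤ σ) (hσs : s ^ 2 + σ ^ 2 = 1) :
    chord4 (levelEnd g y) √(1 - y ^ 2) y s σ ≤ ∫ u in (0 : ℝ)..y, 3 * u * gain g u := by
  set T := levelEnd g y with hT
  have hI : ∀ a b, IntervalIntegrable (fun u => 3 * u * gain g u) volume a b := fun a b =>
    (intervalIntegrable_gain g a b).continuousOn_mul (by fun_prop)
  have h0 : 0 ≤ ∫ u in (0 : ℝ)..s, 3 * u * gain g u :=
    intervalIntegral.integral_nonneg hs fun u hu => by
      have := gain_nonneg hge hu.1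
      have := hu.1
      positivity
  have hsplit := intervalIntegral.integral_add_adjacent_intervals (hI 0 s) (hI s y)
  have hσ' : √(1 - s ^ 2) = σ := by
    rw [← hσs, add_sub_cancel_left, sqrt_sq hσ]
  rcases eq_or_lt_of_le hsy with rfl | hlt
  · have : chord4 T √(1 - s ^ 2) s s σ = 0 := by rw [chord4, hσ']; ring
    rw [this]
    linarith
  set k := (T - σ) / (y - s) with hk
  have hle : ∫ u in s..y, (3 * u * (σ + k * (u - s)) - 3 * u * √(1 - u ^ 2))
      ≤ ∫ u in s..y, 3 * u * gain g u := by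
    refine intervalIntegral.integral_mono_on hsy
      ((by fun_prop : Continuous _).intervalIntegrable _ _) (hI s y) fun u hu => ?_
    have hd : 0 < y - s := sub_pos.2 hlt
    have h := levelEnd_combo hconc hg hge hyY hs hσ hσs (a := (y - u) / (y - s)) (b := (u - s) / (y - s))
      (div_nonneg (sub_nonneg.2 hu.2) hd.le) (div_nonneg (sub_nonneg.2 hu.1) hd.le)
      (by field_simp; ring)
    have e1 : (y - u) / (y - s) * s + (u - s) / (y - s) * y = u := by field_simp; ring
    have e2 : (y - u) / (y - s) * σ + (u - s) / (y - s) * T = σ + k * (u - s) := by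
      rw [hk]; field_simp; ring
    rw [e1, e2] at h
    rw [gain, ← mul_sub]
    exact mul_le_mul_of_nonneg_left (sub_le_sub_right h _) (by linarith [hu.1])
  rw [intervalIntegral.integral_sub ((by fun_prop : Continuous _).intervalIntegrable _ _)
    ((by fun_prop : Continuous _).intervalIntegrable _ _), integral_mul_sqrt hs hsy,
    intervalIntegral.integral_eq_sub_of_hasDerivAt
      (f := fun u => 3 * (σ - k * s) * (u ^ 2 / 2) + 3 * k * (u ^ 3 / 3))
      (fun u _ => ((((hasDerivAt_pow 2 u).div_const 2).const_mul (3 * (σ - k * s))).fun_add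
        (((hasDerivAt_pow 3 u).div_const 3).const_mul (3 * k))).congr_deriv (by norm_num; ring))
      ((by fun_prop : Continuous _).intervalIntegrable _ _), hσ'] at hle
  have e : chord4 T √(1 - y ^ 2) y s σ = 3 * (σ - k * s) * (y ^ 2 / 2) + 3 * k * (y ^ 3 / 3)
      - (3 * (σ - k * s) * (s ^ 2 / 2) + 3 * k * (s ^ 3 / 3)) - (σ ^ 3 - √(1 - y ^ 2) ^ 3) := by
    have hT' : T = σ + k * (y - s) := by
      rw [hk, div_mul_cancel₀ _ (sub_ne_zero.2 hlt.ne'), add_sub_cancel]
    rw [chord4, hT']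
    ring
  rw [e]
  linarith

/-- The derivative in the height of `Hfun4`. -/
noncomputable def psi4 (t y : ℝ) : ℝ :=
  16 / π * y ^ 2 + 7748 / 10000 * (3 * t ^ 2 * y ^ 2 - y ^ 4) + psiH4 t y + 1 / 1000 * y

lemma hasDerivAt_Hfun4 (t y : ℝ) : HasDerivAt (Hfun4 t) (psi4 t y) y := by
  unfold Hfun4
  refine (((((hasDerivAt_pow 3 y).const_mul _).fun_add
    ((((hasDerivAt_pow 3 y).const_mul _).fun_sub ((hasDerivAt_pow 5 y).div_const _)).const_mul _)).fun_add
    (hasDerivAt_H4 t y)).fun_add ((hasDerivAt_pow 2 y).const_mul _)).congr_deriv ?_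
  have := pi_pos
  simp only [psi4]
  field_simp
  push_cast
  ring

lemma integral_psi4 (l T y : ℝ) :
    ∫ t in l..T, psi4 t y = (T - l) * (16 / π * y ^ 2
      + 7748 / 10000 * (y ^ 2 * (T ^ 2 + T * l + l ^ 2) - y ^ 4) + y * hq4 T l y + 1 / 1000 * y) := by
  rw [intervalIntegral.integral_eq_sub_of_hasDerivAt
    (f := fun t => 16 / π * y ^ 2 * t + 7748 / 10000 * (y ^ 2 * t ^ 3 - y ^ 4 * t) + PhiH4 t y
      + 1 / 1000 * y * t)
    (fun t _ => (((((hasDerivAt_id' t).const_mul _).fun_add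
      ((((hasDerivAt_pow 3 t).const_mul _).fun_sub ((hasDerivAt_id' t).const_mul _)).const_mul _)).fun_add
      (hasDerivAt_PhiH4 t y)).fun_add ((hasDerivAt_id' t).const_mul _)).congr_deriv (by
        simp only [psi4]; push_cast; ring))
    ((by
      unfold psi4
      exact ((continuous_const.add (by fun_prop)).add
        (continuous_psiH4.comp (continuous_id.prodMk continuous_const))).add continuous_const
      : Continuous fun t => psi4 t y).intervalIntegrable _ _)]
  linear_combination PhiH4_sub T l y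

/-- The pointwise inequality on a level. -/
lemma level4 (hcert : Cert4) (hconc : ConcaveOn ℝ (Icc (0 : ℝ) 1) g) (hg : Antitone g)
    (hge : ∀ t ∈ Icc (0 : ℝ) 1, √(1 - t ^ 2) ≤ g t) (hY : g 0 ≤ 185 / 100) {y : ℝ} (hy : 0 < y)
    (hyY : y ≤ g 0) :
    ∫ t in √(1 - y ^ 2)..levelEnd g y, psi4 t y ≤
      9 / 2 * y * gain g y * √(1 + ∫ u in (0 : ℝ)..y, 3 * u * gain g u) := by
  set T := levelEnd g y with hT
  set l := √(1 - y ^ 2) with hl
  set X := ∫ u in (0 : ℝ)..y, 3 * u * gain g u with hX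
  have hd : gain g y = T - l := rfl
  have hd0 := gain_nonneg hge hy.le
  have hcirc : (y ≤ 1 ∧ l ^ 2 + y ^ 2 = 1) ∨ (1 ≤ y ∧ l = 0) := by
    rcases le_total y 1 with h | h
    · exact Or.inl ⟨h, by rw [hl, sq_sqrt (by nlinarith)]; ring⟩
    · exact Or.inr ⟨h, sqrt_eq_zero'.2 (by nlinarith)⟩
  obtain ⟨B, hB0, hB, hbrk⟩ := hcert T l y hy (hyY.trans hY) (sqrt_nonneg _)
    (sub_nonneg.1 (hd ▸ hd0)) (levelEnd_le_one g y) hcirc
  have hX0 : 0 ≤ X := intervalIntegral.integral_nonneg hy.le fun u hu => by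
    have := gain_nonneg hge hu.1
    have := hu.1
    positivity
  have hBX : B ≤ X := by
    rcases hB with h | ⟨s, σ, hs, hsy, hσ, hσs, h⟩
    · exact h ▸ hX0
    · exact h.trans (chord_le hconc hg hge hyY hs hsy hσ hσs)
  have hp := mul_le_mul_of_nonneg_left (pade_le_sqrt hB0 hBX) (by positivity : (0 : ℝ) ≤ 9 / 2)
  have hpi : 16 / π ≤ 509296 / 100000 := by
    rw [div_le_iff₀ pi_pos]
    nlinarith [pi_gt_d6]
  rw [integral_psi4, hd]
  unfold brk4 at hbrk
  have key : 16 / π * y + 7748 / 10000 * (y * (T ^ 2 + T * l + l ^ 2) - y ^ 3) + hq4 T l y + 1 / 1000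
      ≤ 9 / 2 * √(1 + X) := by
    have := mul_le_mul_of_nonneg_right hpi hy.le
    linarith
  have h2 := mul_le_mul_of_nonneg_left key (mul_nonneg (hd ▸ hd0 : 0 ≤ T - l) hy.le)
  nlinarith [h2]

lemma int_c3 : ∫ t in (0 : ℝ)..1, √(1 - t ^ 2) ^ 3 = 3 * π / 16 := by
  have hc1 : ∫ t in (0 : ℝ)..1, √(1 - t ^ 2) = π / 4 := by
    have hcc : Continuous fun t : ℝ => √(1 - t ^ 2) := by fun_prop
    have hneg := intervalIntegral.integral_comp_neg (fun t : ℝ => √(1 - t ^ 2)) (a := (0 : ℝ)) (b := 1)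
    simp only [neg_zero, neg_sq] at hneg
    have hadd := intervalIntegral.integral_add_adjacent_intervals
      (hcc.intervalIntegrable (μ := volume) (-1 : ℝ) 0) (hcc.intervalIntegrable (μ := volume) 0 1)
    have := integral_sqrt_one_sub_sq
    linarith
  have h := intervalIntegral.integral_eq_sub_of_hasDerivAt_of_le zero_le_one
    (f := fun t : ℝ => t * √(1 - t ^ 2) ^ 3)
    (f' := fun t => 4 * √(1 - t ^ 2) ^ 3 - 3 * √(1 - t ^ 2)) (by fun_prop) (fun t ht => by
      have h1 : 0 < 1 - t ^ 2 := by nlinarith [ht.1, ht.2]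
      have h0 := (sqrt_pos.2 h1).ne'
      have hs := sq_sqrt h1.le
      refine ((hasDerivAt_id' t).fun_mul ((((hasDerivAt_pow 2 t).const_sub 1).sqrt h1.ne').fun_pow 3)).congr_deriv ?_
      simp only [one_mul, Nat.add_one_sub_one, pow_one, Nat.cast_ofNat]
      field_simp
      linear_combination (-3) * hs)
    ((by fun_prop : Continuous fun t : ℝ => 4 * √(1 - t ^ 2) ^ 3 - 3 * √(1 - t ^ 2)).intervalIntegrable _ _)
  rw [intervalIntegral.integral_sub ((by fun_prop : Continuous fun t : ℝ => 4 * √(1 - t ^ 2) ^ 3).intervalIntegrable _ _)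
    ((by fun_prop : Continuous fun t : ℝ => 3 * √(1 - t ^ 2)).intervalIntegrable _ _),
    intervalIntegral.integral_const_mul, intervalIntegral.integral_const_mul, hc1] at h
  simp at h
  linarith

lemma int_c_test : ∫ t in (0 : ℝ)..1, (t ^ 2 * √(1 - t ^ 2) ^ 3 - √(1 - t ^ 2) ^ 5 / 5) = 0 := by
  rw [intervalIntegral.integral_eq_sub_of_hasDerivAt_of_le zero_le_one
    (f := fun t : ℝ => -(t * √(1 - t ^ 2) ^ 5) / 5) (by fun_prop) (fun t ht => by
      have h1 : 0 < 1 - t ^ 2 := by nlinarith [ht.1, ht.2]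
      have h0 := (sqrt_pos.2 h1).ne'
      refine ((((hasDerivAt_id' t).fun_mul
        ((((hasDerivAt_pow 2 t).const_sub 1).sqrt h1.ne').fun_pow 5)).neg).div_const 5).congr_deriv ?_
      simp only [one_mul, Nat.add_one_sub_one, pow_one, Nat.cast_ofNat]
      field_simp
      ring)
    ((by fun_prop : Continuous fun t : ℝ =>
      t ^ 2 * √(1 - t ^ 2) ^ 3 - √(1 - t ^ 2) ^ 5 / 5).intervalIntegrable _ _)]
  simp

/-- The profile inequality in dimension four, with slack. -/
theorem profile4_aux (hP : P4Nonneg) (hcert : Cert4) (hconc : ConcaveOn ℝ (Icc (0 : ℝ) 1) g)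
    (hg : Antitone g) (hnn : ∀ t ∈ Icc (0 : ℝ) 1, 0 ≤ g t)
    (hge : ∀ t ∈ Icc (0 : ℝ) 1, √(1 - t ^ 2) ≤ g t)
    (hC : (∫ t in (0 : ℝ)..1, g t ^ 5) / 5 ≤ ∫ t in (0 : ℝ)..1, t ^ 2 * g t ^ 3) :
    16 / (3 * π) * (∫ t in (0 : ℝ)..1, g t ^ 3) + 1 / 2000 * ((∫ t in (0 : ℝ)..1, g t ^ 2) - 2 / 3)
      ≤ √(3 / 2 * ∫ t in (0 : ℝ)..1, g t ^ 2) ^ 3 := by
  have hπ := pi_pos
  have hY := height_le hg hnn hconc hC
  set Y := g 0 with hYdef
  have hY0 : 0 ≤ Y := hnn 0 ⟨le_rfl, zero_le_one⟩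
  set c : ℝ → ℝ := fun t => √(1 - t ^ 2) with hc
  have hcc : Continuous c := by fun_prop
  have gp : ∀ p : ℕ, IntervalIntegrable (fun t => g t ^ p) volume 0 1 := fun p => by
    refine AntitoneOn.intervalIntegrable ?_
    rw [uIcc_of_le zero_le_one]
    exact fun a _ b hb hab => pow_le_pow_left₀ (hnn b hb) (hg hab) p
  have hcont : Continuous (Function.uncurry psi4) := by
    unfold psi4 Function.uncurry
    exact ((by fun_prop : Continuous fun p : ℝ × ℝ => 16 / π * p.2 ^ 2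
      + 7748 / 10000 * (3 * p.1 ^ 2 * p.2 ^ 2 - p.2 ^ 4)).add continuous_psiH4).add (by fun_prop)
  have L1 := layer_cake hg hge hcont hasDerivAt_Hfun4
  have L2 := layer_cake hg hge (ψ := fun _ y => 3 * y) (Ψ := fun _ y => 3 / 2 * y ^ 2) (by fun_prop)
    (fun t y => ((hasDerivAt_pow 2 y).const_mul (3 / 2 : ℝ)).congr_deriv (by norm_num; ring))
  set X : ℝ → ℝ := fun y => ∫ u in (0 : ℝ)..y, 3 * u * gain g u with hX
  have hI : ∀ a b, IntervalIntegrable (fun u => 3 * u * gain g u) volume a b := fun a b =>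
    (intervalIntegrable_gain g a b).continuousOn_mul (by fun_prop)
  have hXc : Continuous X := intervalIntegral.continuous_primitive hI 0
  have hX0 : ∀ y, 0 ≤ y → 0 ≤ X y := fun y hy =>
    intervalIntegral.integral_nonneg hy fun u hu => by
      have := gain_nonneg hge hu.1
      have := hu.1
      positivity
  have hgm : Measurable (gain g) :=
    (levelEnd_antitone g).measurable.sub (by fun_prop : Measurable fun y : ℝ => √(1 - y ^ 2))
  -- the exact derivative of the bonus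
  have hFi : IntervalIntegrable (fun y => 9 / 2 * y * gain g y * √(1 + X y)) volume 0 Y :=
    (((intervalIntegrable_gain g 0 Y).continuousOn_mul
      (by fun_prop : ContinuousOn (fun y : ℝ => 9 / 2 * y) _))).mul_continuousOn
      (by fun_prop : Continuous fun y => √(1 + X y)).continuousOn
  have hbonus : ∫ y in (0 : ℝ)..Y, 9 / 2 * y * gain g y * √(1 + X y) = √(1 + X Y) ^ 3 - 1 := by
    rw [integral_eq_of_hasDerivAt_off_countable_of_le (fun y => √(1 + X y) ^ 3) _ hY0
      (levelEnd_antitone g).countable_not_continuousAt (by fun_prop) (fun y hy => ?_) hFi]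
    · simp [hX]
    · have hca : ContinuousAt (levelEnd g) y := not_not.1 hy.2
      have hga : ContinuousAt (fun u => 3 * u * gain g u) y := by
        have hs : ContinuousAt (fun u : ℝ => √(1 - u ^ 2)) y := by fun_prop
        exact (by fun_prop : ContinuousAt (fun u : ℝ => 3 * u) y).mul (hca.sub hs)
      have hd : HasDerivAt X (3 * y * gain g y) y :=
        intervalIntegral.integral_hasDerivAt_right (hI 0 y)
          (((by fun_prop : Measurable fun u : ℝ => 3 * u).mul hgm).stronglyMeasurable.stronglyMeasurableAtFilter) hga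
      have hpos : (1 : ℝ) + X y ≠ 0 := by linarith [hX0 y hy.1.1.le]
      refine (((hd.const_add 1).sqrt hpos).fun_pow 3).congr_deriv ?_
      have h0 := (sqrt_pos.2 (by linarith [hX0 y hy.1.1.le] : (0 : ℝ) < 1 + X y)).ne'
      field_simp
      push_cast
      ring
  have hXY : X Y = 3 / 2 * (∫ t in (0 : ℝ)..1, g t ^ 2) - 1 := by
    have e : X Y = ∫ y in (0 : ℝ)..Y, ∫ _t in √(1 - y ^ 2)..levelEnd g y, 3 * y :=
      intervalIntegral.integral_congr fun y _ => by simp [gain]; ring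
    rw [e, ← L2, intervalIntegral.integral_sub ((gp 2).const_mul _)
      ((by fun_prop : Continuous _).intervalIntegrable _ _), intervalIntegral.integral_const_mul]
    have hsq : ∫ t in (0 : ℝ)..1, 3 / 2 * √(1 - t ^ 2) ^ 2 = 1 := by
      rw [intervalIntegral.integral_congr (g := fun t => 3 / 2 - 3 / 2 * t ^ 2) fun t ht => ?_]
      · rw [intervalIntegral.integral_sub intervalIntegrable_const
          ((by fun_prop : Continuous _).intervalIntegrable _ _)]
        simp
        norm_num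
      · rw [uIcc_of_le zero_le_one] at ht
        simp only
        rw [sq_sqrt (by nlinarith [ht.1, ht.2])]
        ring
    rw [hsq]
  have hin : IntervalIntegrable (fun y => ∫ t in √(1 - y ^ 2)..levelEnd g y, psi4 t y) volume 0 Y := by
    have e : (fun y => ∫ t in √(1 - y ^ 2)..levelEnd g y, psi4 t y) = fun y => gain g y *
        (16 / π * y ^ 2 + 7748 / 10000 * (y ^ 2 * (levelEnd g y ^ 2 + levelEnd g y * √(1 - y ^ 2)
          + √(1 - y ^ 2) ^ 2) - y ^ 4) + y * hq4 (levelEnd g y) √(1 - y ^ 2) y + 1 / 1000 * y) :=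
      funext fun y => integral_psi4 _ _ _
    rw [e, intervalIntegrable_iff]
    have hcm : Continuous fun p : ℝ × ℝ => 16 / π * p.1 ^ 2 + 7748 / 10000 * (p.1 ^ 2 * (p.2 ^ 2
        + p.2 * √(1 - p.1 ^ 2) + √(1 - p.1 ^ 2) ^ 2) - p.1 ^ 4)
        + p.1 * hq4 p.2 √(1 - p.1 ^ 2) p.1 + 1 / 1000 * p.1 := by
      simp only [hq4, hS0, hS1, hS2, hS3, hS4, hS5, hS6, hS7]
      fun_prop
    obtain ⟨M, hM⟩ := ((isCompact_uIcc (a := (0 : ℝ)) (b := Y)).prod
      (isCompact_Icc (a := (0 : ℝ)) (b := 1))).exists_bound_of_continuousOn hcm.continuousOn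
    refine Integrable.mul_bdd (intervalIntegrable_iff.1 (intervalIntegrable_gain g 0 Y)) ?_ (c := M) ?_
    · exact (hcm.measurable.comp
        (measurable_id.prodMk (levelEnd_antitone g).measurable)).aestronglyMeasurable
    · filter_upwards [ae_restrict_mem measurableSet_uIoc] with y hy
      exact hM (y, levelEnd g y) ⟨uIoc_subset_uIcc hy, levelEnd_nonneg g y, levelEnd_le_one g y⟩
  have hmain : ∫ y in (0 : ℝ)..Y, ∫ t in √(1 - y ^ 2)..levelEnd g y, psi4 t y
      ≤ √(1 + X Y) ^ 3 - 1 := by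
    rw [← hbonus]
    exact intervalIntegral.integral_mono_on_of_le_Ioo hY0 hin hFi fun y hy =>
      level4 hcert hconc hg hge hY hy.1 hy.2.le
  rw [← L1] at hmain
  -- the integral of the test function
  have i5 : IntervalIntegrable (fun t => g t ^ 5 / 5) volume 0 1 := (gp 5).div_const 5
  have i23 : IntervalIntegrable (fun t => t ^ 2 * g t ^ 3) volume 0 1 :=
    (gp 3).continuousOn_mul (by fun_prop)
  set G : ℝ → ℝ := fun t => 16 / (3 * π) * g t ^ 3 + 7748 / 10000 * (t ^ 2 * g t ^ 3 - g t ^ 5 / 5)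
    + 1 / 2000 * g t ^ 2 with hG
  set C : ℝ → ℝ := fun t => 16 / (3 * π) * c t ^ 3 + 7748 / 10000 * (t ^ 2 * c t ^ 3 - c t ^ 5 / 5)
    + 1 / 2000 * c t ^ 2 with hCdef
  have hGi : IntervalIntegrable G volume 0 1 :=
    (((gp 3).const_mul _).add ((i23.sub i5).const_mul _)).add ((gp 2).const_mul _)
  have hCi : IntervalIntegrable C volume 0 1 := (by fun_prop : Continuous C).intervalIntegrable _ _
  have hle : ∫ t in (0 : ℝ)..1, (G t - C t) ≤ ∫ t in (0 : ℝ)..1, (Hfun4 t (g t) - Hfun4 t (c t)) := by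
    have hHi : IntervalIntegrable (fun t => Hfun4 t (g t) - Hfun4 t (c t)) volume 0 1 := by
      have hcH : Continuous (Function.uncurry Hfun4) := by
        unfold Hfun4 P4 Function.uncurry
        fun_prop
      obtain ⟨M, hM⟩ := ((isCompact_uIcc (a := (0 : ℝ)) (b := 1)).prod
        (isCompact_Icc (a := (0 : ℝ)) (b := Y))).exists_bound_of_continuousOn hcH.continuousOn
      refine IntervalIntegrable.sub ?_ ((hcH.comp (continuous_id.prodMk hcc)).intervalIntegrable _ _)
      rw [intervalIntegrable_iff]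
      refine Measure.integrableOn_of_bounded measure_Ioc_lt_top.ne
        (hcH.measurable.comp (measurable_id.prodMk hg.measurable)).aestronglyMeasurable (M := M) ?_
      filter_upwards [ae_restrict_mem measurableSet_uIoc] with t ht
      rw [uIoc_of_le zero_le_one] at ht
      exact hM (t, g t) ⟨by rw [uIcc_of_le zero_le_one]; exact Ioc_subset_Icc_self ht,
        hnn t (Ioc_subset_Icc_self ht), hg ht.1.le⟩
    refine intervalIntegral.integral_mono_on zero_le_one (hGi.sub hCi) hHi fun t ht => ?_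
    have hct : c t ^ 2 = 1 - t ^ 2 := sq_sqrt (by nlinarith [ht.1, ht.2])
    have hgc : c t ≤ g t := hge t ht
    have hg2 : 1 ≤ t ^ 2 + g t ^ 2 := by
      nlinarith [pow_le_pow_left₀ (sqrt_nonneg (1 - t ^ 2)) hgc 2]
    have hp := hP t (g t) ht.1 ht.2 (hnn t ht) ((hg ht.1).trans hY) hg2
    have h2 : 0 ≤ g t ^ 3 * (t ^ 2 + g t ^ 2 - 1) * P4 t (g t) :=
      mul_nonneg (mul_nonneg (pow_nonneg (hnn t ht) 3) (by linarith)) hp
    have e : c t ^ 3 * (t ^ 2 + c t ^ 2 - 1) * P4 t (c t) = 0 := by rw [hct]; ring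
    simp only [hG, hCdef, Hfun4]
    linarith
  have hGv : ∫ t in (0 : ℝ)..1, G t = 16 / (3 * π) * (∫ t in (0 : ℝ)..1, g t ^ 3)
      + 7748 / 10000 * ((∫ t in (0 : ℝ)..1, t ^ 2 * g t ^ 3) - (∫ t in (0 : ℝ)..1, g t ^ 5) / 5)
      + 1 / 2000 * (∫ t in (0 : ℝ)..1, g t ^ 2) := by
    simp only [hG]
    rw [intervalIntegral.integral_add (((gp 3).const_mul _).add ((i23.sub i5).const_mul _))
        ((gp 2).const_mul _),
      intervalIntegral.integral_add ((gp 3).const_mul _) ((i23.sub i5).const_mul _),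
      intervalIntegral.integral_const_mul, intervalIntegral.integral_const_mul,
      intervalIntegral.integral_const_mul, intervalIntegral.integral_sub i23 i5,
      intervalIntegral.integral_div]
  have hCv : ∫ t in (0 : ℝ)..1, C t = 1 + 1 / 2000 * (2 / 3) := by
    simp only [hCdef, hc]
    rw [intervalIntegral.integral_add ((by fun_prop : Continuous _).intervalIntegrable _ _)
        ((by fun_prop : Continuous _).intervalIntegrable _ _),
      intervalIntegral.integral_add ((by fun_prop : Continuous _).intervalIntegrable _ _)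
        ((by fun_prop : Continuous _).intervalIntegrable _ _),
      intervalIntegral.integral_const_mul, intervalIntegral.integral_const_mul,
      intervalIntegral.integral_const_mul, int_c3, int_c_test]
    have hsq : ∫ t in (0 : ℝ)..1, √(1 - t ^ 2) ^ 2 = 2 / 3 := by
      rw [intervalIntegral.integral_congr (g := fun t => 1 - t ^ 2) fun t ht => ?_]
      · rw [intervalIntegral.integral_sub intervalIntegrable_const
          ((by fun_prop : Continuous _).intervalIntegrable _ _)]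
        simp
        norm_num
      · rw [uIcc_of_le zero_le_one] at ht
        exact sq_sqrt (by nlinarith [ht.1, ht.2])
    rw [hsq]
    field_simp
    ring
  rw [intervalIntegral.integral_sub hGi hCi, hGv, hCv] at hle
  rw [show (3 / 2 : ℝ) * ∫ t in (0 : ℝ)..1, g t ^ 2 = 1 + X Y by rw [hXY]; ring]
  have := hle.trans hmain
  nlinarith [hC]

end Vale.Agent.P237N
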