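import Vale.Agent.P237U.Profile3

/-!
# The profile inequality needed in dimension five
-/

namespace Vale.Agent.P237N

open MeasureTheory Set Real Vale.Agent.P237U

/-- The profile inequality in dimension five, with slack. -/
def Profile5 : Prop :=
  ∀ g : ℝ → ℝ, ConcaveOn ℝ (Icc (0 : ℝ) 1) g → Antitone g → (∀ t ∈ Icc (0 : ℝ) 1, 0 ≤ g t) →
    (∀ t ∈ Icc (0 : ℝ) 1, √(1 - t ^ 2) ≤ g t) →
    (∫ t in (0 : ℝ)..1, g t ^ 6) / 6 ≤ (∫ t in (0 : ℝ)..1, t ^ 2 * g t ^ 4) →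
    (∫ t in (0 : ℝ)..1, g t ^ 4) + 1 / 3000 * ((∫ t in (0 : ℝ)..1, g t ^ 3) - 3 * π / 16)
      ≤ 8 / 15 * (16 / (3 * π) * ∫ t in (0 : ℝ)..1, g t ^ 3) ^ ((4 : ℝ) / 3)

end Vale.Agent.P237N
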