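import Vale.Agent.P237U.Profile3

/-!
# A lower bound for the boundary term of a concave profile

For a concave antitone profile above the circle, the slope at a point is at most the slope of
the segment to any point of the circle. So an integral `∫ H (t, g t)` dominates an integral over
the heights, by the change of variables for antitone functions.
-/

namespace Vale.Agent.P237N

open MeasureTheory Set Filter Topology Real Vale.Agent.P237U

variable {g : ℝ → ℝ}

lemma image_null_of_concave (hconc : ConcaveOn ℝ (Icc (0 : ℝ) 1) g) (hg : Antitone g)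
    (hnn : ∀ t ∈ Icc (0 : ℝ) 1, 0 ≤ g t) {N : Set ℝ} (hN : N ⊆ Ioo 0 1) (hN0 : volume N = 0) :
    volume (g '' N) = 0 := by
  have hk : ∀ k : ℕ, volume (g '' (N ∩ Icc 0 (1 - 1 / ((k : ℝ) + 2)))) = 0 := by
    intro k
    set b : ℝ := 1 - 1 / ((k : ℝ) + 2) with hb
    have hb1 : b < 1 := by
      have : (0 : ℝ) < 1 / ((k : ℝ) + 2) := by positivity
      linarith
    have hY : 0 ≤ g 0 := hnn 0 ⟨le_rfl, zero_le_one⟩
    have hL : LipschitzOnWith (g 0 / (1 - b)).toNNReal g (Icc 0 b) := by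
      refine LipschitzOnWith.of_le_add_mul' _ fun x hx z hz => ?_
      rcases le_total z x with h | h
      · have := hg h
        have : 0 ≤ g 0 / (1 - b) * dist x z := mul_nonneg (div_nonneg hY (by linarith)) dist_nonneg
        linarith
      · have hx1 : 0 < 1 - x := by linarith [hx.2]
        have hz1 : z ≤ 1 := by linarith [hz.2]
        have hc := hconc.2 (⟨hx.1, by linarith [hx.2]⟩ : x ∈ Icc (0 : ℝ) 1)
          (⟨zero_le_one, le_rfl⟩ : (1 : ℝ) ∈ Icc (0 : ℝ) 1)
          (div_nonneg (by linarith : (0 : ℝ) ≤ 1 - z) hx1.le)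
          (div_nonneg (by linarith : (0 : ℝ) ≤ z - x) hx1.le) (by field_simp; ring)
        have e : (1 - z) / (1 - x) * x + (z - x) / (1 - x) * 1 = z := by field_simp; ring
        simp only [smul_eq_mul, e] at hc
        have h1 := mul_nonneg (div_nonneg (by linarith : 0 ≤ z - x) hx1.le)
          (hnn 1 ⟨zero_le_one, le_rfl⟩)
        have e2 : (1 - z) / (1 - x) * g x = g x - (z - x) / (1 - x) * g x := by field_simp; ring
        have h2 : (z - x) / (1 - x) * g x ≤ g 0 / (1 - b) * (z - x) := by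
          rw [div_mul_eq_mul_div, div_mul_eq_mul_div, div_le_div_iff₀ hx1 (by linarith)]
          have h3 := mul_le_mul (hg hx.1) (by linarith [hx.2] : 1 - b ≤ 1 - x) (by linarith) hY
          have := mul_le_mul_of_nonneg_left h3 (by linarith : 0 ≤ z - x)
          linarith
        rw [Real.dist_eq, abs_sub_comm, abs_of_nonneg (by linarith : 0 ≤ z - x)]
        linarith
    have h0 : μH[1] (g '' (N ∩ Icc 0 b)) ≤ _ := (hL.mono inter_subset_right).hausdorffMeasure_image_le zero_le_one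
    rw [hausdorffMeasure_real, measure_mono_null inter_subset_left hN0, mul_zero] at h0
    exact le_antisymm h0 zero_le
  refine measure_mono_null ?_ (measure_iUnion_null hk)
  rintro _ ⟨t, ht, rfl⟩
  obtain ⟨k, hkt⟩ := exists_nat_gt (1 / (1 - t))
  have ht1 : 0 < 1 - t := by linarith [(hN ht).2]
  refine mem_iUnion.2 ⟨k, mem_image_of_mem g ⟨ht, (hN ht).1.le, ?_⟩⟩
  rw [div_lt_iff₀ ht1] at hkt
  have : 1 / ((k : ℝ) + 2) ≤ 1 - t := by
    rw [div_le_iff₀ (by positivity)]
    nlinarith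
  linarith

lemma mem_image_of_levelEnd_lt_one (hconc : ConcaveOn ℝ (Icc (0 : ℝ) 1) g) (_hg : Antitone g)
    {y : ℝ} (hy : y < g 0) (hT : levelEnd g y < 1) : y ∈ g '' Ioo 0 1 := by
  set T := levelEnd g y
  set b := (1 + T) / 2 with hb
  have hT0 : 0 ≤ T := levelEnd_nonneg g y
  have hb0 : 0 < b := by rw [hb]; linarith
  have hb1 : b < 1 := by rw [hb]; linarith
  have hgb : g b < y := by
    by_contra hcon
    push Not at hcon
    have : b ≤ T := le_levelEnd ⟨hb0.le, hb1.le⟩ hcon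
    rw [hb] at this
    linarith
  have hd : 0 < g 0 - g b := by linarith
  set lam : ℝ := (y - g b) / (g 0 - g b) with hlam
  have hl0 : 0 < lam := div_pos (by linarith) hd
  have hl1 : lam < 1 := (div_lt_one hd).2 (by linarith)
  set a := (1 - lam) * b with ha
  have ha0 : 0 < a := mul_pos (by linarith) hb0
  have hab : a < b := by
    have := mul_pos hl0 hb0
    rw [ha]
    linarith
  have hga : y ≤ g a := by
    have hc := hconc.2 (⟨le_rfl, zero_le_one⟩ : (0 : ℝ) ∈ Icc (0 : ℝ) 1)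
      (⟨hb0.le, hb1.le⟩ : b ∈ Icc (0 : ℝ) 1) hl0.le (by linarith : 0 ≤ 1 - lam) (by ring)
    simp only [smul_eq_mul, mul_zero, zero_add] at hc
    refine le_trans (le_of_eq ?_) hc
    rw [hlam]
    field_simp
    ring
  have hco : ContinuousOn g (Icc a b) :=
    ((hconc.subset Ioo_subset_Icc_self (convex_Ioo 0 1)).continuousOn isOpen_Ioo).mono
      fun t ht => ⟨ha0.trans_le ht.1, ht.2.trans_lt hb1⟩
  obtain ⟨t, ht, hgt⟩ := intermediate_value_Icc' hab.le hco ⟨hgb.le, hga⟩
  exact ⟨t, ⟨ha0.trans_le ht.1, ht.2.trans_lt hb1⟩, hgt⟩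

/-- A nonnegative function of the height dominated by `H` times the slope to a point of the
circle has integral at most the integral of `H` along the profile. -/
theorem slope_bonus (hconc : ConcaveOn ℝ (Icc (0 : ℝ) 1) g) (hg : Antitone g)
    (hnn : ∀ t ∈ Icc (0 : ℝ) 1, 0 ≤ g t) (hge : ∀ t ∈ Icc (0 : ℝ) 1, √(1 - t ^ 2) ≤ g t)
    {H : ℝ → ℝ → ℝ} (hH : IntervalIntegrable (fun t => H t (g t)) volume 0 1)
    (hH0 : ∀ t ∈ Icc (0 : ℝ) 1, 0 ≤ H t (g t)) {φ : ℝ → ℝ}
    (hφi : IntervalIntegrable φ volume 0 (g 0))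
    (hφ : ∀ y ∈ Ioc 0 (g 0), φ y = 0 ∨ ∃ s σ, 0 ≤ s ∧ s < y ∧ 0 ≤ σ ∧ s ^ 2 + σ ^ 2 = 1 ∧
      levelEnd g y < σ ∧ φ y * (y - s) ≤ H (levelEnd g y) y * (σ - levelEnd g y)) :
    ∫ y in (0 : ℝ)..(g 0), φ y ≤ ∫ t in (0 : ℝ)..1, H t (g t) := by
  set D : Set ℝ := Ioo 0 1 ∩ {t | DifferentiableAt ℝ g t} with hD
  have hDm : MeasurableSet D := measurableSet_Ioo.inter (measurableSet_of_differentiableAt ℝ g)
  have hD01 : D ⊆ Ioo 0 1 := inter_subset_left
  have hae : ∀ᵐ t, DifferentiableAt ℝ g t := by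
    filter_upwards [(hg.neg).ae_differentiableAt (f := fun x => -g x)] with t ht
    simpa using ht.neg
  have hN : volume (Ioo (0 : ℝ) 1 \ D) = 0 := by
    refine measure_mono_null ?_ (ae_iff.1 hae)
    intro t ht htd
    exact ht.2 ⟨ht.1, htd⟩
  have hY0 : 0 ≤ g 0 := hnn 0 ⟨le_rfl, zero_le_one⟩
  have himg : g '' D ⊆ Ioc 0 (g 0) := by
    rintro _ ⟨t, ht, rfl⟩
    refine ⟨lt_of_lt_of_le (sqrt_pos.2 ?_) (hge t (Ioo_subset_Icc_self (hD01 ht))), hg (hD01 ht).1.le⟩
    nlinarith [(hD01 ht).1, (hD01 ht).2]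
  have hd : ∀ t ∈ D, HasDerivWithinAt g (deriv g t) D t := fun t ht =>
    ht.2.hasDerivAt.hasDerivWithinAt
  have hga : AntitoneOn g D := hg.antitoneOn D
  rw [intervalIntegrable_iff_integrableOn_Ioc_of_le hY0] at hφi
  rw [intervalIntegrable_iff_integrableOn_Ioc_of_le zero_le_one] at hH
  have h1 : ∫ y in (0 : ℝ)..(g 0), φ y = ∫ y in g '' D, φ y := by
    rw [intervalIntegral.integral_of_le hY0]
    refine setIntegral_eq_of_subset_of_ae_sdiff_eq_zero (f := φ) measurableSet_Ioc.nullMeasurableSet himg ?_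
    filter_upwards [compl_mem_ae_iff.2 (image_null_of_concave hconc hg hnn
      (N := Ioo (0 : ℝ) 1 \ D) sdiff_subset hN),
      compl_mem_ae_iff.2 (measure_singleton (g 0))] with y hyN hy0 hy
    have hy0' : y < g 0 := lt_of_le_of_ne hy.1.2 hy0
    rcases hφ y hy.1 with h | ⟨s, σ, hs, -, hσ, hsσ, hTσ, -⟩
    · exact h
    exfalso
    have hT1 : levelEnd g y < 1 := hTσ.trans_le (by nlinarith)
    obtain ⟨t, ht, rfl⟩ := mem_image_of_levelEnd_lt_one hconc hg hy0' hT1
    by_cases htD : t ∈ D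
    · exact hy.2 ⟨t, htD, rfl⟩
    · exact hyN ⟨t, ⟨ht, htD⟩, rfl⟩
  rw [h1, integral_image_eq_integral_deriv_smul_of_antitoneOn hDm hd hga φ,
    intervalIntegral.integral_of_le zero_le_one]
  have hfi : IntegrableOn (fun t => (-deriv g t) • φ (g t)) D :=
    (integrableOn_image_iff_integrableOn_deriv_smul_of_antitoneOn hDm hd hga φ).1
      (hφi.mono_set himg)
  refine le_trans (setIntegral_mono_on hfi (hH.mono_set (hD01.trans Ioo_subset_Ioc_self)) hDm ?_)
    (setIntegral_mono_set hH ?_ (hD01.trans Ioo_subset_Ioc_self).eventuallyLE)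
  · intro t ht
    have htI : t ∈ Icc (0 : ℝ) 1 := Ioo_subset_Icc_self (hD01 ht)
    have hHt := hH0 t htI
    set y := g t with hy
    have hyI : y ∈ Ioc 0 (g 0) := himg ⟨t, ht, rfl⟩
    have hder : deriv g t ≤ 0 := by
      exact hg.deriv_nonpos
    rw [smul_eq_mul]
    rcases hder.lt_or_eq with hneg | hz
    swap
    · rw [hz, neg_zero, zero_mul]
      exact hHt
    rcases hφ y hyI with h | ⟨s, σ, hs, hsy, hσ, hsσ, hTσ, hle⟩
    · rw [h, mul_zero]
      exact hHt
    have hTt : levelEnd g y = t := by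
      refine le_antisymm ?_ (le_levelEnd htI le_rfl)
      by_contra hcon
      push Not at hcon
      have hev : g =ᶠ[𝓝[>] t] fun _ => g t := by
        filter_upwards [Ioo_mem_nhdsGT hcon] with z hz'
        exact le_antisymm (hg hz'.1.le) (le_of_lt_levelEnd hg (htI.1.trans hz'.1.le) hz'.2)
      have h0 : HasDerivWithinAt g 0 (Ioi t) t :=
        (hasDerivWithinAt_const t (Ioi t) (g t)).congr_of_eventuallyEq hev rfl
      have := (uniqueDiffWithinAt_Ioi t).eq_deriv (Ioi t) ht.2.hasDerivAt.hasDerivWithinAt h0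
      linarith
    rw [hTt] at hTσ hle
    have hσ1 : σ ≤ 1 := by nlinarith
    have hgσ : s ≤ g σ := by
      refine le_trans (le_of_eq ?_) (hge σ ⟨hσ, hσ1⟩)
      rw [← hsσ, add_sub_cancel_right, sqrt_sq hs]
    have hsl := hconc.slope_le_of_hasDerivAt htI ⟨hσ, hσ1⟩ hTσ ht.2.hasDerivAt
    rw [slope_def_field, div_le_iff₀ (sub_pos.2 hTσ)] at hsl
    have hys : 0 < y - s := sub_pos.2 hsy
    have h3 : -deriv g t * (σ - t) ≤ y - s := by rw [hy]; linarith
    refine le_of_mul_le_mul_right ?_ hys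
    calc -deriv g t * φ y * (y - s) = -deriv g t * (φ y * (y - s)) := by ring
      _ ≤ -deriv g t * (H t y * (σ - t)) := mul_le_mul_of_nonneg_left hle (by linarith)
      _ = H t y * (-deriv g t * (σ - t)) := by ring
      _ ≤ H t y * (y - s) := mul_le_mul_of_nonneg_left h3 hHt
  · filter_upwards [ae_restrict_mem measurableSet_Ioc] with t ht
    exact hH0 t (Ioc_subset_Icc_self ht)

end Vale.Agent.P237N
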