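import Vale.Agent.P237N.Gain5
import Vale.Agent.P237N.Slope
import Vale.Agent.P237N.Profile4
import Vale.Agent.P237N.Profile5Def

/-!
# The profile inequality in dimension five

The isotropy constraint, a test function vanishing on the circle and its slope term are summed
over the layers of the profile.
-/

namespace Vale.Agent.P237N.Iso5

open MeasureTheory Set Real Vale.Agent.P237U

/-- Positivity of the test polynomial on the domain. -/
def P5Nonneg : Prop :=
  ∀ t y : ℝ, 0 ≤ t → t ≤ 1 → 0 ≤ y → y ≤ 196 / 100 → 1 ≤ t ^ 2 + y ^ 2 → 0 ≤ P5 t y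

/-- The pointwise certificate. -/
def Cert5Prop : Prop :=
  ∀ T l y : ℝ, 0 < y → y ≤ 196 / 100 → 0 ≤ l → l ≤ T → T ≤ 1 →
    ((y ≤ 1 ∧ l ^ 2 + y ^ 2 = 1) ∨ (1 ≤ y ∧ l = 0)) →
    ∃ B E, 0 ≤ B ∧ (B = 0 ∨ ∃ s σ, 0 ≤ s ∧ s ≤ y ∧ 0 ≤ σ ∧ s ^ 2 + σ ^ 2 = 1 ∧
        B ≤ chord5 T l y s σ) ∧
      0 ≤ E ∧ (E = 0 ∨ ∃ s σ, 0 ≤ s ∧ s ≤ y ∧ 0 ≤ σ ∧ s ^ 2 + σ ^ 2 = 1 ∧
        E * (y - s) * (T - l) ≤ (σ - T) * (T ^ 2 + y ^ 2 - 1)) ∧
      1 / 2000 ≤ brk5 T l y B E

variable {g : ℝ → ℝ}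

/-- The test function, with the volume, the moments and a slack. -/
noncomputable def Hfun5 (t y : ℝ) : ℝ :=
  y ^ 4 + mu5 * (6 * t ^ 2 * y ^ 4 - y ^ 6) + y ^ 3 * (t ^ 2 + y ^ 2 - 1) * P5 t y + 1 / 3000 * y ^ 3

/-- The derivative in the height of `Hfun5`. -/
noncomputable def psi5 (t y : ℝ) : ℝ :=
  4 * y ^ 3 + mu5 * (24 * t ^ 2 * y ^ 3 - 6 * y ^ 5) + psv C5 t y + 1 / 1000 * y ^ 2

lemma hasDerivAt_Hfun5 (t y : ℝ) : HasDerivAt (Hfun5 t) (psi5 t y) y := by
  unfold Hfun5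
  refine ((((hasDerivAt_pow 4 y).fun_add
    ((((hasDerivAt_pow 4 y).const_mul _).fun_sub (hasDerivAt_pow 6 y)).const_mul _)).fun_add
    (hasDerivAt_pv C5 t y)).fun_add ((hasDerivAt_pow 3 y).const_mul _)).congr_deriv ?_
  simp only [psi5]
  push_cast
  ring

lemma continuous_psi5 : Continuous (Function.uncurry psi5) := by
  unfold psi5 Function.uncurry
  exact ((by fun_prop : Continuous fun p : ℝ × ℝ =>
    4 * p.2 ^ 3 + mu5 * (24 * p.1 ^ 2 * p.2 ^ 3 - 6 * p.2 ^ 5)).add (continuous_psv C5)).add (by fun_prop)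

lemma integral_psi5 (l T y : ℝ) :
    ∫ t in l..T, psi5 t y = 4 * y ^ 2 * (T - l) * (y + mu5 * (2 * y * (T ^ 2 + T * l + l ^ 2)
      - 3 / 2 * y ^ 3) + hq5 T l y + 1 / 4000) := by
  have hc : Continuous fun t => psi5 t y :=
    continuous_psi5.comp (f := fun t : ℝ => (t, y)) (by fun_prop)
  rw [intervalIntegral.integral_eq_sub_of_hasDerivAt
    (f := fun t => 4 * y ^ 3 * t + mu5 * (8 * y ^ 3 * t ^ 3 - 6 * y ^ 5 * t) + Phv C5 t y
      + 1 / 1000 * y ^ 2 * t)
    (fun t _ => (((((hasDerivAt_id' t).const_mul _).fun_add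
      ((((hasDerivAt_pow 3 t).const_mul _).fun_sub ((hasDerivAt_id' t).const_mul _)).const_mul _)).fun_add
      (hasDerivAt_Phv C5 t y)).fun_add ((hasDerivAt_id' t).const_mul _)).congr_deriv (by
        simp only [psi5]; push_cast; ring))
    (hc.intervalIntegrable _ _)]
  simp only [hq5]
  linear_combination Phv_sub C5 T l y

/-- The density of the bonus at a height, with the gain `X` below it. -/
noncomputable def bden5 (g : ℝ → ℝ) (X y : ℝ) : ℝ :=
  128 / (45 * π) * (1 + X) ^ ((1 : ℝ) / 3) * (4 * y ^ 2 * gain g y)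

/-- The pointwise inequality on a level, with the slope term. -/
lemma level5 (hP : P5Nonneg) (hcert : Cert5Prop) (hconc : ConcaveOn ℝ (Icc (0 : ℝ) 1) g)
    (hg : Antitone g) (hge : ∀ t ∈ Icc (0 : ℝ) 1, √(1 - t ^ 2) ≤ g t) (hY : g 0 ≤ 196 / 100)
    {y : ℝ} (hy : 0 < y) (hyY : y ≤ g 0) {X : ℝ}
    (hX : X = 16 / π * ∫ u in (0 : ℝ)..y, u ^ 2 * gain g u) :
    max ((∫ t in √(1 - y ^ 2)..levelEnd g y, psi5 t y) - bden5 g X y) 0 = 0 ∨
      ∃ s σ, 0 ≤ s ∧ s < y ∧ 0 ≤ σ ∧ s ^ 2 + σ ^ 2 = 1 ∧ levelEnd g y < σ ∧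
        max ((∫ t in √(1 - y ^ 2)..levelEnd g y, psi5 t y) - bden5 g X y) 0 * (y - s)
          ≤ y ^ 3 * (levelEnd g y ^ 2 + y ^ 2 - 1) * P5 (levelEnd g y) y * (σ - levelEnd g y) := by
  set T := levelEnd g y with hT
  set l := √(1 - y ^ 2) with hl
  have hd : gain g y = T - l := rfl
  have hd0 : 0 ≤ T - l := hd ▸ gain_nonneg hge hy.le
  have hl0 : 0 ≤ l := sqrt_nonneg _
  have hcirc : (y ≤ 1 ∧ l ^ 2 + y ^ 2 = 1) ∨ (1 ≤ y ∧ l = 0) := by
    rcases le_total y 1 with h | h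
    · exact Or.inl ⟨h, by rw [hl, sq_sqrt (by nlinarith)]; ring⟩
    · exact Or.inr ⟨h, sqrt_eq_zero'.2 (by nlinarith)⟩
  obtain ⟨B, E, hB0, hB, hE0, hE, hbrk⟩ := hcert T l y hy (hyY.trans hY) hl0
    (sub_nonneg.1 hd0) (levelEnd_le_one g y) hcirc
  have hJ0 : 0 ≤ ∫ u in (0 : ℝ)..y, u ^ 2 * gain g u :=
    intervalIntegral.integral_nonneg hy.le fun u hu => by
      have := gain_nonneg hge hu.1
      positivity
  have hBX : B ≤ X := by
    rw [hX]
    rcases hB with h | ⟨s, σ, hs, hsy, hσ, hσs, h⟩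
    · rw [h]; exact mul_nonneg (div_nonneg (by norm_num) pi_pos.le) hJ0
    · exact h.trans (chord5_le hconc hg hge hy hyY hs hsy hσ hσs)
  have hC : (905414 / 1000000 : ℝ) ≤ 128 / (45 * π) := by
    rw [le_div_iff₀ (by positivity)]
    nlinarith [pi_lt_d6]
  have hroot : 905414 / 1000000 * ((3 + 2 * B) / (3 + B)) ≤ 128 / (45 * π) * (1 + X) ^ ((1 : ℝ) / 3) :=
    mul_le_mul hC (root5_le hB0 hBX) (by positivity) (by positivity)
  set f := (∫ t in l..T, psi5 t y) - bden5 g X y with hf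
  have hfle : f ≤ 4 * y ^ 2 * (T - l) * (E * y * P5 T y / 4) := by
    rw [hf, integral_psi5, bden5, hd]
    unfold brk5 at hbrk
    have key : y + mu5 * (2 * y * (T ^ 2 + T * l + l ^ 2) - 3 / 2 * y ^ 3) + hq5 T l y + 1 / 4000
        - 128 / (45 * π) * (1 + X) ^ ((1 : ℝ) / 3) ≤ E * y * P5 T y / 4 := by linarith
    have h2 := mul_le_mul_of_nonneg_left key (by positivity : 0 ≤ 4 * y ^ 2 * (T - l))
    linarith
  rcases le_or_gt f 0 with hf0 | hf0
  · exact Or.inl (max_eq_right hf0)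
  refine Or.inr ?_
  have hdE : 0 < (T - l) * E := by
    rcases eq_or_lt_of_le (mul_nonneg hd0 hE0) with h | h
    · exfalso
      have : f ≤ 0 := hfle.trans (le_of_eq (by linear_combination (-(y ^ 3 * P5 T y)) * h))
      linarith
    · exact h
  have hEp : 0 < E := pos_of_mul_pos_right hdE hd0
  have hdp : 0 < T - l := pos_of_mul_pos_left hdE hE0
  rcases hE with h | ⟨s, σ, hs, hsy, hσ, hσs, h⟩
  · linarith
  have hT0 : 0 < T := by linarith
  have hq : 0 < T ^ 2 + y ^ 2 - 1 := by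
    rcases hcirc with ⟨-, h1⟩ | ⟨h1, -⟩
    · nlinarith
    · nlinarith
  have hTdom : 1 ≤ T ^ 2 + y ^ 2 := by linarith
  have hPT : 0 ≤ P5 T y :=
    hP T y hT0.le (levelEnd_le_one g y) hy.le (hyY.trans hY) hTdom
  have hsy' : s < y := by
    refine lt_of_le_of_ne hsy fun hsey => ?_
    have hσl : σ = l := by
      rw [hl, ← hsey, ← hσs, add_sub_cancel_left, sqrt_sq hσ]
    rw [hsey, sub_self, mul_zero, zero_mul, hσl] at h
    have := mul_pos hdp hq
    linarith
  have hTσ : T < σ := by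
    by_contra hcon
    push Not at hcon
    have h1 : 0 < E * (y - s) * (T - l) := mul_pos (mul_pos hEp (sub_pos.2 hsy')) hdp
    have h2 : (σ - T) * (T ^ 2 + y ^ 2 - 1) ≤ 0 := mul_nonpos_of_nonpos_of_nonneg (by linarith) hq.le
    linarith
  refine ⟨s, σ, hs, hsy', hσ, hσs, hTσ, ?_⟩
  rw [max_eq_left hf0.le]
  calc f * (y - s) ≤ 4 * y ^ 2 * (T - l) * (E * y * P5 T y / 4) * (y - s) :=
        mul_le_mul_of_nonneg_right hfle (by linarith)
    _ = y ^ 3 * P5 T y * (E * (y - s) * (T - l)) := by ring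
    _ ≤ y ^ 3 * P5 T y * ((σ - T) * (T ^ 2 + y ^ 2 - 1)) :=
        mul_le_mul_of_nonneg_left h (by positivity)
    _ = _ := by ring

lemma int_c4 : ∫ t in (0 : ℝ)..1, √(1 - t ^ 2) ^ 4 = 8 / 15 := by
  rw [intervalIntegral.integral_eq_sub_of_hasDerivAt_of_le zero_le_one
    (f := fun t : ℝ => t - 2 * (t ^ 3 / 3) + t ^ 5 / 5) (by fun_prop) (fun t ht => by
      have h1 : 0 ≤ 1 - t ^ 2 := by nlinarith [ht.1, ht.2]
      refine (((hasDerivAt_id' t).fun_sub (((hasDerivAt_pow 3 t).div_const 3).const_mul 2)).fun_add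
        ((hasDerivAt_pow 5 t).div_const 5)).congr_deriv ?_
      rw [show √(1 - t ^ 2) ^ 4 = (√(1 - t ^ 2) ^ 2) ^ 2 by ring, sq_sqrt h1]
      norm_num
      ring)
    ((by fun_prop : Continuous fun t : ℝ => √(1 - t ^ 2) ^ 4).intervalIntegrable _ _)]
  norm_num

lemma int_c_test5 :
    ∫ t in (0 : ℝ)..1, (6 * t ^ 2 * √(1 - t ^ 2) ^ 4 - √(1 - t ^ 2) ^ 6) = 0 := by
  rw [intervalIntegral.integral_eq_sub_of_hasDerivAt_of_le zero_le_one
    (f := fun t : ℝ => -(t * (1 - t ^ 2) ^ 3)) (by fun_prop) (fun t ht => by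
      have h1 : 0 ≤ 1 - t ^ 2 := by nlinarith [ht.1, ht.2]
      refine (((hasDerivAt_id' t).fun_mul (((hasDerivAt_pow 2 t).const_sub 1).fun_pow 3)).neg).congr_deriv ?_
      rw [show √(1 - t ^ 2) ^ 4 = (√(1 - t ^ 2) ^ 2) ^ 2 by ring,
        show √(1 - t ^ 2) ^ 6 = (√(1 - t ^ 2) ^ 2) ^ 3 by ring, sq_sqrt h1]
      norm_num
      ring)
    ((by fun_prop : Continuous fun t : ℝ =>
      6 * t ^ 2 * √(1 - t ^ 2) ^ 4 - √(1 - t ^ 2) ^ 6).intervalIntegrable _ _)]
  simp

/-- The profile inequality in dimension five, from the certificate. -/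
theorem profile5_of_cert (hP : P5Nonneg) (hcert : Cert5Prop) : Profile5 := by
  intro g hconc hg hnn hge hC
  have hπ := pi_pos
  have hY := height5_le hg hnn hconc hC
  set Y := g 0 with hYdef
  have hY0 : 0 ≤ Y := hnn 0 ⟨le_rfl, zero_le_one⟩
  set c : ℝ → ℝ := fun t => √(1 - t ^ 2) with hc
  have hcc : Continuous c := by fun_prop
  have gp : ∀ p : ℕ, IntervalIntegrable (fun t => g t ^ p) volume 0 1 := fun p => by
    refine AntitoneOn.intervalIntegrable ?_
    rw [uIcc_of_le zero_le_one]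
    exact fun a _ b hb hab => pow_le_pow_left₀ (hnn b hb) (hg hab) p
  have L1 := layer_cake hg hge continuous_psi5 hasDerivAt_Hfun5
  have L2 := layer_cake hg hge (ψ := fun _ y => 16 / π * y ^ 2) (Ψ := fun _ y => 16 / (3 * π) * y ^ 3)
    (by fun_prop) (fun t y => ((hasDerivAt_pow 3 y).const_mul (16 / (3 * π))).congr_deriv (by
      field_simp; push_cast; ring))
  set X : ℝ → ℝ := fun y => 16 / π * ∫ u in (0 : ℝ)..y, u ^ 2 * gain g u with hX
  have hI : ∀ a b, IntervalIntegrable (fun u => u ^ 2 * gain g u) volume a b := fun a b =>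
    (intervalIntegrable_gain g a b).continuousOn_mul (by fun_prop)
  have hXc : Continuous X := continuous_const.mul (intervalIntegral.continuous_primitive hI 0)
  have hX0 : ∀ y, 0 ≤ y → 0 ≤ X y := fun y hy =>
    mul_nonneg (by positivity) (intervalIntegral.integral_nonneg hy fun u hu => by
      have := gain_nonneg hge hu.1
      positivity)
  have hgm : Measurable (gain g) :=
    (levelEnd_antitone g).measurable.sub (by fun_prop : Measurable fun y : ℝ => √(1 - y ^ 2))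
  have hrc : Continuous fun y => (1 + X y) ^ ((1 : ℝ) / 3) :=
    (continuous_const.add hXc).rpow_const fun _ => Or.inr (by norm_num)
  have hFi : IntervalIntegrable (fun y => bden5 g (X y) y) volume 0 Y := by
    unfold bden5
    exact ((intervalIntegrable_gain g 0 Y).continuousOn_mul
      (by fun_prop : ContinuousOn (fun y : ℝ => 4 * y ^ 2) _)).continuousOn_mul
      (continuous_const.mul hrc).continuousOn
  have hbonus : ∫ y in (0 : ℝ)..Y, bden5 g (X y) y
      = 8 / 15 * (1 + X Y) ^ ((4 : ℝ) / 3) - 8 / 15 := by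
    rw [integral_eq_of_hasDerivAt_off_countable_of_le
      (fun y => 8 / 15 * (1 + X y) ^ ((4 : ℝ) / 3)) _ hY0
      (levelEnd_antitone g).countable_not_continuousAt
      ((continuous_const.mul ((continuous_const.add hXc).rpow_const fun _ => Or.inr (by norm_num))).continuousOn)
      (fun y hy => ?_) hFi]
    · simp [hX]
    · have hca : ContinuousAt (levelEnd g) y := not_not.1 hy.2
      have hga : ContinuousAt (fun u => u ^ 2 * gain g u) y := by
        have hs : ContinuousAt (fun u : ℝ => √(1 - u ^ 2)) y := by fun_prop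
        exact (by fun_prop : ContinuousAt (fun u : ℝ => u ^ 2) y).mul (hca.sub hs)
      have hd : HasDerivAt X (16 / π * (y ^ 2 * gain g y)) y :=
        (intervalIntegral.integral_hasDerivAt_right (hI 0 y)
          (((by fun_prop : Measurable fun u : ℝ => u ^ 2).mul hgm).stronglyMeasurable.stronglyMeasurableAtFilter)
          hga).const_mul _
      have hpos : (1 : ℝ) + X y ≠ 0 := by linarith [hX0 y hy.1.1.le]
      refine (((hd.const_add 1).rpow_const (p := (4 : ℝ) / 3) (Or.inl hpos)).const_mul (8 / 15)).congr_deriv ?_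
      rw [bden5, show (4 : ℝ) / 3 - 1 = 1 / 3 by norm_num]
      field_simp
      ring
  have hXY : X Y = 16 / (3 * π) * (∫ t in (0 : ℝ)..1, g t ^ 3) - 1 := by
    have e : X Y = ∫ y in (0 : ℝ)..Y, ∫ _t in √(1 - y ^ 2)..levelEnd g y, 16 / π * y ^ 2 := by
      simp only [hX]
      rw [← intervalIntegral.integral_const_mul]
      exact intervalIntegral.integral_congr fun y _ => by simp [gain]; ring
    rw [e, ← L2, intervalIntegral.integral_sub ((gp 3).const_mul _)
      ((by fun_prop : Continuous _).intervalIntegrable _ _), intervalIntegral.integral_const_mul,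
      intervalIntegral.integral_const_mul, int_c3]
    field_simp
  have hin : IntervalIntegrable (fun y => ∫ t in √(1 - y ^ 2)..levelEnd g y, psi5 t y) volume 0 Y := by
    have e : (fun y => ∫ t in √(1 - y ^ 2)..levelEnd g y, psi5 t y) = fun y => gain g y *
        (4 * y ^ 2 * (y + mu5 * (2 * y * (levelEnd g y ^ 2 + levelEnd g y * √(1 - y ^ 2)
          + √(1 - y ^ 2) ^ 2) - 3 / 2 * y ^ 3) + hq5 (levelEnd g y) √(1 - y ^ 2) y + 1 / 4000)) :=
      funext fun y => by rw [integral_psi5, gain]; ring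
    rw [e, intervalIntegrable_iff]
    have hhq : Continuous fun p : ℝ × ℝ => hq5 p.2 √(1 - p.1 ^ 2) p.1 :=
      ((continuous_hv C5).comp (continuous_snd.prodMk
        ((by fun_prop : Continuous fun p : ℝ × ℝ => √(1 - p.1 ^ 2)).prodMk continuous_fst))).div_const 4
    have hcm : Continuous fun p : ℝ × ℝ => 4 * p.1 ^ 2 * (p.1 + mu5 * (2 * p.1 * (p.2 ^ 2
        + p.2 * √(1 - p.1 ^ 2) + √(1 - p.1 ^ 2) ^ 2) - 3 / 2 * p.1 ^ 3)
        + hq5 p.2 √(1 - p.1 ^ 2) p.1 + 1 / 4000) := by fun_prop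
    obtain ⟨M, hM⟩ := ((isCompact_uIcc (a := (0 : ℝ)) (b := Y)).prod
      (isCompact_Icc (a := (0 : ℝ)) (b := 1))).exists_bound_of_continuousOn hcm.continuousOn
    refine Integrable.mul_bdd (intervalIntegrable_iff.1 (intervalIntegrable_gain g 0 Y)) ?_ (c := M) ?_
    · exact (hcm.measurable.comp
        (measurable_id.prodMk (levelEnd_antitone g).measurable)).aestronglyMeasurable
    · filter_upwards [ae_restrict_mem measurableSet_uIoc] with y hy
      exact hM (y, levelEnd g y) ⟨uIoc_subset_uIcc hy, levelEnd_nonneg g y, levelEnd_le_one g y⟩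
  -- the slope term
  set H : ℝ → ℝ → ℝ := fun t y => y ^ 3 * (t ^ 2 + y ^ 2 - 1) * P5 t y with hH
  have hHc : Continuous (Function.uncurry H) := by
    unfold Function.uncurry
    exact (by fun_prop : Continuous fun p : ℝ × ℝ => p.2 ^ 3 * (p.1 ^ 2 + p.2 ^ 2 - 1)).mul (continuous_pv C5)
  have hbd : ∀ {F : ℝ → ℝ → ℝ}, Continuous (Function.uncurry F) →
      IntervalIntegrable (fun t => F t (g t)) volume 0 1 := by
    intro F hF
    obtain ⟨M, hM⟩ := ((isCompact_uIcc (a := (0 : ℝ)) (b := 1)).prod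
      (isCompact_Icc (a := (0 : ℝ)) (b := Y))).exists_bound_of_continuousOn hF.continuousOn
    rw [intervalIntegrable_iff]
    refine Measure.integrableOn_of_bounded measure_Ioc_lt_top.ne
      (hF.measurable.comp (measurable_id.prodMk hg.measurable)).aestronglyMeasurable (M := M) ?_
    filter_upwards [ae_restrict_mem measurableSet_uIoc] with t ht
    rw [uIoc_of_le zero_le_one] at ht
    exact hM (t, g t) ⟨by rw [uIcc_of_le zero_le_one]; exact Ioc_subset_Icc_self ht,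
      hnn t (Ioc_subset_Icc_self ht), hg ht.1.le⟩
  have hdom : ∀ t ∈ Icc (0 : ℝ) 1, 1 ≤ t ^ 2 + g t ^ 2 := fun t ht => by
    have h2 := pow_le_pow_left₀ (sqrt_nonneg (1 - t ^ 2)) (hge t ht) 2
    rw [sq_sqrt (by nlinarith [ht.1, ht.2])] at h2
    linarith
  have hH0 : ∀ t ∈ Icc (0 : ℝ) 1, 0 ≤ H t (g t) := fun t ht =>
    mul_nonneg (mul_nonneg (pow_nonneg (hnn t ht) 3) (by linarith [hdom t ht]))
      (hP t (g t) ht.1 ht.2 (hnn t ht) ((hg ht.1).trans hY) (hdom t ht))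
  set φ : ℝ → ℝ := fun y =>
    max ((∫ t in √(1 - y ^ 2)..levelEnd g y, psi5 t y) - bden5 g (X y) y) 0 with hφdef
  have hφi : IntervalIntegrable φ volume 0 Y := by
    rw [intervalIntegrable_iff] at hin hFi ⊢
    exact (hin.sub hFi).pos_part
  have hslope : ∫ y in (0 : ℝ)..Y, φ y ≤ ∫ t in (0 : ℝ)..1, H t (g t) :=
    slope_bonus hconc hg hnn hge (hbd hHc) hH0 hφi fun y hy =>
      level5 hP hcert hconc hg hge hY hy.1 hy.2 rfl
  have hmain : ∫ y in (0 : ℝ)..Y, ∫ t in √(1 - y ^ 2)..levelEnd g y, psi5 t y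
      ≤ (∫ y in (0 : ℝ)..Y, bden5 g (X y) y) + ∫ y in (0 : ℝ)..Y, φ y := by
    rw [← intervalIntegral.integral_add hFi hφi]
    refine intervalIntegral.integral_mono_on hY0 hin (hFi.add hφi) fun y _ => ?_
    simp only [hφdef]
    linarith [le_max_left ((∫ t in √(1 - y ^ 2)..levelEnd g y, psi5 t y) - bden5 g (X y) y) 0]
  rw [← L1, hbonus] at hmain
  -- the integral of the test function
  have i6 := gp 6
  have i26 : IntervalIntegrable (fun t => 6 * t ^ 2 * g t ^ 4) volume 0 1 :=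
    (gp 4).continuousOn_mul (by fun_prop)
  have hHg := hbd hHc
  set G : ℝ → ℝ := fun t => g t ^ 4 + mu5 * (6 * t ^ 2 * g t ^ 4 - g t ^ 6) + H t (g t)
    + 1 / 3000 * g t ^ 3 with hG
  set C : ℝ → ℝ := fun t => c t ^ 4 + mu5 * (6 * t ^ 2 * c t ^ 4 - c t ^ 6) + 1 / 3000 * c t ^ 3 with hCdef
  have hGi : IntervalIntegrable G volume 0 1 :=
    (((gp 4).add ((i26.sub i6).const_mul _)).add hHg).add ((gp 3).const_mul _)
  have hCi : IntervalIntegrable C volume 0 1 := (by fun_prop : Continuous C).intervalIntegrable _ _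
  have hL : ∫ t in (0 : ℝ)..1, (Hfun5 t (g t) - Hfun5 t (c t))
      = (∫ t in (0 : ℝ)..1, G t) - ∫ t in (0 : ℝ)..1, C t := by
    rw [← intervalIntegral.integral_sub hGi hCi]
    refine intervalIntegral.integral_congr fun t ht => ?_
    rw [uIcc_of_le zero_le_one] at ht
    have hct : c t ^ 2 = 1 - t ^ 2 := sq_sqrt (by nlinarith [ht.1, ht.2])
    have e : c t ^ 3 * (t ^ 2 + c t ^ 2 - 1) * P5 t (c t) = 0 := by rw [hct]; ring
    simp only [hG, hCdef, Hfun5, hH]
    linarith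
  have hGv : ∫ t in (0 : ℝ)..1, G t = (∫ t in (0 : ℝ)..1, g t ^ 4)
      + mu5 * (6 * (∫ t in (0 : ℝ)..1, t ^ 2 * g t ^ 4) - ∫ t in (0 : ℝ)..1, g t ^ 6)
      + (∫ t in (0 : ℝ)..1, H t (g t)) + 1 / 3000 * (∫ t in (0 : ℝ)..1, g t ^ 3) := by
    simp only [hG]
    rw [intervalIntegral.integral_add (((gp 4).add ((i26.sub i6).const_mul _)).add hHg)
        ((gp 3).const_mul _),
      intervalIntegral.integral_add ((gp 4).add ((i26.sub i6).const_mul _)) hHg,
      intervalIntegral.integral_add (gp 4) ((i26.sub i6).const_mul _),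
      intervalIntegral.integral_const_mul, intervalIntegral.integral_const_mul,
      intervalIntegral.integral_sub i26 i6]
    simp only [mul_assoc (6 : ℝ)]
    rw [intervalIntegral.integral_const_mul]
  have hCv : ∫ t in (0 : ℝ)..1, C t = 8 / 15 + 1 / 3000 * (3 * π / 16) := by
    simp only [hCdef, hc]
    rw [intervalIntegral.integral_add ((by fun_prop : Continuous _).intervalIntegrable _ _)
        ((by fun_prop : Continuous _).intervalIntegrable _ _),
      intervalIntegral.integral_add ((by fun_prop : Continuous _).intervalIntegrable _ _)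
        ((by fun_prop : Continuous _).intervalIntegrable _ _),
      intervalIntegral.integral_const_mul, intervalIntegral.integral_const_mul, int_c3, int_c4,
      int_c_test5]
    ring
  rw [hL, hGv, hCv, hXY, show (1 : ℝ) + (16 / (3 * π) * (∫ t in (0 : ℝ)..1, g t ^ 3) - 1)
    = 16 / (3 * π) * (∫ t in (0 : ℝ)..1, g t ^ 3) by ring] at hmain
  have hμ : 0 ≤ mu5 * (6 * (∫ t in (0 : ℝ)..1, t ^ 2 * g t ^ 4) - ∫ t in (0 : ℝ)..1, g t ^ 6) :=
    mul_nonneg (by unfold mu5; norm_num) (by linarith)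
  linarith

end Vale.Agent.P237N.Iso5
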