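import Vale.Agent.P237N.Profile4
import Vale.Agent.P237N.Cert4
import Vale.Agent.P237N.Step

/-!
# The slices of a symmetric four dimensional body in isotropic position
-/

namespace Vale.Agent.P237N

open MeasureTheory Set Metric Filter Topology Vale.Agent.P237 Vale.Agent.P237R Vale.Agent.P237U
open scoped RealInnerProductSpace ENNReal Pointwise

/-- The cube root. -/
noncomputable def croot (x : ℝ) : ℝ := x ^ ((3 : ℕ) : ℝ)⁻¹

lemma croot_nonneg {x : ℝ} (hx : 0 ≤ x) : 0 ≤ croot x := Real.rpow_nonneg hx _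

lemma croot_pow {x : ℝ} (hx : 0 ≤ x) : croot x ^ 3 = x :=
  Real.rpow_inv_natCast_pow hx three_ne_zero

lemma kap_three : kap 3 = 4 * Real.pi / 3 := by
  rw [kap_eq_unitBallVol three_pos, unitBallVol_eq three_pos,
    show ((3 : ℕ) : ℝ) / 2 + 1 = (1 / 2 + 1) + 1 by norm_num,
    Real.Gamma_add_one (by norm_num), Real.Gamma_add_one (by norm_num), Real.Gamma_one_half_eq]
  have := Real.sqrt_pos.2 Real.pi_pos
  field_simp
  rw [Real.sq_sqrt Real.pi_pos.le]
  ring

/-- Among sets in space of given volume the centred ball has the smallest polar moment. -/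
lemma ball_moment_le {S : Set (EuclideanSpace ℝ (Fin (2 + 1)))} (hS : IsCompact S) {R : ℝ} (hR : 0 ≤ R)
    (hvol : 4 * Real.pi / 3 * R ^ 3 = (volume S).toReal) :
    ENNReal.ofReal (3 / 5 * (volume S).toReal * R ^ 2) ≤ ∫⁻ y in S, ENNReal.ofReal (‖y‖ ^ 2) := by
  set a := (volume S).toReal with ha
  have hπ := Real.pi_pos
  rw [lintegral_eq_lintegral_meas_lt _ (Eventually.of_forall fun y => sq_nonneg _)
    (by fun_prop : Measurable fun y : EuclideanSpace ℝ (Fin (2 + 1)) => ‖y‖ ^ 2).aemeasurable]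
  have hle : ∀ t ∈ Ioc 0 (R ^ 2), ENNReal.ofReal (a - 4 * Real.pi / 3 * √t ^ 3)
      ≤ (volume.restrict S) {y : EuclideanSpace ℝ (Fin (2 + 1)) | t < ‖y‖ ^ 2} := by
    intro t ht
    rw [Measure.restrict_apply (measurableSet_lt measurable_const (by fun_prop)),
      ENNReal.ofReal_sub _ (by positivity), ha, ENNReal.ofReal_toReal hS.measure_lt_top.ne,
      tsub_le_iff_right]
    refine (measure_mono (fun y hy => ?_)).trans ((measure_union_le _ (closedBall 0 √t)).trans
      (add_le_add le_rfl (le_of_eq ?_)))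
    · by_cases h : t < ‖y‖ ^ 2
      · exact Or.inl ⟨h, hy⟩
      · exact Or.inr (mem_closedBall_zero_iff.2 ((Real.le_sqrt (norm_nonneg y) ht.1.le).2 (not_lt.1 h)))
    · rw [volume_closedBall_eq _ (Real.sqrt_nonneg t), kap_three]
  refine le_trans ?_ ((setLIntegral_mono' measurableSet_Ioc hle).trans
    (lintegral_mono_set Ioc_subset_Ioi_self))
  have hpos : ∀ᵐ t ∂volume.restrict (Ioc 0 (R ^ 2)), 0 ≤ a - 4 * Real.pi / 3 * √t ^ 3 := by
    filter_upwards [ae_restrict_mem measurableSet_Ioc] with t ht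
    rw [← hvol, ← mul_sub]
    exact mul_nonneg (by positivity) (sub_nonneg.2 (pow_le_pow_left₀ (Real.sqrt_nonneg t)
      ((Real.sqrt_le_left hR).2 ht.2) 3))
  have hcont : Continuous fun t : ℝ => a - 4 * Real.pi / 3 * √t ^ 3 := by fun_prop
  rw [← ofReal_integral_eq_lintegral_ofReal
    (hcont.continuousOn.integrableOn_Icc.mono_set Ioc_subset_Icc_self) hpos,
    ← intervalIntegral.integral_of_le (sq_nonneg R),
    intervalIntegral.integral_eq_sub_of_hasDerivAt_of_le (sq_nonneg R)
      (f := fun t => a * t - 4 * Real.pi / 3 * (2 / 5 * √t ^ 5)) (by fun_prop) (fun t ht => by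
        have h0 := (Real.sqrt_pos.2 ht.1).ne'
        refine (((hasDerivAt_id' t).const_mul a).fun_sub ((((Real.hasDerivAt_sqrt ht.1.ne').fun_pow 5).const_mul
          (2 / 5 : ℝ)).const_mul (4 * Real.pi / 3))).congr_deriv ?_
        field_simp
        push_cast
        ring)
      (hcont.intervalIntegrable _ _)]
  refine ENNReal.ofReal_le_ofReal (le_of_eq ?_)
  rw [Real.sqrt_sq hR, Real.sqrt_zero, ← hvol]
  ring

variable {K : Set (EuclideanSpace ℝ (Fin (2 + 1 + 1)))}

lemma setIntegral_height_sq4 (hK : IsCompact K) (hne : K.Nonempty) :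
    ∫ x in K, x 0 ^ 2 = ∫ t in (sLo K)..(sHi K), t ^ 2 * sv K t := by
  obtain ⟨p, hp, hp0⟩ := exists_lo hK hne
  have hle : sLo K ≤ sHi K := by
    have := height_mem hK hp
    linarith [this.1, this.2]
  have hint : IntegrableOn (fun x : EuclideanSpace ℝ (Fin (2 + 1 + 1)) => x 0 ^ 2) K :=
    (continuous_height.pow 2).continuousOn.integrableOn_compact hK
  rw [intervalIntegral.integral_of_le hle, ← integral_Icc_eq_integral_Ioc,
    setIntegral_eq_integral_of_forall_compl_eq_zero (μ := (volume : Measure ℝ))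
      (f := fun t => t ^ 2 * sv K t) (fun t ht => by
      rw [sv, slice_empty hK ht, measure_empty, ENNReal.toReal_zero, mul_zero]),
    integral_eq_lintegral_of_nonneg_ae (Eventually.of_forall fun x => sq_nonneg _) hint.1,
    integral_eq_lintegral_of_nonneg_ae
      (Eventually.of_forall fun t => mul_nonneg (sq_nonneg _) (sv_nonneg t))
      (((by fun_prop : Measurable fun t : ℝ => t ^ 2).mul (measurable_sv hK) :
        Measurable fun t : ℝ => t ^ 2 * sv K t)).aestronglyMeasurable]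
  congr 1
  have hm : Measurable fun x : EuclideanSpace ℝ (Fin (2 + 1 + 1)) => ENNReal.ofReal (x 0 ^ 2) :=
    (continuous_height.pow 2).measurable.ennreal_ofReal
  rw [← lintegral_indicator hK.measurableSet, lintegral_econs (hm.indicator hK.measurableSet)]
  refine lintegral_congr fun t => ?_
  rw [ENNReal.ofReal_mul (sq_nonneg t), sv, ENNReal.ofReal_toReal (isCompact_slice hK t).measure_lt_top.ne,
    ← lintegral_indicator_const (isCompact_slice hK t).measurableSet]
  refine lintegral_congr fun y => ?_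
  by_cases hy : econs t y ∈ K
  · rw [indicator_of_mem hy, indicator_of_mem (show y ∈ slice K t from hy), econs_apply_zero]
  · rw [indicator_of_notMem hy, indicator_of_notMem (show y ∉ slice K t from hy)]

/-- The radius of the ball with the volume of a slice. -/
noncomputable def srad (K : Set (EuclideanSpace ℝ (Fin (2 + 1 + 1)))) (t : ℝ) : ℝ :=
  croot (sv K t / (4 * Real.pi / 3))

lemma srad_nonneg (t : ℝ) : 0 ≤ srad K t :=
  croot_nonneg (div_nonneg (sv_nonneg t) (by positivity))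

lemma srad_pow (t : ℝ) : 4 * Real.pi / 3 * srad K t ^ 3 = sv K t := by
  have := Real.pi_pos
  rw [srad, croot_pow (div_nonneg (sv_nonneg t) (by positivity))]
  field_simp

lemma measurable_srad (hK : IsCompact K) : Measurable (srad K) :=
  ((measurable_sv hK).div_const _).pow_const _

lemma srad_le (hK : IsCompact K) (t : ℝ) :
    srad K t ≤ croot ((volume (etail (2 + 1) '' K)).toReal / (4 * Real.pi / 3)) :=
  Real.rpow_le_rpow (div_nonneg (sv_nonneg t) (by positivity))
    (div_le_div_of_nonneg_right (sv_le hK t) (by positivity)) (by positivity)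

lemma intervalIntegrable_srad (hK : IsCompact K) (k : ℕ) (a b : ℝ) :
    IntervalIntegrable (fun t => srad K t ^ k) volume a b := by
  rw [intervalIntegrable_iff]
  refine Measure.integrableOn_of_bounded measure_Ioc_lt_top.ne
    ((measurable_srad hK).pow_const k).aestronglyMeasurable
    (M := croot ((volume (etail (2 + 1) '' K)).toReal / (4 * Real.pi / 3)) ^ k)
    (Eventually.of_forall fun t => ?_)
  rw [Real.norm_of_nonneg (pow_nonneg (srad_nonneg t) k)]
  exact pow_le_pow_left₀ (srad_nonneg t) (srad_le hK t) k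

lemma polar_moment_ge4 (hK : IsCompact K) (hne : K.Nonempty) :
    4 * Real.pi / 5 * ∫ t in (sLo K)..(sHi K), srad K t ^ 5
      ≤ ∫ x in K, ‖etail (2 + 1) x‖ ^ 2 := by
  obtain ⟨p, hp, hp0⟩ := exists_lo hK hne
  have hle : sLo K ≤ sHi K := by
    have := height_mem hK hp
    linarith [this.1, this.2]
  have hc : Continuous fun x : EuclideanSpace ℝ (Fin (2 + 1 + 1)) => ‖etail (2 + 1) x‖ ^ 2 :=
    (continuous_etail _).norm.pow 2
  have hint : IntegrableOn (fun t => 4 * Real.pi / 5 * srad K t ^ 5) (Ioc (sLo K) (sHi K)) :=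
    ((intervalIntegrable_iff_integrableOn_Ioc_of_le hle).1
      ((intervalIntegrable_srad hK 5 _ _).const_mul _))
  rw [← intervalIntegral.integral_const_mul, intervalIntegral.integral_of_le hle]
  refine (ENNReal.ofReal_le_ofReal_iff (integral_nonneg fun x => sq_nonneg _)).1 ?_
  rw [ofReal_integral_eq_lintegral_ofReal hint (Eventually.of_forall fun t => by
      have := srad_nonneg (K := K) t; positivity),
    ofReal_integral_eq_lintegral_ofReal (hc.continuousOn.integrableOn_compact hK)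
      (Eventually.of_forall fun x => sq_nonneg _),
    ← lintegral_indicator hK.measurableSet,
    lintegral_econs (hc.measurable.ennreal_ofReal.indicator hK.measurableSet)]
  refine (setLIntegral_le_lintegral _ _).trans (lintegral_mono fun t => ?_)
  refine le_trans (le_of_eq ?_) ((ball_moment_le (isCompact_slice hK t) (srad_nonneg t)
    (srad_pow t)).trans (le_of_eq ?_))
  · rw [show (volume (slice K t)).toReal = sv K t from rfl, ← srad_pow t]
    congr 1
    ring
  rw [← lintegral_indicator (isCompact_slice hK t).measurableSet]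
  refine lintegral_congr fun y => ?_
  by_cases hy : econs t y ∈ K
  · rw [indicator_of_mem (show y ∈ slice K t from hy), indicator_of_mem hy, etail_econs]
  · rw [indicator_of_notMem (show y ∉ slice K t from hy), indicator_of_notMem hy]

lemma isotropic_moments4 (hK : IsCompact K) {c : ℝ}
    (hiso : ∀ v, ∫ x in K, ⟪v, x⟫ ^ 2 = c * ‖v‖ ^ 2) :
    ∫ x in K, x 0 ^ 2 = c ∧ ∫ x in K, ‖etail (2 + 1) x‖ ^ 2 = 3 * c := by
  have h : ∀ i : Fin (2 + 1 + 1), ∫ x in K, x i ^ 2 = c := fun i => by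
    have := hiso (EuclideanSpace.single i (1 : ℝ))
    simpa [EuclideanSpace.inner_single_left] using this
  refine ⟨h 0, ?_⟩
  have e : ∀ x : EuclideanSpace ℝ (Fin (2 + 1 + 1)), ‖etail (2 + 1) x‖ ^ 2
      = ∑ i : Fin (2 + 1), x (Fin.succ i) ^ 2 := fun x => by
    rw [EuclideanSpace.norm_sq_eq]
    simp [etail, sq_abs, Fin.tail]
  simp_rw [e]
  rw [integral_finsetSum _ (fun i _ =>
    (by fun_prop : Continuous fun x : EuclideanSpace ℝ (Fin (2 + 1 + 1)) => x (Fin.succ i) ^ 2).continuousOn.integrableOn_compact hK)]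
  simp only [h]
  simp

lemma slice_zero_mem4 {r t : ℝ} (hball : closedBall 0 r ⊆ K) (ht : |t| ≤ r) :
    (slice K t).Nonempty := by
  refine ⟨0, hball (mem_closedBall_zero_iff.2 ?_)⟩
  have h := norm_econs_sq t (0 : EuclideanSpace ℝ (Fin (2 + 1)))
  rw [norm_zero, zero_pow two_ne_zero, add_zero, ← sq_abs t] at h
  rwa [(pow_left_inj₀ (norm_nonneg _) (abs_nonneg _) two_ne_zero).1 h]

lemma srad_ge_ball {r t : ℝ} (hK : IsCompact K) (hball : closedBall 0 r ⊆ K) (ht : |t| ≤ r) :
    √(r ^ 2 - t ^ 2) ≤ srad K t := by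
  have hr : 0 ≤ r ^ 2 - t ^ 2 := sub_nonneg.2 ((sq_abs t).symm ▸ pow_le_pow_left₀ (abs_nonneg t) ht 2)
  have hsub : closedBall (0 : EuclideanSpace ℝ (Fin (2 + 1))) √(r ^ 2 - t ^ 2) ⊆ slice K t := by
    intro y hy
    refine hball (mem_closedBall_zero_iff.2 ((pow_le_pow_iff_left₀ (norm_nonneg _)
      ((abs_nonneg t).trans ht) two_ne_zero).1 ?_))
    rw [norm_econs_sq]
    have := pow_le_pow_left₀ (norm_nonneg y) (mem_closedBall_zero_iff.1 hy) 2
    rw [Real.sq_sqrt hr] at this
    linarith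
  have h := ENNReal.toReal_mono (isCompact_slice hK t).measure_lt_top.ne (measure_mono (μ := volume) hsub)
  rw [volume_closedBall_eq _ (Real.sqrt_nonneg _), kap_three,
    ENNReal.toReal_ofReal (by positivity)] at h
  change _ ≤ sv K t at h
  rw [← srad_pow t] at h
  exact (pow_le_pow_iff_left₀ (Real.sqrt_nonneg _) (srad_nonneg t) three_ne_zero).1
    (le_of_mul_le_mul_left h (by positivity))

lemma srad_combo (hK : IsCompact K) (hc : Convex ℝ K) {x y a b : ℝ}
    (hx : (slice K x).Nonempty) (hy : (slice K y).Nonempty) (ha : 0 ≤ a) (hb : 0 ≤ b)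
    (hab : a + b = 1) : a * srad K x + b * srad K y ≤ srad K (a * x + b * y) := by
  have hsub : a • slice K x + b • slice K y ⊆ slice K (a * x + b * y) := by
    rintro _ ⟨_, ⟨p, hp, rfl⟩, _, ⟨q, hq, rfl⟩, rfl⟩
    have h := hc hp hq ha hb hab
    rw [smul_econs, smul_econs, econs_add] at h
    exact h
  have h := bm_convex (n := 2 + 1) (by norm_num) (isCompact_slice hK x) (convex_slice hc x) hx
    (isCompact_slice hK y) (convex_slice hc y) hy ha hb
  have h2 := ENNReal.toReal_mono (isCompact_slice hK _).measure_lt_top.ne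
    (measure_mono (μ := volume) hsub)
  have h3 := h.trans (Real.rpow_le_rpow ENNReal.toReal_nonneg h2 (by positivity))
  have hk : (0 : ℝ) < 4 * Real.pi / 3 := by positivity
  simp only [srad, croot, Real.div_rpow (sv_nonneg _) hk.le]
  rw [← mul_div_assoc, ← mul_div_assoc, ← add_div]
  refine div_le_div_of_nonneg_right ?_ (Real.rpow_nonneg hk.le _)
  norm_num at h3 ⊢
  exact h3

/-- The profile of the slices in the direction of a contact point. -/
lemma slice_profile4 {r c : ℝ} (hK : IsCompact K) (hc : Convex ℝ K) (hs : ∀ x ∈ K, -x ∈ K)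
    (hr : 0 < r) (hball : closedBall 0 r ⊆ K) (hslab : ∀ x ∈ K, |x 0| ≤ r)
    (hiso : ∀ v, ∫ x in K, ⟪v, x⟫ ^ 2 = c * ‖v‖ ^ 2) :
    ∃ g : ℝ → ℝ, ConcaveOn ℝ (Icc (0 : ℝ) 1) g ∧ Antitone g ∧ (∀ t ∈ Icc (0 : ℝ) 1, 0 ≤ g t) ∧
      (∀ t ∈ Icc (0 : ℝ) 1, √(1 - t ^ 2) ≤ g t) ∧
      (∫ t in (0 : ℝ)..1, g t ^ 5) / 5 ≤ ∫ t in (0 : ℝ)..1, t ^ 2 * g t ^ 3 ∧
      (volume K).toReal = 8 * Real.pi / 3 * r ^ 4 * (∫ t in (0 : ℝ)..1, g t ^ 3) ∧
      sliceInt K ^ (2 + 1) = 128 * Real.pi ^ 2 / 9 * r ^ 9 * (∫ t in (0 : ℝ)..1, g t ^ 2) ^ 3 := by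
  have hπ := Real.pi_pos
  have hne : K.Nonempty := ⟨_, hball (mem_closedBall_self hr.le)⟩
  obtain ⟨hhi, hlo⟩ := height_eq_ball (j := 2) hK hr.le hball hslab
  have hV := integral_sv hK hne
  have hgf : ∀ t, gfun K t = (4 * Real.pi / 3) ^ ((2 : ℝ) / 3) * srad K t ^ 2 := by
    intro t
    rw [gfun]
    conv_lhs => rw [← srad_pow (K := K) t]
    rw [Real.mul_rpow (by positivity) (pow_nonneg (srad_nonneg t) 3)]
    norm_num
    left
    rw [← Real.rpow_natCast (srad K t) 3, ← Real.rpow_mul (srad_nonneg t),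
      ← Real.rpow_natCast (srad K t) 2]
    norm_num
  have hsl : sliceInt K = ∫ t in (-r)..r, (4 * Real.pi / 3) ^ ((2 : ℝ) / 3) * srad K t ^ 2 := by
    rw [sliceInt, hhi, hlo]
    exact intervalIntegral.integral_congr fun t _ => hgf t
  obtain ⟨hx0, hxp⟩ := isotropic_moments4 hK hiso
  have hm := polar_moment_ge4 hK hne
  rw [hxp, ← hx0, setIntegral_height_sq4 hK hne, hhi, hlo] at hm
  rw [hhi, hlo] at hV
  have hev : ∀ t, srad K (-t) = srad K t := fun t => by simp only [srad, sv_even hs]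
  have hzero : ∀ t, r < t → srad K t = 0 := fun t ht => by
    rw [srad, sv, slice_empty hK (fun h => not_lt.2 (hhi ▸ h.2) ht), measure_empty,
      ENNReal.toReal_zero, zero_div, croot, Real.zero_rpow (by norm_num)]
  set g : ℝ → ℝ := fun t => srad K (r * max t 0) / r with hg
  have hgt : ∀ t, 0 ≤ t → srad K (r * t) = r * g t := fun t ht => by
    simp only [hg, max_eq_left ht]
    field_simp
  have hgt3 : ∀ t, 0 ≤ t → sv K (r * t) = 4 * Real.pi / 3 * r ^ 3 * g t ^ 3 := fun t ht => by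
    rw [← srad_pow, hgt t ht]; ring
  have hin : ∀ u : ℝ, 0 ≤ u → u ≤ 1 → |r * u| ≤ r := fun u h0 h1 => by
    rw [abs_of_nonneg (mul_nonneg hr.le h0)]; exact mul_le_of_le_one_right hr.le h1
  have hanti : Antitone g := by
    intro s t hst
    refine div_le_div_of_nonneg_right ?_ hr.le
    have hs0 : 0 ≤ r * max s 0 := mul_nonneg hr.le (le_max_right _ _)
    have hle : r * max s 0 ≤ r * max t 0 := mul_le_mul_of_nonneg_left (max_le_max_right 0 hst) hr.le
    set x := r * max s 0
    set y := r * max t 0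
    rcases lt_or_ge r y with hy | hy
    · rw [hzero y hy]; exact srad_nonneg _
    rcases eq_or_lt_of_le (hs0.trans hle) with hy0 | hy0
    · rw [← hy0, le_antisymm (hy0 ▸ hle) hs0]
    have hxy : x / y ≤ 1 := (div_le_one hy0).2 hle
    have hx0' : 0 ≤ x / y := div_nonneg hs0 hy0.le
    have h := srad_combo hK hc
      (slice_zero_mem4 hball (t := y) (by rw [abs_of_pos hy0]; exact hy))
      (slice_zero_mem4 hball (t := -y) (by rw [abs_neg, abs_of_pos hy0]; exact hy))
      (a := (1 + x / y) / 2) (b := (1 - x / y) / 2) (by linarith) (by linarith) (by ring)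
    have e : (1 + x / y) / 2 * y + (1 - x / y) / 2 * (-y) = x := by field_simp; ring
    rw [hev, e, ← add_mul, show (1 + x / y) / 2 + (1 - x / y) / 2 = 1 by ring, one_mul] at h
    exact h
  have hconc : ConcaveOn ℝ (Icc (0 : ℝ) 1) g := by
    refine ⟨convex_Icc 0 1, fun s hs' t ht a b ha hb hab => ?_⟩
    have h0 : 0 ≤ a * s + b * t := add_nonneg (mul_nonneg ha hs'.1) (mul_nonneg hb ht.1)
    simp only [smul_eq_mul, hg, max_eq_left hs'.1, max_eq_left ht.1, max_eq_left h0]
    rw [← mul_div_assoc, ← mul_div_assoc, ← add_div]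
    refine div_le_div_of_nonneg_right ?_ hr.le
    rw [show r * (a * s + b * t) = a * (r * s) + b * (r * t) by ring]
    exact srad_combo hK hc (slice_zero_mem4 hball (hin s hs'.1 hs'.2))
      (slice_zero_mem4 hball (hin t ht.1 ht.2)) ha hb hab
  have hnn : ∀ t ∈ Icc (0 : ℝ) 1, 0 ≤ g t := fun t _ => div_nonneg (srad_nonneg _) hr.le
  have hge : ∀ t ∈ Icc (0 : ℝ) 1, √(1 - t ^ 2) ≤ g t := fun t ht => by
    have h := srad_ge_ball hK hball (t := r * t) (hin t ht.1 ht.2)
    rw [hgt t ht.1, show r ^ 2 - (r * t) ^ 2 = r ^ 2 * (1 - t ^ 2) by ring,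
      Real.sqrt_mul (sq_nonneg r), Real.sqrt_sq hr.le] at h
    exact le_of_mul_le_mul_left h hr
  have sub : ∀ (F G : ℝ → ℝ) (k : ℝ), (∀ t, 0 ≤ t → F (r * t) = k * G t) →
      ∫ t in (0 : ℝ)..r, F t = r * k * ∫ t in (0 : ℝ)..1, G t := by
    intro F G k hFG
    have h := intervalIntegral.integral_comp_mul_left F hr.ne' (a := (0 : ℝ)) (b := 1)
    rw [mul_zero, mul_one, smul_eq_mul] at h
    rw [mul_assoc, ← intervalIntegral.integral_const_mul,
      ← intervalIntegral.integral_congr (fun t ht => hFG t (by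
        rw [uIcc_of_le zero_le_one] at ht; exact ht.1)), h, mul_inv_cancel_left₀ hr.ne']
  have i2 := intervalIntegrable_sv hK (-r) r
  rw [intervalIntegral.integral_const_mul,
    integral_even (fun t => by rw [hev]) (intervalIntegrable_srad hK 2 (-r) r) hr.le,
    sub _ (fun t => g t ^ 2) (r ^ 2) (fun t ht => by rw [hgt t ht]; ring)] at hsl
  rw [integral_even (sv_even hs) i2 hr.le,
    sub _ (fun t => g t ^ 3) (4 * Real.pi / 3 * r ^ 3) hgt3] at hV
  rw [integral_even (fun t => by rw [hev]) (intervalIntegrable_srad hK 5 (-r) r) hr.le,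
    sub _ (fun t => g t ^ 5) (r ^ 5) (fun t ht => by rw [hgt t ht]; ring),
    integral_even (fun t => by rw [sv_even hs, neg_sq]) (i2.continuousOn_mul (by fun_prop)) hr.le,
    sub _ (fun t => t ^ 2 * g t ^ 3) (4 * Real.pi / 3 * r ^ 5)
      (fun t ht => by rw [hgt3 t ht]; ring)] at hm
  have hC : (∫ t in (0 : ℝ)..1, g t ^ 5) / 5 ≤ ∫ t in (0 : ℝ)..1, t ^ 2 * g t ^ 3 := by
    refine le_of_mul_le_mul_left ?_ (by positivity : (0 : ℝ) < 8 * Real.pi * r ^ 6)
    nlinarith [hm]
  refine ⟨g, hconc, hanti, hnn, hge, hC, by rw [← hV]; ring, ?_⟩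
  have e : ((4 * Real.pi / 3) ^ ((2 : ℝ) / 3)) ^ 3 = (4 * Real.pi / 3) ^ 2 := by
    rw [← Real.rpow_natCast _ 3, ← Real.rpow_mul (by positivity)]
    norm_num
  rw [hsl]
  linear_combination (8 * r ^ 9 * (∫ t in (0 : ℝ)..1, g t ^ 2) ^ 3) * e

/-- The value of the normalised projection volume at the four dimensional ball. -/
noncomputable def petty4 : ℝ := 1024 / 81

/-- The projection inequality for the slices in the direction of a contact point. -/
theorem sliceInt_ge4 {r c : ℝ} (hK : IsCompact K) (hc : Convex ℝ K) (hs : ∀ x ∈ K, -x ∈ K)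
    (hr : 0 < r) (hball : closedBall 0 r ⊆ K) (hslab : ∀ x ∈ K, |x 0| ≤ r)
    (hiso : ∀ v, ∫ x in K, ⟪v, x⟫ ^ 2 = c * ‖v‖ ^ 2) :
    petty4 * r * (volume K).toReal ^ 2 ≤ petty3 * sliceInt K ^ (2 + 1) ∧
      (petty3 * sliceInt K ^ (2 + 1) ≤ petty4 * r * (volume K).toReal ^ 2 →
        (volume K).toReal = (volume (closedBall (0 : EuclideanSpace ℝ (Fin (2 + 1 + 1))) r)).toReal) := by
  have hπ := Real.pi_pos
  obtain ⟨g, hconc, hanti, hnn, hge, hC, hV, hG⟩ := slice_profile4 hK hc hs hr hball hslab hiso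
  have hp := profile4_aux (fun _ _ => P4_nonneg) (fun _ _ _ => cert4) hconc hanti hnn hge hC
  set I1 := ∫ t in (0 : ℝ)..1, g t ^ 2
  set S := ∫ t in (0 : ℝ)..1, g t ^ 3 with hS
  have gi : IntervalIntegrable (fun t => g t ^ 2) volume 0 1 := by
    refine AntitoneOn.intervalIntegrable ?_
    rw [uIcc_of_le zero_le_one]
    exact fun a _ b hb hab => pow_le_pow_left₀ (hnn b hb) (hanti hab) 2
  have ci : IntervalIntegrable (fun t => 1 - t ^ 2) volume (0 : ℝ) 1 :=
    (by fun_prop : Continuous fun t : ℝ => 1 - t ^ 2).intervalIntegrable _ _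
  have hc2 : ∫ t in (0 : ℝ)..1, (1 - t ^ 2) = 2 / 3 := by
    rw [intervalIntegral.integral_sub intervalIntegrable_const
      ((continuous_pow 2).intervalIntegrable _ _)]
    simp
    norm_num
  have hsq : ∀ t ∈ Icc (0 : ℝ) 1, 1 - t ^ 2 ≤ g t ^ 2 := fun t ht => by
    have h := pow_le_pow_left₀ (Real.sqrt_nonneg _) (hge t ht) 2
    rwa [Real.sq_sqrt (by nlinarith [ht.1, ht.2])] at h
  have hI : 2 / 3 ≤ I1 := hc2 ▸ intervalIntegral.integral_mono_on zero_le_one ci gi hsq
  have hS0 : 0 ≤ S :=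
    intervalIntegral.integral_nonneg zero_le_one fun t ht => pow_nonneg (hnn t ht) 3
  have hsq3 : (√(3 / 2 * I1) ^ 3) ^ 2 = 27 / 8 * I1 ^ 3 := by
    have h := Real.sq_sqrt (by linarith : (0 : ℝ) ≤ 3 / 2 * I1)
    rw [← pow_mul, show 3 * 2 = 2 * 3 from rfl, pow_mul, h]
    ring
  set kk := 32 * Real.pi ^ 4 / 3 * r ^ 9 * (8 / 27) with hkk
  have hk : 0 < kk := by positivity
  have eL : petty4 * r * (volume K).toReal ^ 2 = kk * (16 / (3 * Real.pi) * S) ^ 2 := by
    rw [hV, hkk, petty4]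
    field_simp
    ring
  have eR : petty3 * sliceInt K ^ (2 + 1) = kk * (√(3 / 2 * I1) ^ 3) ^ 2 := by
    rw [hG, hsq3, hkk, petty3]
    ring
  rw [eL, eR]
  refine ⟨mul_le_mul_of_nonneg_left (pow_le_pow_left₀ (by positivity) (by linarith) 2) hk.le,
    fun hle => ?_⟩
  have h1 := (pow_le_pow_iff_left₀ (by positivity) (by positivity) two_ne_zero).1
    (le_of_mul_le_mul_left hle hk)
  have hI' : I1 = 2 / 3 := le_antisymm (by linarith) hI
  have h0 : ∫ t in (0 : ℝ)..1, (g t ^ 2 - (1 - t ^ 2)) = 0 := by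
    rw [intervalIntegral.integral_sub gi ci, hc2]; linarith
  have hae := (intervalIntegral.integral_eq_zero_iff_of_le_of_nonneg_ae zero_le_one
    (by filter_upwards [ae_restrict_mem measurableSet_Ioc] with t ht
        exact sub_nonneg.2 (hsq t (Ioc_subset_Icc_self ht))) (gi.sub ci)).1 h0
  have hS' : S = 3 * Real.pi / 16 := by
    rw [← int_c3, hS, intervalIntegral.integral_of_le zero_le_one,
      intervalIntegral.integral_of_le zero_le_one]
    refine integral_congr_ae ?_
    filter_upwards [hae, ae_restrict_mem measurableSet_Ioc] with t ht htI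
    have h2 : g t ^ 2 = 1 - t ^ 2 := sub_eq_zero.1 ht
    rw [← h2, Real.sqrt_sq (hnn t (Ioc_subset_Icc_self htI))]
  rw [hV, hS', volume_closedBall_eq _ hr.le, kap_eq_unitBallVol (by norm_num),
    show 2 + 1 + 1 = 4 from rfl, unitBallVol_eq (by norm_num : 0 < 4),
    show ((4 : ℕ) : ℝ) / 2 + 1 = ((2 : ℕ) : ℝ) + 1 by norm_num, Real.Gamma_nat_eq_factorial,
    ENNReal.toReal_ofReal (by positivity)]
  have e : √Real.pi ^ 4 = Real.pi ^ 2 := by
    rw [show 4 = 2 * 2 from rfl, pow_mul, Real.sq_sqrt hπ.le]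
  rw [e]
  norm_num [Nat.factorial]
  ring

/-- Petty's inequality in dimension four. -/
theorem petty_four : LowerBound (2 + 1 + 1) petty4 :=
  petty_step_isotropic (by unfold petty4; norm_num) (by unfold petty3; positivity) petty_three
    fun _ hK hc hs _ _ hr hball hslab hiso => (sliceInt_ge4 hK hc hs hr hball hslab hiso).1

end Vale.Agent.P237N
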