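import Vale.Agent.P237N.FisherProfile

/-!
# The slice profile of a balanced polytope, in every dimension

For a polytope between a ball and a slab whose second moments minus a multiple of the boundary Fisher
form are isotropic, the normalised profile `g` of the slice volumes satisfies one moment inequality,
in which the Fisher form is bounded below through any test function of the height and the profile.
-/

namespace Vale.Agent.P237N

open MeasureTheory Set Metric Filter Topology Vale.Agent.P237 Vale.Agent.P237R Vale.Agent.P237U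
open scoped RealInnerProductSpace ENNReal Pointwise

variable {j : ℕ}

/-- Among sets of given volume the centred ball has the smallest polar moment. -/
lemma ball_moment_ge {S : Set (EuclideanSpace ℝ (Fin (j + 1)))} (hS : IsCompact S) {R : ℝ}
    (hR : 0 ≤ R) (hvol : kap (j + 1) * R ^ (j + 1) = (volume S).toReal) :
    ENNReal.ofReal ((j + 1 : ℝ) / (j + 3) * (volume S).toReal * R ^ 2)
      ≤ ∫⁻ y in S, ENNReal.ofReal (‖y‖ ^ 2) := by
  set a := (volume S).toReal with ha
  set κ := kap (j + 1)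
  have hκ : 0 < κ := kap_pos _
  rw [lintegral_eq_lintegral_meas_lt _ (Eventually.of_forall fun y => sq_nonneg _)
    (by fun_prop : Measurable fun y : EuclideanSpace ℝ (Fin (j + 1)) => ‖y‖ ^ 2).aemeasurable]
  have hle : ∀ t ∈ Ioc 0 (R ^ 2), ENNReal.ofReal (a - κ * √t ^ (j + 1))
      ≤ (volume.restrict S) {y : EuclideanSpace ℝ (Fin (j + 1)) | t < ‖y‖ ^ 2} := by
    intro t ht
    rw [Measure.restrict_apply (measurableSet_lt measurable_const (by fun_prop)),
      ENNReal.ofReal_sub _ (by positivity), ha, ENNReal.ofReal_toReal hS.measure_lt_top.ne,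
      tsub_le_iff_right]
    refine (measure_mono (fun y hy => ?_)).trans ((measure_union_le _ (closedBall 0 √t)).trans
      (add_le_add le_rfl (le_of_eq ?_)))
    · by_cases h : t < ‖y‖ ^ 2
      · exact Or.inl ⟨h, hy⟩
      · exact Or.inr (mem_closedBall_zero_iff.2 ((Real.le_sqrt (norm_nonneg y) ht.1.le).2 (not_lt.1 h)))
    · rw [volume_closedBall_eq _ (Real.sqrt_nonneg t)]
  refine le_trans ?_ ((setLIntegral_mono' measurableSet_Ioc hle).trans
    (lintegral_mono_set Ioc_subset_Ioi_self))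
  have hpos : ∀ᵐ t ∂volume.restrict (Ioc 0 (R ^ 2)), 0 ≤ a - κ * √t ^ (j + 1) := by
    filter_upwards [ae_restrict_mem measurableSet_Ioc] with t ht
    rw [← hvol, ← mul_sub]
    exact mul_nonneg hκ.le (sub_nonneg.2 (pow_le_pow_left₀ (Real.sqrt_nonneg t)
      ((Real.sqrt_le_left hR).2 ht.2) _))
  have hcont : Continuous fun t : ℝ => a - κ * √t ^ (j + 1) := by fun_prop
  rw [← ofReal_integral_eq_lintegral_ofReal
    (hcont.continuousOn.integrableOn_Icc.mono_set Ioc_subset_Icc_self) hpos,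
    ← intervalIntegral.integral_of_le (sq_nonneg R),
    intervalIntegral.integral_eq_sub_of_hasDerivAt_of_le (sq_nonneg R)
      (f := fun t => a * t - κ * (2 / ((j : ℝ) + 3) * √t ^ (j + 3))) (by fun_prop) (fun t ht => by
        have h0 := (Real.sqrt_pos.2 ht.1).ne'
        refine (((hasDerivAt_id' t).const_mul a).fun_sub ((((Real.hasDerivAt_sqrt ht.1.ne').fun_pow
          (j + 3)).const_mul (2 / ((j : ℝ) + 3))).const_mul κ)).congr_deriv ?_
        have e : √t ^ (j + 3 - 1) = √t ^ (j + 1) * √t := by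
          rw [← pow_succ, show j + 3 - 1 = j + 1 + 1 by omega]
        rw [e]
        field_simp
        push_cast
        ring)
      (hcont.intervalIntegrable _ _)]
  refine ENNReal.ofReal_le_ofReal (le_of_eq ?_)
  rw [Real.sqrt_sq hR, Real.sqrt_zero, ← hvol, zero_pow (by omega : j + 3 ≠ 0)]
  have : (0 : ℝ) < (j : ℝ) + 3 := by positivity
  field_simp
  ring

/-- The radius of the ball with the volume of a slice. -/
noncomputable def sliceRad (K : Set (EuclideanSpace ℝ (Fin (j + 1 + 1)))) (t : ℝ) : ℝ :=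
  (sv K t / kap (j + 1)) ^ ((j + 1 : ℕ) : ℝ)⁻¹

variable {K : Set (EuclideanSpace ℝ (Fin (j + 1 + 1)))}

lemma sliceRad_nonneg (t : ℝ) : 0 ≤ sliceRad K t :=
  Real.rpow_nonneg (div_nonneg (sv_nonneg t) (kap_pos _).le) _

lemma sliceRad_pow (t : ℝ) : kap (j + 1) * sliceRad K t ^ (j + 1) = sv K t := by
  rw [sliceRad, Real.rpow_inv_natCast_pow (div_nonneg (sv_nonneg t) (kap_pos _).le)
    (Nat.succ_ne_zero j)]
  field_simp [(kap_pos (j + 1)).ne']

lemma sliceRad_gfun (t : ℝ) :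
    gfun K t = kap (j + 1) ^ ((j : ℝ) / ((j + 1 : ℕ) : ℝ)) * sliceRad K t ^ j := by
  rw [gfun]
  conv_lhs => rw [← sliceRad_pow (K := K) t]
  rw [Real.mul_rpow (kap_pos _).le (pow_nonneg (sliceRad_nonneg t) _)]
  congr 1
  rw [← Real.rpow_natCast (sliceRad K t) (j + 1), ← Real.rpow_mul (sliceRad_nonneg t),
    ← Real.rpow_natCast (sliceRad K t) j]
  congr 1
  field_simp

lemma measurable_sliceRad (hK : IsCompact K) : Measurable (sliceRad K) :=
  ((measurable_sv hK).div_const _).pow_const _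

lemma sliceRad_le (hK : IsCompact K) (t : ℝ) :
    sliceRad K t ≤ ((volume (etail (j + 1) '' K)).toReal / kap (j + 1)) ^ ((j + 1 : ℕ) : ℝ)⁻¹ :=
  Real.rpow_le_rpow (div_nonneg (sv_nonneg t) (kap_pos _).le)
    (div_le_div_of_nonneg_right (sv_le hK t) (kap_pos _).le) (by positivity)

lemma intervalIntegrable_sliceRad (hK : IsCompact K) (k : ℕ) (a b : ℝ) :
    IntervalIntegrable (fun t => sliceRad K t ^ k) volume a b := by
  rw [intervalIntegrable_iff]
  refine Measure.integrableOn_of_bounded measure_Ioc_lt_top.ne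
    ((measurable_sliceRad hK).pow_const k).aestronglyMeasurable
    (M := (((volume (etail (j + 1) '' K)).toReal / kap (j + 1)) ^ ((j + 1 : ℕ) : ℝ)⁻¹) ^ k)
    (Eventually.of_forall fun t => ?_)
  rw [Real.norm_of_nonneg (pow_nonneg (sliceRad_nonneg t) k)]
  exact pow_le_pow_left₀ (sliceRad_nonneg t) (sliceRad_le hK t) k

lemma polar_moment_ge_gen (hK : IsCompact K) (hne : K.Nonempty) :
    kap (j + 1) * ((j + 1 : ℝ) / (j + 3)) * ∫ t in (sLo K)..(sHi K), sliceRad K t ^ (j + 3)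
      ≤ ∫ x in K, ‖etail (j + 1) x‖ ^ 2 := by
  obtain ⟨p, hp, hp0⟩ := exists_lo hK hne
  have hle : sLo K ≤ sHi K := (height_mem hK hp).1.trans (height_mem hK hp).2
  have hc : Continuous fun x : EuclideanSpace ℝ (Fin (j + 1 + 1)) => ‖etail (j + 1) x‖ ^ 2 :=
    (continuous_etail _).norm.pow 2
  have hint : IntegrableOn (fun t => kap (j + 1) * ((j + 1 : ℝ) / (j + 3)) * sliceRad K t ^ (j + 3))
      (Ioc (sLo K) (sHi K)) :=
    ((intervalIntegrable_iff_integrableOn_Ioc_of_le hle).1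
      ((intervalIntegrable_sliceRad hK _ _ _).const_mul _))
  rw [← intervalIntegral.integral_const_mul, intervalIntegral.integral_of_le hle]
  refine (ENNReal.ofReal_le_ofReal_iff (integral_nonneg fun x => sq_nonneg _)).1 ?_
  rw [ofReal_integral_eq_lintegral_ofReal hint (Eventually.of_forall fun t => by
      have := sliceRad_nonneg (K := K) t; have := kap_pos (j + 1); positivity),
    ofReal_integral_eq_lintegral_ofReal (hc.continuousOn.integrableOn_compact hK)
      (Eventually.of_forall fun x => sq_nonneg _),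
    ← lintegral_indicator hK.measurableSet,
    lintegral_econs (hc.measurable.ennreal_ofReal.indicator hK.measurableSet)]
  refine (setLIntegral_le_lintegral _ _).trans (lintegral_mono fun t => ?_)
  refine le_trans (le_of_eq ?_) ((ball_moment_ge (isCompact_slice hK t) (sliceRad_nonneg t)
    (sliceRad_pow t)).trans (le_of_eq ?_))
  · rw [show (volume (slice K t)).toReal = sv K t from rfl, ← sliceRad_pow t]
    congr 1
    ring
  rw [← lintegral_indicator (isCompact_slice hK t).measurableSet]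
  refine lintegral_congr fun y => ?_
  by_cases hy : econs t y ∈ K
  · rw [indicator_of_mem (show y ∈ slice K t from hy), indicator_of_mem hy, etail_econs]
  · rw [indicator_of_notMem (show y ∉ slice K t from hy), indicator_of_notMem hy]

lemma slice_zero_mem_gen {r t : ℝ} (hball : closedBall 0 r ⊆ K) (ht : |t| ≤ r) :
    (slice K t).Nonempty := by
  refine ⟨0, hball (mem_closedBall_zero_iff.2 ?_)⟩
  have h := norm_econs_sq t (0 : EuclideanSpace ℝ (Fin (j + 1)))
  rw [norm_zero, zero_pow two_ne_zero, add_zero, ← sq_abs t] at h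
  rwa [(pow_left_inj₀ (norm_nonneg _) (abs_nonneg _) two_ne_zero).1 h]

lemma sliceRad_ge_ball {r t : ℝ} (hK : IsCompact K) (hball : closedBall 0 r ⊆ K) (ht : |t| ≤ r) :
    √(r ^ 2 - t ^ 2) ≤ sliceRad K t := by
  have hr : 0 ≤ r ^ 2 - t ^ 2 := sub_nonneg.2 ((sq_abs t).symm ▸ pow_le_pow_left₀ (abs_nonneg t) ht 2)
  have hsub : closedBall (0 : EuclideanSpace ℝ (Fin (j + 1))) √(r ^ 2 - t ^ 2) ⊆ slice K t := by
    intro y hy
    refine hball (mem_closedBall_zero_iff.2 ((pow_le_pow_iff_left₀ (norm_nonneg _)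
      ((abs_nonneg t).trans ht) two_ne_zero).1 ?_))
    rw [norm_econs_sq]
    have := pow_le_pow_left₀ (norm_nonneg y) (mem_closedBall_zero_iff.1 hy) 2
    rw [Real.sq_sqrt hr] at this
    linarith
  have h := ENNReal.toReal_mono (isCompact_slice hK t).measure_lt_top.ne (measure_mono (μ := volume) hsub)
  rw [volume_closedBall_eq _ (Real.sqrt_nonneg _),
    ENNReal.toReal_ofReal (by have := kap_pos (j + 1); positivity)] at h
  change _ ≤ sv K t at h
  rw [← sliceRad_pow t] at h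
  exact (pow_le_pow_iff_left₀ (Real.sqrt_nonneg _) (sliceRad_nonneg t) (Nat.succ_ne_zero j)).1
    (le_of_mul_le_mul_left h (kap_pos _))

lemma sliceRad_combo (hK : IsCompact K) (hc : Convex ℝ K) {x y a b : ℝ}
    (hx : (slice K x).Nonempty) (hy : (slice K y).Nonempty) (ha : 0 ≤ a) (hb : 0 ≤ b)
    (hab : a + b = 1) : a * sliceRad K x + b * sliceRad K y ≤ sliceRad K (a * x + b * y) := by
  have hsub : a • slice K x + b • slice K y ⊆ slice K (a * x + b * y) := by
    rintro _ ⟨_, ⟨p, hp, rfl⟩, _, ⟨q, hq, rfl⟩, rfl⟩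
    have h := hc hp hq ha hb hab
    rw [smul_econs, smul_econs, econs_add] at h
    exact h
  have h := bm_convex (n := j + 1) (Nat.succ_pos j) (isCompact_slice hK x) (convex_slice hc x) hx
    (isCompact_slice hK y) (convex_slice hc y) hy ha hb
  have h2 := ENNReal.toReal_mono (isCompact_slice hK _).measure_lt_top.ne
    (measure_mono (μ := volume) hsub)
  have h3 := h.trans (Real.rpow_le_rpow ENNReal.toReal_nonneg h2 (by positivity))
  have hk : (0 : ℝ) < kap (j + 1) := kap_pos _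
  simp only [sliceRad, Real.div_rpow (sv_nonneg _) hk.le]
  rw [← mul_div_assoc, ← mul_div_assoc, ← add_div]
  exact div_le_div_of_nonneg_right h3 (Real.rpow_nonneg hk.le _)

/-- The moments of a body whose second moments minus a multiple of a form are isotropic. -/
lemma balanced_moments {N : ℕ} (hK : IsCompact K) {w : Fin N → EuclideanSpace ℝ (Fin (j + 1 + 1))}
    {q : Fin N → ℝ} {β c : ℝ}
    (hbal : ∀ v, (∫ x in K, ⟪v, x⟫ ^ 2) - β * ∑ i, q i * ⟪w i, v⟫ ^ 2 = c * ‖v‖ ^ 2) :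
    ∫ x in K, ‖etail (j + 1) x‖ ^ 2 = ((j : ℝ) + 1) * (∫ x in K, x 0 ^ 2)
      + β * ((∑ i, q i * ‖w i‖ ^ 2) - ((j : ℝ) + 1 + 1) * ∑ i, q i * w i 0 ^ 2) := by
  have h : ∀ a : Fin (j + 1 + 1), ∫ x in K, x a ^ 2 = c + β * ∑ i, q i * w i a ^ 2 := fun a => by
    have := hbal (EuclideanSpace.single a (1 : ℝ))
    simp only [EuclideanSpace.inner_single_left, EuclideanSpace.inner_single_right,
      EuclideanSpace.norm_single, norm_one, one_pow, mul_one, map_one, one_mul, conj_trivial] at this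
    linarith
  have e : ∀ x : EuclideanSpace ℝ (Fin (j + 1 + 1)), ‖etail (j + 1) x‖ ^ 2
      = ∑ i : Fin (j + 1), x (Fin.succ i) ^ 2 := fun x => by
    rw [EuclideanSpace.norm_sq_eq]
    simp [etail, sq_abs, Fin.tail]
  simp_rw [e]
  rw [integral_finsetSum _ (fun i _ =>
    (by fun_prop : Continuous fun x : EuclideanSpace ℝ (Fin (j + 1 + 1)) => x (Fin.succ i) ^ 2).continuousOn.integrableOn_compact hK)]
  simp only [h, Finset.sum_add_distrib, ← Finset.mul_sum, Finset.sum_const, Finset.card_univ,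
    Fintype.card_fin, nsmul_eq_mul]
  rw [Finset.sum_comm]
  have e2 : ∀ i, ∑ k : Fin (j + 1), q i * w i (Fin.succ k) ^ 2
      = q i * ‖w i‖ ^ 2 - q i * w i 0 ^ 2 := fun i => by
    rw [← Finset.mul_sum, EuclideanSpace.norm_sq_eq,
      Fin.sum_univ_succ (f := fun k => ‖w i k‖ ^ 2)]
    simp only [Real.norm_eq_abs, sq_abs]
    ring
  simp only [e2, Finset.sum_sub_distrib]
  push_cast
  ring

/-- The slice volumes of a compact set are upper semicontinuous in the height. -/
lemma sv_le_of_tendsto {n : ℕ} {K : Set (EuclideanSpace ℝ (Fin (n + 1)))} (hK : IsCompact K)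
    {t : ℕ → ℝ} {t₀ L : ℝ} (ht : Tendsto t atTop (𝓝 t₀))
    (hL : Tendsto (fun k => sv K (t k)) atTop (𝓝 L)) : L ≤ sv K t₀ := by
  set A : ℕ → Set (EuclideanSpace ℝ (Fin n)) := fun k => ⋃ i, slice K (t (k + i)) with hA
  have hAm : ∀ k, MeasurableSet (A k) := fun k =>
    MeasurableSet.iUnion fun i => (isCompact_slice hK _).measurableSet
  have hAsub : ∀ k, A k ⊆ etail n '' K := fun k => iUnion_subset fun i => slice_subset_image _
  have hfin : volume (etail n '' K) ≠ ⊤ := (hK.image (continuous_etail n)).measure_lt_top.ne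
  have hanti : Antitone A := fun k l hkl => iUnion_subset fun i => by
    refine Subset.trans ?_ (subset_iUnion _ (l - k + i))
    rw [show k + (l - k + i) = l + i by omega]
  have hI : ⋂ k, A k ⊆ slice K t₀ := by
    intro y hy
    rw [mem_iInter] at hy
    by_contra hn
    have hev : ∀ᶠ k in atTop, econs (t k) y ∉ K :=
      ((((by unfold econs; fun_prop : Continuous fun s : ℝ => econs s y)).tendsto t₀).comp ht).eventually (hK.isClosed.isOpen_compl.mem_nhds hn)
    obtain ⟨k, hk⟩ := eventually_atTop.1 hev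
    obtain ⟨i, hi⟩ := mem_iUnion.1 (hy k)
    exact hk (k + i) (Nat.le_add_right k i) hi
  have hlim := (ENNReal.tendsto_toReal (measure_ne_top_of_subset ((iInter_subset A 0).trans (hAsub 0)) hfin)).comp
    (tendsto_measure_iInter_atTop (μ := volume) (fun k => (hAm k).nullMeasurableSet) hanti
      ⟨0, measure_ne_top_of_subset (hAsub 0) hfin⟩)
  refine le_trans (le_of_tendsto_of_tendsto' hL hlim fun k => ?_) ?_
  · exact ENNReal.toReal_mono (measure_ne_top_of_subset (hAsub k) hfin)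
      (measure_mono (fun y hy => mem_iUnion.2 ⟨0, hy⟩))
  · exact ENNReal.toReal_mono (isCompact_slice hK _).measure_lt_top.ne (measure_mono hI)

/-- The profile of a symmetric body in the direction of a contact point. An upper bound for its
second moments across that direction gives a moment inequality for the profile. -/
theorem slice_profile_body {K : Set (EuclideanSpace ℝ (Fin (j + 1 + 1)))} (hK : IsCompact K)
    (hc : Convex ℝ K) (hs : ∀ x ∈ K, -x ∈ K) {r : ℝ} (hr : 0 < r) (hball : closedBall 0 r ⊆ K)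
    (hslab : ∀ x ∈ K, |x 0| ≤ r) :
    ∃ g : ℝ → ℝ, ConcaveOn ℝ (Icc (0 : ℝ) 1) g ∧ Antitone g ∧ ContinuousOn g (Icc (0 : ℝ) 1) ∧
      (∀ t ∈ Icc (0 : ℝ) 1, 0 ≤ g t) ∧ (∀ t ∈ Icc (0 : ℝ) 1, √(1 - t ^ 2) ≤ g t) ∧
      (∀ t, 0 ≤ t → sv K (r * t) = kap (j + 1) * r ^ (j + 1) * g t ^ (j + 1)) ∧
      sHi K = r ∧ sLo K = -r ∧
      (volume K).toReal = 2 * kap (j + 1) * r ^ (j + 1 + 1) * (∫ t in (0 : ℝ)..1, g t ^ (j + 1)) ∧
      sliceInt K ^ (j + 1) = 2 ^ (j + 1) * kap (j + 1) ^ j * r ^ ((j + 1) * (j + 1))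
        * (∫ t in (0 : ℝ)..1, g t ^ j) ^ (j + 1) ∧
      ∀ E : ℝ, ∫ x in K, ‖etail (j + 1) x‖ ^ 2 ≤ ((j : ℝ) + 1) * (∫ x in K, x 0 ^ 2) + E →
        2 * kap (j + 1) * ((j + 1 : ℝ) / (j + 3)) * r ^ (j + 4) * (∫ t in (0 : ℝ)..1, g t ^ (j + 3))
          ≤ 2 * kap (j + 1) * ((j : ℝ) + 1) * r ^ (j + 4) * (∫ t in (0 : ℝ)..1, t ^ 2 * g t ^ (j + 1))
            + E := by
  set κ := kap (j + 1) with hκdef
  have hκ : 0 < κ := kap_pos _
  have hne : K.Nonempty := ⟨_, hball (mem_closedBall_self hr.le)⟩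
  obtain ⟨hhi, hlo⟩ := height_eq_ball hK hr.le hball hslab
  have hev : ∀ t, sliceRad K (-t) = sliceRad K t := fun t => by simp only [sliceRad, sv_even hs]
  have hzero : ∀ t, r < t → sliceRad K t = 0 := fun t ht => by
    rw [sliceRad, sv, slice_empty hK (fun h => not_lt.2 (hhi ▸ h.2) ht), measure_empty,
      ENNReal.toReal_zero, zero_div, Real.zero_rpow (by positivity)]
  set g : ℝ → ℝ := fun t => sliceRad K (r * max t 0) / r with hg
  have hgt : ∀ t, 0 ≤ t → sliceRad K (r * t) = r * g t := fun t ht => by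
    simp only [hg, max_eq_left ht]
    field_simp
  have hsvg : ∀ t, 0 ≤ t → sv K (r * t) = κ * r ^ (j + 1) * g t ^ (j + 1) := fun t ht => by
    rw [← sliceRad_pow, hgt t ht, mul_pow, hκdef]; ring
  have hin : ∀ u : ℝ, 0 ≤ u → u ≤ 1 → |r * u| ≤ r := fun u h0 h1 => by
    rw [abs_of_nonneg (mul_nonneg hr.le h0)]; exact mul_le_of_le_one_right hr.le h1
  have hanti : Antitone g := by
    intro s t hst
    refine div_le_div_of_nonneg_right ?_ hr.le
    have hs0 : 0 ≤ r * max s 0 := mul_nonneg hr.le (le_max_right _ _)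
    have hle : r * max s 0 ≤ r * max t 0 := mul_le_mul_of_nonneg_left (max_le_max_right 0 hst) hr.le
    set x := r * max s 0
    set y := r * max t 0
    rcases lt_or_ge r y with hy | hy
    · rw [hzero y hy]; exact sliceRad_nonneg _
    rcases eq_or_lt_of_le (hs0.trans hle) with hy0 | hy0
    · rw [← hy0, le_antisymm (hy0 ▸ hle) hs0]
    have hxy : x / y ≤ 1 := (div_le_one hy0).2 hle
    have hx0' : 0 ≤ x / y := div_nonneg hs0 hy0.le
    have h := sliceRad_combo hK hc
      (slice_zero_mem_gen hball (t := y) (by rw [abs_of_pos hy0]; exact hy))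
      (slice_zero_mem_gen hball (t := -y) (by rw [abs_neg, abs_of_pos hy0]; exact hy))
      (a := (1 + x / y) / 2) (b := (1 - x / y) / 2) (by linarith) (by linarith) (by ring)
    have e : (1 + x / y) / 2 * y + (1 - x / y) / 2 * (-y) = x := by field_simp; ring
    rw [hev, e, ← add_mul, show (1 + x / y) / 2 + (1 - x / y) / 2 = 1 by ring, one_mul] at h
    exact h
  have hconc : ConcaveOn ℝ (Icc (0 : ℝ) 1) g := by
    refine ⟨convex_Icc 0 1, fun s hs' t ht a d ha hd had => ?_⟩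
    have h0 : 0 ≤ a * s + d * t := add_nonneg (mul_nonneg ha hs'.1) (mul_nonneg hd ht.1)
    simp only [smul_eq_mul, hg, max_eq_left hs'.1, max_eq_left ht.1, max_eq_left h0]
    rw [← mul_div_assoc, ← mul_div_assoc, ← add_div]
    refine div_le_div_of_nonneg_right ?_ hr.le
    rw [show r * (a * s + d * t) = a * (r * s) + d * (r * t) by ring]
    exact sliceRad_combo hK hc (slice_zero_mem_gen hball (hin s hs'.1 hs'.2))
      (slice_zero_mem_gen hball (hin t ht.1 ht.2)) ha hd had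
  have hnn : ∀ t ∈ Icc (0 : ℝ) 1, 0 ≤ g t := fun t _ => div_nonneg (sliceRad_nonneg _) hr.le
  have hge : ∀ t ∈ Icc (0 : ℝ) 1, √(1 - t ^ 2) ≤ g t := fun t ht => by
    have h := sliceRad_ge_ball hK hball (t := r * t) (hin t ht.1 ht.2)
    rw [hgt t ht.1, show r ^ 2 - (r * t) ^ 2 = r ^ 2 * (1 - t ^ 2) by ring,
      Real.sqrt_mul (sq_nonneg r), Real.sqrt_sq hr.le] at h
    exact le_of_mul_le_mul_left h hr
  have hgc : ContinuousOn g (Icc (0 : ℝ) 1) := by
    have hrad : ∀ x, ContinuousAt (sv K) x → ContinuousAt (sliceRad K) x := fun x hx =>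
      (hx.div_const _).rpow_const (Or.inr (by positivity))
    intro t ht
    rcases eq_or_lt_of_le ht.2 with rfl | ht1
    · refine tendsto_iff_seq_tendsto.2 fun u hu => ?_
      rw [tendsto_nhdsWithin_iff] at hu
      obtain ⟨hu, humem⟩ := hu
      have hlow : ∀ᶠ k in atTop, g 1 ≤ g (u k) := humem.mono fun k hk => hanti hk.2
      refine tendsto_of_subseq_tendsto fun ns hns => ?_
      have hb' : ∀ᶠ k in atTop, g (u (ns k)) ∈ Icc (g 1) (g 0) :=
        (hns.eventually humem).mono fun k hk => ⟨hanti hk.2, hanti hk.1⟩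
      obtain ⟨L, -, φ, hφ, hL⟩ := tendsto_subseq_of_frequently_bounded
        (isBounded_Icc (g 1) (g 0)) hb'.frequently
      refine ⟨φ, ?_⟩
      have hm : ∀ᶠ k in atTop, u (ns (φ k)) ∈ Icc (0 : ℝ) 1 :=
        (hns.comp hφ.tendsto_atTop).eventually humem
      have hsvt : Tendsto (fun k => sv K (r * u (ns (φ k)))) atTop
          (𝓝 (κ * r ^ (j + 1) * L ^ (j + 1))) :=
        ((hL.pow (j + 1)).const_mul (κ * r ^ (j + 1))).congr' (hm.mono fun k hk => (hsvg _ hk.1).symm)
      have h1 := sv_le_of_tendsto hK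
        (((hu.comp (hns.comp hφ.tendsto_atTop)).const_mul r)) hsvt
      rw [hsvg 1 zero_le_one] at h1
      have hL1 : g 1 ≤ L := ge_of_tendsto hL ((hns.comp hφ.tendsto_atTop).eventually hlow)
      have hL0 : 0 ≤ L := (hnn 1 ⟨zero_le_one, le_rfl⟩).trans hL1
      have heq : L = g 1 := le_antisymm ((pow_le_pow_iff_left₀ hL0 (hnn 1 ⟨zero_le_one, le_rfl⟩)
        (Nat.succ_ne_zero j)).1 (le_of_mul_le_mul_left h1 (by positivity))) hL1
      exact heq ▸ hL
    · have hIoo : r * max t 0 ∈ Ioo (sLo K) (sHi K) := by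
        rw [hlo, hhi, max_eq_left ht.1]
        exact ⟨by nlinarith [ht.1], mul_lt_of_lt_one_right hr ht1⟩
      have h := hrad _ ((continuousOn_sv hK hc hne).continuousAt (Ioo_mem_nhds hIoo.1 hIoo.2))
      exact ((h.comp (f := fun s => r * max s 0) (by fun_prop)).div_const r).continuousWithinAt
  have sub : ∀ (F G : ℝ → ℝ) (k : ℝ), (∀ t, 0 ≤ t → F (r * t) = k * G t) →
      ∫ t in (0 : ℝ)..r, F t = r * k * ∫ t in (0 : ℝ)..1, G t := by
    intro F G k hFG
    have h := intervalIntegral.integral_comp_mul_left F hr.ne' (a := (0 : ℝ)) (b := 1)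
    rw [mul_zero, mul_one, smul_eq_mul] at h
    rw [mul_assoc, ← intervalIntegral.integral_const_mul,
      ← intervalIntegral.integral_congr (fun t ht => hFG t (by
        rw [uIcc_of_le zero_le_one] at ht; exact ht.1)), h, mul_inv_cancel_left₀ hr.ne']
  have i2 := intervalIntegrable_sv hK (-r) r
  have hV := integral_sv hK hne
  rw [hhi, hlo, integral_even (sv_even hs) i2 hr.le,
    sub _ (fun t => g t ^ (j + 1)) (κ * r ^ (j + 1)) hsvg] at hV
  have hS : sliceInt K ^ (j + 1) = 2 ^ (j + 1) * κ ^ j * r ^ ((j + 1) * (j + 1))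
      * (∫ t in (0 : ℝ)..1, g t ^ j) ^ (j + 1) := by
    rw [sliceInt, hhi, hlo, intervalIntegral.integral_congr (fun t _ => sliceRad_gfun t),
      intervalIntegral.integral_const_mul,
      integral_even (fun t => by rw [hev]) (intervalIntegrable_sliceRad hK j (-r) r) hr.le,
      sub _ (fun t => g t ^ j) (r ^ j) (fun t ht => by rw [hgt t ht]; ring), mul_pow,
      ← Real.rpow_natCast (κ ^ ((j : ℝ) / ((j + 1 : ℕ) : ℝ))) (j + 1), ← Real.rpow_mul hκ.le,
      div_mul_cancel₀ _ (by positivity : ((j + 1 : ℕ) : ℝ) ≠ 0), Real.rpow_natCast, pow_mul r]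
    ring
  refine ⟨g, hconc, hanti, hgc, hnn, hge, hsvg, hhi, hlo, by rw [← hV]; ring, hS, fun E hE => ?_⟩
  have hm := (polar_moment_ge_gen hK hne).trans hE
  rw [hhi, hlo] at hm
  have hx2 : ∫ x in K, x 0 ^ 2 = ∫ t in (sLo K)..(sHi K), t ^ 2 * sv K t :=
    setIntegral_height_fun hK hne (G := fun t : ℝ => t ^ 2) (by fun_prop)
  rw [hx2, hhi, hlo,
    integral_even (fun t => by rw [hev]) (intervalIntegrable_sliceRad hK (j + 3) (-r) r) hr.le,
    sub _ (fun t => g t ^ (j + 3)) (r ^ (j + 3)) (fun t ht => by rw [hgt t ht]; ring),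
    integral_even (fun t => by rw [sv_even hs, neg_sq]) (i2.continuousOn_mul (by fun_prop)) hr.le,
    sub _ (fun t => t ^ 2 * g t ^ (j + 1)) (κ * r ^ (j + 3))
      (fun t ht => by rw [hsvg t ht]; ring)] at hm
  refine le_of_eq_of_le ?_ (hm.trans (le_of_eq ?_))
  · ring
  · ring

/-- The profile of a body in isotropic position. -/
theorem slice_profile_iso {K : Set (EuclideanSpace ℝ (Fin (j + 1 + 1)))} (hK : IsCompact K)
    (hc : Convex ℝ K) (hs : ∀ x ∈ K, -x ∈ K) {r c : ℝ} (hr : 0 < r) (hball : closedBall 0 r ⊆ K)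
    (hslab : ∀ x ∈ K, |x 0| ≤ r) (hiso : ∀ v, ∫ x in K, ⟪v, x⟫ ^ 2 = c * ‖v‖ ^ 2) :
    ∃ g : ℝ → ℝ, ConcaveOn ℝ (Icc (0 : ℝ) 1) g ∧ Antitone g ∧ ContinuousOn g (Icc (0 : ℝ) 1) ∧
      (∀ t ∈ Icc (0 : ℝ) 1, 0 ≤ g t) ∧ (∀ t ∈ Icc (0 : ℝ) 1, √(1 - t ^ 2) ≤ g t) ∧
      (volume K).toReal = 2 * kap (j + 1) * r ^ (j + 1 + 1) * (∫ t in (0 : ℝ)..1, g t ^ (j + 1)) ∧
      sliceInt K ^ (j + 1) = 2 ^ (j + 1) * kap (j + 1) ^ j * r ^ ((j + 1) * (j + 1))
        * (∫ t in (0 : ℝ)..1, g t ^ j) ^ (j + 1) ∧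
      (∫ t in (0 : ℝ)..1, g t ^ (j + 3))
        ≤ ((j : ℝ) + 3) * (∫ t in (0 : ℝ)..1, t ^ 2 * g t ^ (j + 1)) := by
  obtain ⟨g, hconc, hanti, hgc, hnn, hge, -, -, -, hV, hS, hE⟩ :=
    slice_profile_body hK hc hs hr hball hslab
  refine ⟨g, hconc, hanti, hgc, hnn, hge, hV, hS, ?_⟩
  have h := balanced_moments (N := 0) (w := Fin.elim0) (q := Fin.elim0) (β := 0) hK
    (fun v => by simpa using hiso v)
  have h2 := hE 0 (le_of_eq (by rw [h]; simp))
  have hk := kap_pos (j + 1)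
  refine le_of_mul_le_mul_left ?_
    (by positivity : 0 < 2 * kap (j + 1) * ((j + 1 : ℝ) / (j + 3)) * r ^ (j + 4))
  refine h2.trans (le_of_eq ?_)
  field_simp
  ring

/-- The profile of a balanced polytope in the direction of a contact point. The Fisher form enters
through its lower bound for any test function `t * B |t| (g |t|)`. -/
theorem slice_profile_gen {N : ℕ} [NeZero N] {w : Fin N → EuclideanSpace ℝ (Fin (j + 1 + 1))}
    {b : Fin N → ℝ} (hb : ∀ i, 0 < b i) (hK : IsCompact (polyH w b))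
    (hs : ∀ x ∈ polyH w b, -x ∈ polyH w b) {r c bb : ℝ} (hr : 0 < r) (hbb : 0 ≤ bb)
    (hball : closedBall 0 r ⊆ polyH w b) (hslab : ∀ x ∈ polyH w b, |x 0| ≤ r)
    (hbal : ∀ v, (∫ x in polyH w b, ⟪v, x⟫ ^ 2)
      - bb * ((j : ℝ) + 1) / (((j : ℝ) + 2) * ((j : ℝ) + 3)) * r ^ 4
        * ∑ i, fisherWt w b i * ⟪w i, v⟫ ^ 2 = c * ‖v‖ ^ 2)
    (htr : ∑ i, fisherWt w b i * ‖w i‖ ^ 2
      ≤ ((j + 1 + 1 : ℕ) : ℝ) * (volume (polyH w b)).toReal / r ^ 2) :
    ∃ g : ℝ → ℝ, ConcaveOn ℝ (Icc (0 : ℝ) 1) g ∧ Antitone g ∧ ContinuousOn g (Icc (0 : ℝ) 1) ∧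
      (∀ t ∈ Icc (0 : ℝ) 1, 0 ≤ g t) ∧ (∀ t ∈ Icc (0 : ℝ) 1, √(1 - t ^ 2) ≤ g t) ∧
      (volume (polyH w b)).toReal
        = 2 * kap (j + 1) * r ^ (j + 1 + 1) * (∫ t in (0 : ℝ)..1, g t ^ (j + 1)) ∧
      sliceInt (polyH w b) ^ (j + 1) = 2 ^ (j + 1) * kap (j + 1) ^ j * r ^ ((j + 1) * (j + 1))
        * (∫ t in (0 : ℝ)..1, g t ^ j) ^ (j + 1) ∧
      (∫ t in (0 : ℝ)..1, g t ^ (j + 3)) ≤ ((j : ℝ) + 3) * (∫ t in (0 : ℝ)..1, t ^ 2 * g t ^ (j + 1))
        + bb * (∫ t in (0 : ℝ)..1, g t ^ (j + 1)) ∧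
      ∀ B Bt By H Ht : ℝ → ℝ → ℝ, ContDiff ℝ 1 (fun p : ℝ × ℝ => B p.1 p.2) →
        ContDiff ℝ 1 (fun p : ℝ × ℝ => H p.1 p.2) →
        Continuous (fun p : ℝ × ℝ => Bt p.1 p.2) → Continuous (fun p : ℝ × ℝ => By p.1 p.2) →
        Continuous (fun p : ℝ × ℝ => Ht p.1 p.2) →
        (∀ t y, HasDerivAt (fun s => B s y) (Bt t y) t) → (∀ t y, HasDerivAt (B t) (By t y) y) →
        (∀ t y, HasDerivAt (fun s => H s y) (Ht t y) t) →
        (∀ t y, HasDerivAt (H t) ((2 - 2 * t ^ 2 * B t y) * (t * By t y) * y ^ (j + 1)) y) →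
        (∫ t in (0 : ℝ)..1, g t ^ (j + 3)) ≤ ((j : ℝ) + 3) * (∫ t in (0 : ℝ)..1, t ^ 2 * g t ^ (j + 1))
          + bb * ((∫ t in (0 : ℝ)..1, g t ^ (j + 1)) - (H 1 (g 1) - H 0 (g 0)
            + ∫ t in (0 : ℝ)..1, (((2 - 2 * t ^ 2 * B t (g t)) * (B t (g t) + t * Bt t (g t))
              - ((j + 1 + 1 : ℕ) : ℝ) * t ^ 2 * B t (g t) ^ 2) * g t ^ (j + 1) - Ht t (g t)))) := by
  obtain ⟨g, hconc, hanti, hgc, hnn, hge, hsvg, hhi, hlo, hV, hS, hE⟩ :=
    slice_profile_body hK (convex_polyH w b) hs hr hball hslab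
  set K := polyH w b with hKdef
  set κ := kap (j + 1) with hκdef
  have hκ : 0 < κ := kap_pos _
  set I3 := ∫ t in (0 : ℝ)..1, g t ^ (j + 3)
  set I2 := ∫ t in (0 : ℝ)..1, t ^ 2 * g t ^ (j + 1)
  set I1 := ∫ t in (0 : ℝ)..1, g t ^ (j + 1)
  set TQ := ∑ i, fisherWt w b i * ‖w i‖ ^ 2
  set Q0 := ∑ i, fisherWt w b i * w i 0 ^ 2
  have hjn : ((j + 1 + 1 : ℕ) : ℝ) = (j : ℝ) + 2 := by push_cast; ring
  have hTQ : TQ ≤ ((j : ℝ) + 2) * (2 * κ * r ^ j * I1) := by
    refine htr.trans (le_of_eq ?_)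
    rw [hV, hjn]
    field_simp
    ring
  have hkey : ∀ FF : ℝ, 2 * κ * r ^ j * FF ≤ Q0 → I3 ≤ ((j : ℝ) + 3) * I2 + bb * (I1 - FF) := by
    intro FF hFF
    have h1 : TQ - ((j : ℝ) + 1 + 1) * Q0 ≤ ((j : ℝ) + 2) * (2 * κ * r ^ j * (I1 - FF)) := by
      nlinarith [hFF, hTQ]
    have h2 := mul_le_mul_of_nonneg_left h1
      (by positivity : 0 ≤ bb * ((j : ℝ) + 1) / (((j : ℝ) + 2) * ((j : ℝ) + 3)) * r ^ 4)
    have h3 := (hE _ (le_of_eq (balanced_moments hK hbal))).trans (add_le_add le_rfl h2)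
    refine le_of_mul_le_mul_left ?_
      (by positivity : 0 < 2 * κ * ((j : ℝ) + 1) / ((j : ℝ) + 3) * r ^ (j + 4))
    refine le_of_eq_of_le ?_ (h3.trans (le_of_eq ?_))
    · ring
    · field_simp
      ring
  refine ⟨g, hconc, hanti, hgc, hnn, hge, hV, hS, ?_, ?_⟩
  · have h := hkey 0 (by
      rw [mul_zero]
      exact Finset.sum_nonneg fun i _ => mul_nonneg (div_nonneg (mul_nonneg (Nat.cast_nonneg _)
        ENNReal.toReal_nonneg) (sq_nonneg _)) (sq_nonneg _))
    rwa [sub_zero] at h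
  intro B Bt By H Ht hB hH hBt' hBy' hHt' hBt hBy hHt hHy
  refine hkey _ ?_
  have hr0 := hr.ne'
  have hscale : MapsTo (fun t => t / r) (Icc (0 : ℝ) r) (Icc (0 : ℝ) 1) := fun t ht =>
    ⟨div_nonneg ht.1 hr.le, (div_le_one hr).2 ht.2⟩
  have key := fisher_profile (j := j) hb hK hr hhi hlo (κ := κ) (g := fun t => r * g (t / r))
    (β := fun t y => B (t / r) (y / r) / r ^ 2) (βt := fun t y => Bt (t / r) (y / r) / r ^ 3)
    (βy := fun t y => By (t / r) (y / r) / r ^ 3) (H := fun t y => r ^ j * H (t / r) (y / r))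
    (Ht := fun t y => r ^ j * Ht (t / r) (y / r) / r)
    (continuousOn_const.mul (hgc.comp (by fun_prop) hscale))
    (fun s _ t _ hst => mul_le_mul_of_nonneg_left (hanti (div_le_div_of_nonneg_right hst hr.le)) hr.le)
    (fun t _ => by
      have h := hsvg (|t| / r) (div_nonneg (abs_nonneg t) hr.le)
      rw [mul_div_cancel₀ _ hr0] at h
      have e : sv K t = sv K |t| := by
        rcases abs_choice t with h | h <;> rw [h]
        rw [sv_even hs]
      rw [e, h]
      ring)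
    ((hB.comp ((contDiff_fst.div_const r).prodMk (contDiff_snd.div_const r))).div_const _)
    (contDiff_const.mul (hH.comp ((contDiff_fst.div_const r).prodMk (contDiff_snd.div_const r))))
    (by fun_prop) (by fun_prop) (by fun_prop)
    (fun t y => ((((hBt (t / r) (y / r)).comp t ((hasDerivAt_id t).div_const r)).div_const _)).congr_deriv
      (by field_simp))
    (fun t y => ((((hBy (t / r) (y / r)).comp y ((hasDerivAt_id y).div_const r)).div_const _)).congr_deriv
      (by field_simp))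
    (fun t y => ((((hHt (t / r) (y / r)).comp t ((hasDerivAt_id t).div_const r)).const_mul _)).congr_deriv
      (by field_simp))
    (fun t y => ((((hHy (t / r) (y / r)).comp y ((hasDerivAt_id y).div_const r)).const_mul _)).congr_deriv
      (by
        simp only [id_eq, div_pow, pow_succ]
        field_simp))
  refine le_of_eq_of_le ?_ key
  simp only [div_self hr0, zero_div, mul_div_cancel_left₀ _ hr0]
  have sub : ∀ (F G : ℝ → ℝ) (k : ℝ), (∀ t, 0 ≤ t → F (r * t) = k * G t) →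
      ∫ t in (0 : ℝ)..r, F t = r * k * ∫ t in (0 : ℝ)..1, G t := by
    intro F G k hFG
    have h := intervalIntegral.integral_comp_mul_left F hr.ne' (a := (0 : ℝ)) (b := 1)
    rw [mul_zero, mul_one, smul_eq_mul] at h
    rw [mul_assoc, ← intervalIntegral.integral_const_mul,
      ← intervalIntegral.integral_congr (fun t ht => hFG t (by
        rw [uIcc_of_le zero_le_one] at ht; exact ht.1)), h, mul_inv_cancel_left₀ hr.ne']
  rw [sub _ (fun t => ((2 - 2 * t ^ 2 * B t (g t)) * (B t (g t) + t * Bt t (g t))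
      - ((j + 1 + 1 : ℕ) : ℝ) * t ^ 2 * B t (g t) ^ 2) * g t ^ (j + 1) - Ht t (g t)) (r ^ j / r)
      (fun t _ => by
        simp only [mul_div_cancel_left₀ _ hr0, pow_succ, mul_pow]
        field_simp)]
  field_simp
  congr 1
  refine intervalIntegral.integral_congr fun t _ => ?_
  ring

end Vale.Agent.P237N
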