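import Vale.Agent.P237N.Profile5Def
import Vale.Agent.P237N.Profile4
import Vale.Agent.P237N.Slice4
import Vale.Agent.P237N.SliceProfile

/-!
# The slices of a symmetric five dimensional body in isotropic position
-/

namespace Vale.Agent.P237N

open MeasureTheory Set Metric Filter Topology Vale.Agent.P237 Vale.Agent.P237R Vale.Agent.P237U
open scoped RealInnerProductSpace ENNReal Pointwise

lemma unitBallVol_four : unitBallVol 4 = Real.pi ^ 2 / 2 := by
  rw [unitBallVol_eq (by norm_num : 0 < 4),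
    show ((4 : ℕ) : ℝ) / 2 + 1 = ((2 : ℕ) : ℝ) + 1 by norm_num, Real.Gamma_nat_eq_factorial,
    show (4 : ℕ) = 2 * 2 from rfl, pow_mul, Real.sq_sqrt Real.pi_pos.le]
  norm_num [Nat.factorial]

lemma kap_four : kap 4 = Real.pi ^ 2 / 2 := by
  rw [kap_eq_unitBallVol (by norm_num : 0 < 4), unitBallVol_four]

lemma unitBallVol_five : unitBallVol 5 = 8 * Real.pi ^ 2 / 15 := by
  have hs := Real.sqrt_pos.2 Real.pi_pos
  rw [unitBallVol_eq (by norm_num : 0 < 5),
    show ((5 : ℕ) : ℝ) / 2 + 1 = ((1 / 2 + 1) + 1) + 1 by norm_num,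
    Real.Gamma_add_one (by norm_num), Real.Gamma_add_one (by norm_num),
    Real.Gamma_add_one (by norm_num), Real.Gamma_one_half_eq]
  have e : √Real.pi ^ 5 = Real.pi ^ 2 * √Real.pi := by
    rw [show 5 = 2 * 2 + 1 from rfl, pow_succ, pow_mul, Real.sq_sqrt Real.pi_pos.le]
  rw [e]
  field_simp
  ring

/-- The value of the normalised projection volume at the five dimensional ball. -/
noncomputable def petty5 : ℝ := 3375 * Real.pi ^ 4 / 16384

lemma petty5_pos : 0 < petty5 := by unfold petty5; positivity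

lemma int_c4 : ∫ t in (0 : ℝ)..1, √(1 - t ^ 2) ^ 4 = 8 / 15 := by
  have e : ∀ t ∈ uIcc (0 : ℝ) 1, √(1 - t ^ 2) ^ 4 = 1 - 2 * t ^ 2 + t ^ 4 := fun t ht => by
    rw [uIcc_of_le zero_le_one] at ht
    rw [show 4 = 2 * 2 from rfl, pow_mul, Real.sq_sqrt (by nlinarith [ht.1, ht.2])]
    ring
  rw [intervalIntegral.integral_congr e, intervalIntegral.integral_eq_sub_of_hasDerivAt
    (f := fun t => t - 2 * (t ^ 3 / 3) + t ^ 5 / 5) (fun t _ =>
      (((hasDerivAt_id' t).fun_sub (((hasDerivAt_pow 3 t).div_const 3).const_mul 2)).fun_add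
        ((hasDerivAt_pow 5 t).div_const 5)).congr_deriv (by push_cast; ring))
    ((by fun_prop : Continuous fun t : ℝ => 1 - 2 * t ^ 2 + t ^ 4).intervalIntegrable _ _)]
  norm_num

variable {K : Set (EuclideanSpace ℝ (Fin (3 + 1 + 1)))}

/-- The projection inequality for the slices in the direction of a contact point. -/
theorem sliceInt_ge5 (hp : Profile5) {r c : ℝ} (hK : IsCompact K) (hc : Convex ℝ K)
    (hs : ∀ x ∈ K, -x ∈ K) (hr : 0 < r) (hball : closedBall 0 r ⊆ K) (hslab : ∀ x ∈ K, |x 0| ≤ r)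
    (hiso : ∀ v, ∫ x in K, ⟪v, x⟫ ^ 2 = c * ‖v‖ ^ 2) :
    petty5 * r * (volume K).toReal ^ 3 ≤ petty4 * sliceInt K ^ (3 + 1) ∧
      (petty4 * sliceInt K ^ (3 + 1) ≤ petty5 * r * (volume K).toReal ^ 3 →
        (volume K).toReal = (volume (closedBall (0 : EuclideanSpace ℝ (Fin (3 + 1 + 1))) r)).toReal) := by
  have hπ := Real.pi_pos
  obtain ⟨g, hconc, hanti, -, hnn, hge, hV, hS, hC⟩ :=
    slice_profile_iso hK hc hs hr hball hslab hiso
  norm_num only [Nat.cast_ofNat] at hC
  rw [kap_four] at hV hS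
  have hP := hp g hconc hanti hnn hge (by linarith [hC])
  set I3 := ∫ t in (0 : ℝ)..1, g t ^ 3 with hI3
  set I4 := ∫ t in (0 : ℝ)..1, g t ^ 4 with hI4
  have gi : IntervalIntegrable (fun t => g t ^ 3) volume 0 1 := by
    refine AntitoneOn.intervalIntegrable ?_
    rw [uIcc_of_le zero_le_one]
    exact fun a _ b hb hab => pow_le_pow_left₀ (hnn b hb) (hanti hab) 3
  have ci : IntervalIntegrable (fun t => √(1 - t ^ 2) ^ 3) volume (0 : ℝ) 1 :=
    (by fun_prop : Continuous fun t : ℝ => √(1 - t ^ 2) ^ 3).intervalIntegrable _ _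
  have hcg : ∀ t ∈ Icc (0 : ℝ) 1, √(1 - t ^ 2) ^ 3 ≤ g t ^ 3 := fun t ht =>
    pow_le_pow_left₀ (Real.sqrt_nonneg _) (hge t ht) 3
  have h3 : 3 * Real.pi / 16 ≤ I3 := int_c3 ▸ intervalIntegral.integral_mono_on zero_le_one ci gi hcg
  have h30 : 0 < I3 := lt_of_lt_of_le (by positivity) h3
  have h40 : 0 ≤ I4 := intervalIntegral.integral_nonneg zero_le_one fun t ht => pow_nonneg (hnn t ht) 4
  set R := 8 / 15 * (16 / (3 * Real.pi) * I3) ^ ((4 : ℝ) / 3) with hR
  have hR0 : 0 ≤ R := by positivity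
  have hR3 : R ^ 3 = (8 / 15) ^ 3 * (16 / (3 * Real.pi) * I3) ^ 4 := by
    rw [hR, mul_pow, ← Real.rpow_natCast (_ ^ ((4 : ℝ) / 3)) 3, ← Real.rpow_mul (by positivity)]
    norm_num
  set kk := petty5 * r * (Real.pi ^ 2 * r ^ 5) ^ 3 with hkk
  have hk : 0 < kk := by have := petty5_pos; positivity
  have eL : petty5 * r * (volume K).toReal ^ 3 = kk * I4 ^ 3 := by
    rw [hV, hkk, hI4]
    ring
  have eR : petty4 * sliceInt K ^ (3 + 1) = kk * R ^ 3 := by
    rw [hS, hR3, hkk, petty4, petty5]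
    field_simp
    ring
  rw [eL, eR]
  refine ⟨mul_le_mul_of_nonneg_left (pow_le_pow_left₀ h40 (by linarith) 3) hk.le, fun hle => ?_⟩
  have h1 := (pow_le_pow_iff_left₀ hR0 h40 three_ne_zero).1 (le_of_mul_le_mul_left hle hk)
  have hI' : I3 = 3 * Real.pi / 16 := le_antisymm (by linarith) h3
  have h0 : ∫ t in (0 : ℝ)..1, (g t ^ 3 - √(1 - t ^ 2) ^ 3) = 0 := by
    rw [intervalIntegral.integral_sub gi ci, int_c3]; linarith
  have hae := (intervalIntegral.integral_eq_zero_iff_of_le_of_nonneg_ae zero_le_one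
    (by filter_upwards [ae_restrict_mem measurableSet_Ioc] with t ht
        exact sub_nonneg.2 (hcg t (Ioc_subset_Icc_self ht))) (gi.sub ci)).1 h0
  have hI4' : I4 = 8 / 15 := by
    rw [← int_c4, hI4, intervalIntegral.integral_of_le zero_le_one,
      intervalIntegral.integral_of_le zero_le_one]
    refine integral_congr_ae ?_
    filter_upwards [hae, ae_restrict_mem measurableSet_Ioc] with t ht htI
    rw [(pow_left_inj₀ (hnn t (Ioc_subset_Icc_self htI)) (Real.sqrt_nonneg _) three_ne_zero).1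
      (sub_eq_zero.1 ht)]
  rw [hV, hI4', volume_closedBall_eq _ hr.le, kap_eq_unitBallVol (by norm_num),
    show 3 + 1 + 1 = 5 from rfl, unitBallVol_five, ENNReal.toReal_ofReal (by positivity)]
  ring

/-- Petty's inequality in dimension five. -/
theorem petty_five_of (hp : Profile5) : LowerBound (3 + 1 + 1) petty5 :=
  petty_step_isotropic petty5_pos (by unfold petty4; norm_num) petty_four
    fun _ hK hc hs _ _ hr hball hslab hiso => (sliceInt_ge5 hp hK hc hs hr hball hslab hiso).1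

end Vale.Agent.P237N
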